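import Vale.Agent.P248.Events

/-! Splitting of a configuration. -/

namespace Vale.Agent.P248

open Set Matrix

variable {n : ℕ}

/-- A set of vectors that splits along two independent subspaces. -/
def Split (V : Set (Fin n → ℝ)) : Prop :=
  ∃ V₁ V₂ : Set (Fin n → ℝ), V₁ ∪ V₂ = V ∧ V₁.Nonempty ∧ V₂.Nonempty ∧ (∀ v ∈ V₁, -v ∈ V₁) ∧
    (∀ v ∈ V₂, -v ∈ V₂) ∧ Disjoint (Submodule.span ℝ V₁) (Submodule.span ℝ V₂)

theorem span_dot_eq {S : Set (Fin n → ℝ)} {a b η : Fin n → ℝ} (h : ∀ s ∈ S, a ⬝ᵥ s = b ⬝ᵥ s)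
    (hη : η ∈ Submodule.span ℝ S) : a ⬝ᵥ η = b ⬝ᵥ η := by
  induction hη using Submodule.span_induction with
  | mem s hs => exact h s hs
  | zero => simp
  | add x y _ _ h1 h2 => rw [dotProduct_add, dotProduct_add, h1, h2]
  | smul c x _ h1 => rw [dotProduct_smul, dotProduct_smul, h1]

theorem exists_not_le {W : Set (Fin n → ℝ)} {u a b : Fin n → ℝ} (ha : Atom W u a)
    (hb : Atom W u b) (hne : a ≠ b) : ∃ w, St W u w ∧ w ⬝ᵥ a = 1 ∧ w ⬝ᵥ b = 0 := by
  by_contra hc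
  push Not at hc
  rcases hb.2.2 a ha.1 (fun w hw h1 => (hb.1 w hw).resolve_left (hc w hw h1)) with h | h
  · exact ha.2.1 h
  · exact hne h

namespace Conf

variable {V W : Set (Fin n → ℝ)} {u : Fin n → ℝ}

theorem split_of_orth (h : Conf V W) (hu : u ∈ V) {P : (Fin n → ℝ) → Prop}
    (h1 : ∃ a, Atom W u a ∧ P a) (h2 : ∃ b, Atom W u b ∧ ¬ P b)
    (h3 : ∀ a, Atom W u a → ∀ b, Atom W u b → P a → ¬ P b → Orth W u a b) : Split W := by
  refine ⟨{w | w ∈ W ∧ ∃ a, Atom W u a ∧ P a ∧ w ⬝ᵥ a ≠ 0},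
    {w | w ∈ W ∧ ∀ a, Atom W u a → P a → w ⬝ᵥ a = 0}, ?_, ?_, ?_, ?_, ?_, ?_⟩
  · ext w
    constructor
    · rintro (hw | hw) <;> exact hw.1
    · intro hw
      by_cases hc : ∃ a, Atom W u a ∧ P a ∧ w ⬝ᵥ a ≠ 0
      · exact Or.inl ⟨hw, hc⟩
      · push Not at hc
        exact Or.inr ⟨hw, hc⟩
  · obtain ⟨a, ha, hP⟩ := h1
    obtain ⟨w, hw, hw1⟩ := h.exists_st hu ha.1 ha.2.1
    exact ⟨w, hw.1, a, ha, hP, by rw [hw1]; norm_num⟩
  · obtain ⟨b, hb, hP⟩ := h2
    obtain ⟨w, hw, hw1⟩ := h.exists_st hu hb.1 hb.2.1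
    exact ⟨w, hw.1, fun a ha hPa => (ha.1 w hw).resolve_right fun p => h3 a ha b hb hPa hP w hw p hw1⟩
  · rintro w ⟨hw, a, ha, hP, h0⟩
    exact ⟨h.negW w hw, a, ha, hP, by rwa [neg_dotProduct, neg_ne_zero]⟩
  · rintro w ⟨hw, h0⟩
    exact ⟨h.negW w hw, fun a ha hP => by rw [neg_dotProduct, h0 a ha hP, neg_zero]⟩
  · rw [Submodule.disjoint_def]
    intro η hη1 hη2
    refine h.atom_span hu fun a ha => ?_
    rw [dotProduct_comm]
    by_cases hP : P a
    · have := span_dot_eq (a := a) (b := 0) (fun s hs => by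
        rw [dotProduct_comm, hs.2 a ha hP, zero_dotProduct]) hη2
      rwa [zero_dotProduct] at this
    · have := span_dot_eq (a := a) (b := 0) (fun s hs => by
        obtain ⟨hs1, c, hc, hPc, h0⟩ := hs
        rw [dotProduct_comm, zero_dotProduct]
        rcases h.st_or hu hs1 with p | p
        · exact (ha.1 s p).resolve_right (h3 c hc a ha hPc hP s p ((hc.1 s p).resolve_left h0))
        · have := (ha.1 _ p).resolve_right (h3 c hc a ha hPc hP _ p ((hc.1 _ p).resolve_left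
            (by rwa [neg_dotProduct, neg_eq_zero])))
          rwa [neg_dotProduct, neg_eq_zero] at this) hη1
      rwa [zero_dotProduct] at this

theorem two_atoms (h : Conf V W) (hu : u ∈ V) {e : Fin n → ℝ} (he : Ev W u e) (h0 : e ≠ 0)
    (ha : ¬ Atom W u e) : ∃ a₁ a₂, Atom W u a₁ ∧ Atom W u a₂ ∧ EvLe W u a₁ e ∧ EvLe W u a₂ e ∧
      Orth W u a₁ a₂ := by
  obtain ⟨a₁, h1, h1'⟩ := h.exists_atom hu he h0
  obtain ⟨a₂, h2, h2'⟩ := h.exists_atom hu (he.sub h1.1 h1')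
    (sub_ne_zero.2 fun hc => ha (hc ▸ h1))
  refine ⟨a₁, a₂, h1, h2, h1', fun w hw p => ?_, fun w hw p q => ?_⟩
  · have := h2' w hw p
    rw [dotProduct_sub] at this
    rcases he w hw with r | r <;> rcases h1.1 w hw with s | s <;> linarith
  · have := h2' w hw q
    rw [dotProduct_sub] at this
    rcases he w hw with r | r <;> linarith

theorem atom_of_test (h : Conf V W) (hH : HP V W) (hu : u ∈ V) {e s t : Fin n → ℝ}
    (he : Ev W u e) (h0 : e ≠ 0) (hs : Atom W u s) (ht : Atom W u t) (hts : t ≠ s)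
    (hc : ∀ c, Atom W u c → EvLe W u c e → ¬ Orth W u c s)
    (hsub : ∀ w, St W u w → w ⬝ᵥ e = 1 → w ⬝ᵥ s = 1 → w ⬝ᵥ t = 1) : Atom W u e := by
  by_contra ha
  obtain ⟨w, hw, p, q⟩ := exists_not_le ht hs hts
  have key : ∀ c, Atom W u c → EvLe W u c e → w ⬝ᵥ c = 1 := fun c hc1 hc2 =>
    (hc1.1 w hw).resolve_left fun r => by
      have := h.atom_le_join hH hu ht hc1.1 hs.1 (not_orth (hc c hc1 hc2))
        (fun w hw p q => hsub w hw (hc2 w hw p) q) w hw r q
      linarith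
  obtain ⟨a₁, a₂, h1, h2, h3, h4, h5⟩ := h.two_atoms hu he h0 ha
  exact h5 w hw (key _ h1 h3) (key _ h2 h4)

theorem exists_two (h : Conf V W) (hH : HP V W) (hu : u ∈ V) {P : (Fin n → ℝ) → Prop}
    (h1 : ∃ a, Atom W u a ∧ P a) (h2 : ∃ b, Atom W u b ∧ ¬ P b)
    (h3 : ∀ a, Atom W u a → ∀ b, Atom W u b → P a → ¬ P b → ¬ Orth W u a b) :
    ∃ c, Atom W u c ∧ Atom W u (u - c) := by
  obtain ⟨a, ha, hPa⟩ := h1
  obtain ⟨b, hb, hPb⟩ := h2
  have side : ∀ c d, Atom W u c → Atom W u d → Orth W u c d → (P c ↔ P d) := fun c d hc hd o =>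
    ⟨fun p => by_contra fun q => h3 c hc d hd p q o,
      fun p => by_contra fun q => h3 d hd c hc p q o.symm⟩
  have hab : a ≠ b := fun e => hPb (e ▸ hPa)
  have val : ∀ w, St W u w → ∀ e : Fin n → ℝ, w ⬝ᵥ (u - e) = 1 - w ⬝ᵥ e := fun w hw e => by
    rw [dotProduct_sub, hw.2]
  have orth : ∀ e c d, EvLe W u c e → EvLe W u d (u - e) → Orth W u c d :=
    fun e c d h1 h2 w hw p q => by
      have := h2 w hw q
      rw [val w hw, h1 w hw p] at this
      norm_num at this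
  obtain ⟨w₁, hw₁, p₁, q₁⟩ := exists_not_le ha hb hab
  obtain ⟨w₂, hw₂, p₂, q₂⟩ := exists_not_le hb ha hab.symm
  have ne0 : ∀ e w, St W u w → w ⬝ᵥ e = 0 → u - e ≠ 0 := fun e w hw p q => by
    have := val w hw e
    rw [q, p] at this
    simp at this
  obtain ⟨a', ha', ha''⟩ := h.exists_atom hu ha.1.compl (ne0 a w₂ hw₂ q₂)
  obtain ⟨b', hb', hb''⟩ := h.exists_atom hu hb.1.compl (ne0 b w₁ hw₁ q₁)
  have oa := orth a a a' (fun _ _ p => p) ha''
  have ob := orth b b b' (fun _ _ p => p) hb''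
  have hPa' : P a' := (side _ _ ha ha' oa).1 hPa
  have hPb' : ¬ P b' := fun p => hPb ((side _ _ hb hb' ob).2 p)
  have hab' : a' ≠ b' := fun e => hPb' (e ▸ hPa')
  obtain ⟨z, hz, hz'⟩ := h.he3 hH hu ha'.1 hb'.1.compl ha'.1 ha.1.compl hb.1 hb.1
    (fun w hw _ p2 _ _ q2 _ => ob w hw q2 (by rw [val w hw] at p2; linarith))
    (fun w hw p1 _ _ q1 _ _ => oa w hw (by rw [val w hw] at q1; linarith) p1)
  have z1 : ∀ w, St W u w → w ⬝ᵥ a' = 0 → w ⬝ᵥ b' = 1 → w ⬝ᵥ z = 0 := fun w hw p q =>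
    (hz' w hw).1 p (by rw [val w hw]; linarith) p
  have z2 : ∀ w, St W u w → w ⬝ᵥ a' = 1 → w ⬝ᵥ b' = 0 → w ⬝ᵥ z = 1 := fun w hw p q =>
    (hz' w hw).2.1 p (by rw [val w hw]; linarith) p
  have z3 : ∀ w, St W u w → w ⬝ᵥ a = 1 → w ⬝ᵥ b = 0 → w ⬝ᵥ z = 0 := fun w hw p q =>
    (hz' w hw).2.2.1 (by rw [val w hw]; linarith) q q
  have z4 : ∀ w, St W u w → w ⬝ᵥ a = 0 → w ⬝ᵥ b = 1 → w ⬝ᵥ z = 1 := fun w hw p q =>
    (hz' w hw).2.2.2 (by rw [val w hw]; linarith) q q
  have n1 : z ≠ 0 := fun e => by simpa [e] using z4 w₂ hw₂ q₂ p₂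
  have n2 : u - z ≠ 0 := ne0 z w₁ hw₁ (z3 w₁ hw₁ p₁ q₁)
  obtain ⟨c₀, hc₀, hc₀'⟩ := h.exists_atom hu hz n1
  obtain ⟨d₀, hd₀, hd₀'⟩ := h.exists_atom hu hz.compl n2
  have s1 : ∀ c, Atom W u c → EvLe W u c z → (P c ↔ P d₀) := fun c hc hc' =>
    side _ _ hc hd₀ (orth z c d₀ hc' hd₀')
  have s2 : ∀ d, Atom W u d → EvLe W u d (u - z) → (P d ↔ P d₀) := fun d hd hd' =>
    (side _ _ hc₀ hd (orth z c₀ d hc₀' hd')).symm.trans (s1 c₀ hc₀ hc₀')
  refine ⟨z, ?_⟩
  by_cases hP : P d₀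
  · exact ⟨h.atom_of_test hH hu hz n1 hb' ha' hab'
      (fun c hc hc' => h3 c hc b' hb' ((s1 c hc hc').2 hP) hPb')
      fun w hw p q => (ha'.1 w hw).resolve_left fun r => by linarith [z1 w hw r q],
      h.atom_of_test hH hu hz.compl n2 hb ha hab
      (fun c hc hc' => h3 c hc b hb ((s2 c hc hc').2 hP) hPb)
      fun w hw p q => (ha.1 w hw).resolve_left fun r => by
        rw [val w hw] at p; linarith [z4 w hw r q]⟩
  · exact ⟨h.atom_of_test hH hu hz n1 ha hb hab.symm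
      (fun c hc hc' o => h3 a ha c hc hPa (fun p => hP ((s1 c hc hc').1 p)) o.symm)
      fun w hw p q => (hb.1 w hw).resolve_left fun r => by linarith [z3 w hw q r],
      h.atom_of_test hH hu hz.compl n2 ha' hb' hab'.symm
      (fun c hc hc' o => h3 a' ha' c hc hPa' (fun p => hP ((s2 c hc hc').1 p)) o.symm)
      fun w hw p q => (hb'.1 w hw).resolve_left fun r => by
        rw [val w hw] at p; linarith [z2 w hw q r]⟩

theorem edge_ev (h : Conf V W) (hH : HP V W) (hu : u ∈ V) {c e z : Fin n → ℝ}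
    (hc : Atom W u c) (hc' : Atom W u (u - c)) (he : Ev W u e) (hne : ¬ Atom W u e)
    (hz : Ev W u z) (z0 : ∀ w, St W u w → w ⬝ᵥ e = 0 → w ⬝ᵥ c = 0 → w ⬝ᵥ z = 0)
    (z1 : ∀ w, St W u w → w ⬝ᵥ e = 1 → w ⬝ᵥ c = 1 → w ⬝ᵥ z = 1) : z = e ∨ z = c := by
  have val : ∀ w, St W u w → ∀ e : Fin n → ℝ, w ⬝ᵥ (u - e) = 1 - w ⬝ᵥ e := fun w hw e => by
    rw [dotProduct_sub, hw.2]
  by_cases e0 : e = 0
  · rcases hc.2.2 z hz (fun w hw p => (hc.1 w hw).resolve_left fun q => by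
      linarith [z0 w hw (by simp [e0]) q]) with r | r
    · exact Or.inl (r.trans e0.symm)
    · exact Or.inr r
  by_cases eu : e = u
  · rcases hc'.2.2 _ hz.compl (fun w hw p => by
      rw [val w hw] at p ⊢
      rcases hc.1 w hw with q | q
      · linarith
      · linarith [z1 w hw (eu ▸ hw.2) q]) with r | r
    · exact Or.inl (by rw [eu]; exact (sub_eq_zero.1 r).symm)
    · exact Or.inr (sub_right_injective r)
  have nce : ¬ EvLe W u c e := fun hle => by
    rcases hc'.2.2 _ (he.sub hc.1 hle) (fun w hw p => by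
      rw [dotProduct_sub] at p
      rw [val w hw]
      rcases he w hw with q | q <;> rcases hc.1 w hw with r | r <;> linarith) with r | r
    · exact hne (sub_eq_zero.1 r ▸ hc)
    · exact eu (sub_left_injective r)
  have st : ∀ a, Atom W u a → EvLe W u a e → ∃ w, St W u w ∧ w ⬝ᵥ a = 1 ∧ w ⬝ᵥ c = 0 :=
    fun a ha hle => exists_not_le ha hc fun r => nce (r ▸ hle)
  obtain ⟨a₁, a₂, h1, h2, h3, h4, h5⟩ := h.two_atoms hu he e0 hne
  have key : ∀ z, Ev W u z → (∀ w, St W u w → w ⬝ᵥ e = 0 → w ⬝ᵥ c = 0 → w ⬝ᵥ z = 0) →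
      (∀ w, St W u w → w ⬝ᵥ e = 1 → w ⬝ᵥ c = 1 → w ⬝ᵥ z = 1) → EvLe W u a₁ z ∨ z = c := by
    intro z hz z0 z1
    have F : ∀ a, Atom W u a → EvLe W u a e → ¬ EvLe W u a z →
        ∀ w, St W u w → w ⬝ᵥ z = 1 → w ⬝ᵥ c = 0 → w ⬝ᵥ a = 1 := by
      intro a ha hle hn w hw p q
      refine (ha.1 w hw).resolve_left fun r => ?_
      have := h.atom_le_join hH hu hc' hz.compl ha.1 (by
        by_contra hcon
        refine hn fun w hw p => (hz w hw).resolve_left fun q => hcon ⟨w, hw, ?_, p⟩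
        rw [val w hw]; linarith) (fun w hw p q => by
          rw [val w hw] at p ⊢
          rcases hc.1 w hw with s | s
          · linarith
          · linarith [z1 w hw (hle w hw q) s]) w hw (by rw [val w hw]; linarith) r
      rw [val w hw] at this
      linarith
    by_cases c1 : EvLe W u a₁ z
    · exact Or.inl c1
    right
    by_cases c2 : EvLe W u a₂ z
    · obtain ⟨w, hw, p, q⟩ := st a₂ h2 h4
      exact (h5 w hw (F a₁ h1 h3 c1 w hw (c2 w hw p) q) p).elim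
    · rcases hc.2.2 z hz (fun w hw p => (hc.1 w hw).resolve_left fun q =>
        h5 w hw (F a₁ h1 h3 c1 w hw p q) (F a₂ h2 h4 c2 w hw p q)) with r | r
      · exfalso
        rcases hc'.2.2 e he (fun w hw p => by
          rw [val w hw]
          rcases hc.1 w hw with s | s
          · linarith
          · simpa [r] using z1 w hw p s) with s | s
        · exact e0 s
        · exact hne (s ▸ hc')
      · exact r
  have val' : ∀ w : Fin n → ℝ, w ⬝ᵥ (e + c - z) = w ⬝ᵥ e + w ⬝ᵥ c - w ⬝ᵥ z := fun w => by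
    rw [dotProduct_sub, dotProduct_add]
  rcases key z hz z0 z1 with r | r
  · rcases key (e + c - z) (fun w hw => by
      rw [val']
      rcases he w hw with p | p <;> rcases hc.1 w hw with q | q
      · left; linarith [z0 w hw p q]
      · rcases hz w hw with s | s
        · right; linarith
        · left; linarith
      · rcases hz w hw with s | s
        · right; linarith
        · left; linarith
      · right; linarith [z1 w hw p q])
      (fun w hw p q => by rw [val']; linarith [z0 w hw p q])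
      (fun w hw p q => by rw [val']; linarith [z1 w hw p q]) with s | s
    · obtain ⟨w, hw, p, q⟩ := st a₁ h1 h3
      have := s w hw p
      rw [val', r w hw p, h3 w hw p, q] at this
      norm_num at this
    · left
      have : e - z = 0 := by rw [← sub_self c]; nth_rewrite 1 [← s]; abel
      exact (sub_eq_zero.1 this).symm
  · exact Or.inr r

theorem edge_vert (h : Conf V W) (hH : HP V W) (hu : u ∈ V) {c x z : Fin n → ℝ}
    (hc : Atom W u c) (hc' : Atom W u (u - c)) (hx : x ∈ V)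
    (hne : ¬ ∃ e, Atom W u e ∧ Atom W u (u - e) ∧ x = u - (2 : ℝ) • e)
    (hz : z ∈ dia V (dia W {x, u - (2 : ℝ) • c})) : z = x ∨ z = u - (2 : ℝ) • c := by
  have val : ∀ w, St W u w → ∀ e : Fin n → ℝ, w ⬝ᵥ (u - e) = 1 - w ⬝ᵥ e := fun w hw e => by
    rw [dotProduct_sub, hw.2]
  have val2 : ∀ w, St W u w → ∀ v : Fin n → ℝ,
      w ⬝ᵥ ((1 / 2 : ℝ) • (u - v)) = (1 - w ⬝ᵥ v) / 2 := fun w hw v => by
    rw [dotProduct_smul, val w hw, smul_eq_mul]; ring
  have back : ∀ v : Fin n → ℝ, v = u - (2 : ℝ) • ((1 / 2 : ℝ) • (u - v)) := fun v => by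
    simp [smul_smul]
  have z0 : ∀ w, St W u w → w ⬝ᵥ ((1 / 2 : ℝ) • (u - x)) = 0 → w ⬝ᵥ c = 0 →
      w ⬝ᵥ ((1 / 2 : ℝ) • (u - z)) = 0 := fun w hw p q => by
    have := hz.2 w ⟨hw.1, by
      rw [val2 w hw] at p
      rintro v (rfl | rfl)
      · linarith
      · rw [val w hw, dotProduct_smul, q]; simp⟩
    rw [dotProduct_comm] at this
    rw [val2 w hw, this]
    norm_num
  have z1 : ∀ w, St W u w → w ⬝ᵥ ((1 / 2 : ℝ) • (u - x)) = 1 → w ⬝ᵥ c = 1 →
      w ⬝ᵥ ((1 / 2 : ℝ) • (u - z)) = 1 := fun w hw p q => by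
    have := hz.2 (-w) ⟨h.negW w hw.1, by
      rw [val2 w hw] at p
      rintro v (rfl | rfl)
      · rw [neg_dotProduct]; linarith
      · rw [neg_dotProduct, val w hw, dotProduct_smul, q]; norm_num⟩
    rw [dotProduct_comm, neg_dotProduct] at this
    rw [val2 w hw]
    linarith
  have he := h.ev_of_mem (u := u) hx
  have hz' := h.ev_of_mem (u := u) hz.1
  have fin : (1 / 2 : ℝ) • (u - z) = (1 / 2 : ℝ) • (u - x) ∨ (1 / 2 : ℝ) • (u - z) = c := by
    by_cases ha : Atom W u ((1 / 2 : ℝ) • (u - x))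
    · have := h.edge_ev hH hu hc' (by rwa [sub_sub_cancel]) he.compl
        (fun hb => hne ⟨_, ha, hb, back x⟩) hz'.compl
        (fun w hw p q => by
          rw [val w hw] at p q ⊢
          linarith [z1 w hw (by linarith) (by linarith)])
        (fun w hw p q => by
          rw [val w hw] at p q ⊢
          linarith [z0 w hw (by linarith) (by linarith)])
      rcases this with r | r
      · exact Or.inl (sub_right_injective r)
      · exact Or.inr (sub_right_injective r)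
    · exact h.edge_ev hH hu hc hc' he ha hz' z0 z1
  rcases fin with r | r
  · left; rw [back z, r, ← back x]
  · right; rw [back z, r]

theorem no_cross (h : Conf V W) (hH : HP V W) {X Y : Set (Fin n → ℝ)} (hX : X ⊆ V) (hY : Y ⊆ V)
    (nX : ∀ x ∈ X, -x ∈ X) (hd : ∀ x ∈ X, x ∉ Y)
    (hE : ∀ x ∈ X, ∀ y ∈ Y, ∀ z ∈ dia V (dia W {x, y}), z = x ∨ z = y) {w₀ : Fin n → ℝ}
    (hw₀ : w₀ ∈ W) {S : Set (Fin n → ℝ)} (hS : S.Finite) (hSX : S ⊆ X)
    (hS1 : ∀ x ∈ S, w₀ ⬝ᵥ x = 1) {y : Fin n → ℝ} (hy : y ∈ Y) : y ∉ dia V (dia W S) := by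
  induction S, hS using Set.Finite.induction_on with
  | empty =>
    intro hc
    have h1 := hc.2 w₀ ⟨hw₀, fun _ hv => hv.elim⟩
    have h2 := hc.2 (-w₀) ⟨h.negW _ hw₀, fun _ hv => hv.elim⟩
    rw [dotProduct_neg] at h2
    linarith
  | @insert x S hxS hS ih =>
    intro hc
    have hx : x ∈ X := hSX (Or.inl rfl)
    rcases S.eq_empty_or_nonempty with rfl | hne
    · apply hd x hx
      have : x - y = 0 := h.sepW _ fun w hw => by
        rw [dotProduct_sub]
        rcases h.pm w hw x (hX hx) with p | p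
        · have := hc.2 w ⟨hw, by rintro v (rfl | hv); exacts [p, hv.elim]⟩
          rw [dotProduct_comm] at this
          linarith
        · have := hc.2 (-w) ⟨h.negW _ hw, by
            rintro v (rfl | hv)
            · rw [neg_dotProduct, p, neg_neg]
            · exact hv.elim⟩
          rw [dotProduct_neg, dotProduct_comm] at this
          linarith
      rwa [sub_eq_zero.1 this]
    · rcases hH {-x, y} S (by rintro v (rfl | rfl); exacts [hX (nX x hx), hY hy])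
        (fun v hv => hX (hSX (Or.inr hv))) (insert_nonempty _ _) hne with ⟨w, hw, h1, h2⟩ | ⟨z, h1, h2⟩
      · have p := h1 _ (Or.inl rfl)
        have q := h1 _ (Or.inr rfl)
        have := hc.2 (-w) ⟨h.negW _ hw, by
          rintro v (rfl | hv)
          · rwa [neg_dotProduct, ← dotProduct_neg]
          · rw [neg_dotProduct, h2 v hv, neg_neg]⟩
        rw [dotProduct_neg, dotProduct_comm] at this
        linarith
      · rcases hE _ (nX x hx) y hy z h1 with rfl | rfl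
        · have := h2.2 w₀ ⟨hw₀, fun v hv => hS1 v (Or.inr hv)⟩
          rw [neg_dotProduct, dotProduct_comm, hS1 x (Or.inl rfl)] at this
          norm_num at this
        · exact ih (fun v hv => hSX (Or.inr hv)) (fun v hv => hS1 v (Or.inr hv)) h2

theorem split_of_edges (h : Conf V W) (hH : HP V W) {X Y : Set (Fin n → ℝ)} (hXY : X ∪ Y = V)
    (eX : X.Nonempty) (eY : Y.Nonempty) (nX : ∀ x ∈ X, -x ∈ X) (nY : ∀ y ∈ Y, -y ∈ Y)
    (hd : ∀ x ∈ X, x ∉ Y)
    (hE : ∀ x ∈ X, ∀ y ∈ Y, ∀ z ∈ dia V (dia W {x, y}), z = x ∨ z = y) : Split V := by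
  have hX : X ⊆ V := hXY ▸ subset_union_left
  have hY : Y ⊆ V := hXY ▸ subset_union_right
  refine ⟨X, Y, hXY, eX, eY, nX, nY, ?_⟩
  rw [Submodule.disjoint_def]
  intro η h1 h2
  refine h.sepW _ fun w hw => ?_
  have ne : ∀ Z : Set (Fin n → ℝ), Z ⊆ V → Z.Nonempty → (∀ x ∈ Z, -x ∈ Z) →
      {x | x ∈ Z ∧ w ⬝ᵥ x = 1}.Nonempty := by
    rintro Z hZ ⟨x, hx⟩ nZ
    rcases h.pm w hw x (hZ hx) with p | p
    · exact ⟨x, hx, p⟩
    · exact ⟨-x, nZ x hx, by rw [dotProduct_neg, p, neg_neg]⟩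
  rcases hH {x | x ∈ X ∧ w ⬝ᵥ x = 1} {x | x ∈ Y ∧ w ⬝ᵥ x = 1} (fun _ hv => hX hv.1)
    (fun _ hv => hY hv.1) (ne X hX eX nX) (ne Y hY eY nY) with ⟨w', hw', p, q⟩ | ⟨z, p, q⟩
  · have a1 := span_dot_eq (a := w') (b := w) (fun s hs => by
      rcases h.pm w hw s (hX hs) with r | r
      · rw [r, p s ⟨hs, r⟩]
      · have := p (-s) ⟨nX s hs, by rw [dotProduct_neg, r, neg_neg]⟩
        rw [dotProduct_neg] at this
        linarith) h1
    have a2 := span_dot_eq (a := w') (b := -w) (fun s hs => by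
      rw [neg_dotProduct]
      rcases h.pm w hw s (hY hs) with r | r
      · rw [r, q s ⟨hs, r⟩]
      · have := q (-s) ⟨nY s hs, by rw [dotProduct_neg, r, neg_neg]⟩
        rw [dotProduct_neg] at this
        linarith) h2
    rw [neg_dotProduct] at a2
    linarith
  · exfalso
    have hz : z ∈ X ∪ Y := hXY ▸ p.1
    rcases hz with hz | hz
    · exact h.no_cross hH hY hX nY (fun y hy hx => hd y hx hy)
        (fun y hy x hx z hz => (hE x hx y hy z (by rwa [pair_comm])).symm) hw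
        (h.finV.subset fun _ hv => hY hv.1) (fun _ hv => hv.1) (fun _ hv => hv.2) hz q
    · exact h.no_cross hH hX hY nX hd hE hw
        (h.finV.subset fun _ hv => hX hv.1) (fun _ hv => hv.1) (fun _ hv => hv.2) hz p

theorem split (h : Conf V W) (hH : HP V W) (hn : 2 ≤ n) : Split V ∨ Split W := by
  have i0 : Fin n := ⟨0, by omega⟩
  obtain ⟨u, hu⟩ : V.Nonempty := by
    by_contra hc
    have := h.sepV (Pi.single i0 1) fun v hv => absurd ⟨v, hv⟩ hc
    simpa using congrFun this i0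
  have h2 : {a | Atom W u a}.Nontrivial := by
    by_contra hc
    rw [not_nontrivial_iff] at hc
    obtain ⟨i, j, hij⟩ : ∃ i j : Fin n, i ≠ j := ⟨⟨0, by omega⟩, ⟨1, by omega⟩, by simp⟩
    obtain ⟨a, ha⟩ : ∃ a : Fin n → ℝ, ∀ b, Atom W u b → b = a := by
      rcases hc.eq_empty_or_singleton with r | ⟨a, r⟩
      · exact ⟨0, fun b hb => (show b ∈ (∅ : Set (Fin n → ℝ)) from r ▸ hb).elim⟩
      · exact ⟨a, fun b hb => show b ∈ ({a} : Set (Fin n → ℝ)) from r ▸ hb⟩
    by_cases h0 : a i = 0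
    · have := h.atom_span hu (η := Pi.single i 1) fun b hb => by rw [ha b hb]; simpa using h0
      simpa using congrFun this i
    · have := h.atom_span hu (η := Pi.single i (a j) - Pi.single j (a i)) fun b hb => by
        rw [ha b hb, sub_dotProduct]
        simp [mul_comm]
      have := congrFun this j
      simp [hij.symm] at this
      exact h0 this
  obtain ⟨P, h1, h2, h3 | h3⟩ := seinsche (r := Orth W u) (fun _ _ h => h.symm)
    (h.atoms_finite hu) h2 fun a ha b hb c hc d hd => h.no_path hH hu ha hb hc hd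
  · exact Or.inr (h.split_of_orth hu h1 h2 h3)
  · obtain ⟨c, hc, hc'⟩ := h.exists_two hH hu h1 h2 h3
    have nR : ∀ y : Fin n → ℝ, (∃ e, Atom W u e ∧ Atom W u (u - e) ∧ y = u - (2 : ℝ) • e) →
        ∃ e, Atom W u e ∧ Atom W u (u - e) ∧ -y = u - (2 : ℝ) • e := by
      rintro _ ⟨e, p, q, rfl⟩
      exact ⟨u - e, q, by rwa [sub_sub_cancel], by rw [two_smul, two_smul]; abel⟩
    refine Or.inl (h.split_of_edges hH
      (X := {x | x ∈ V ∧ ¬ ∃ e, Atom W u e ∧ Atom W u (u - e) ∧ x = u - (2 : ℝ) • e})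
      (Y := {x | ∃ e, Atom W u e ∧ Atom W u (u - e) ∧ x = u - (2 : ℝ) • e}) ?_
      ⟨u, hu, ?_⟩ ⟨_, c, hc, hc', rfl⟩ (fun x hx => ⟨h.negV x hx.1, fun p => hx.2 ?_⟩) nR
      (fun x hx => hx.2) ?_)
    · ext x
      constructor
      · rintro (hx | ⟨e, p, -, rfl⟩)
        · exact hx.1
        · exact h.vert_mem hu p.1
      · intro hx
        by_cases p : ∃ e, Atom W u e ∧ Atom W u (u - e) ∧ x = u - (2 : ℝ) • e
        · exact Or.inr p
        · exact Or.inl ⟨hx, p⟩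
    · rintro ⟨e, p, -, q⟩
      apply p.2.1
      have : (2 : ℝ) • e = 0 := by rw [← sub_sub_cancel u ((2 : ℝ) • e), ← q, sub_self]
      simpa using this
    · simpa using nR _ p
    · rintro x hx _ ⟨e, p, q, rfl⟩ z hz
      exact h.edge_vert hH hu p q hx.1 hx.2 hz

end Conf

end Vale.Agent.P248
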