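import Vale.Agent.P248.Sums
import Vale.Agent.P248.Split

/-! The equality case. -/

namespace Vale.Agent.P248

open Set Matrix MeasureTheory Filter Topology Pointwise

variable {n k l : ℕ}

theorem exists_tr (T : (Fin n → ℝ) ≃ₗ[ℝ] (Fin n → ℝ)) :
    ∃ S : (Fin n → ℝ) ≃ₗ[ℝ] (Fin n → ℝ), (∀ y x, S y ⬝ᵥ x = y ⬝ᵥ T x) ∧
      LinearMap.det S.toLinearMap = LinearMap.det T.toLinearMap := by
  have hd : LinearMap.det (toLin' (LinearMap.toMatrix' T.toLinearMap)ᵀ) =
      LinearMap.det T.toLinearMap := by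
    rw [LinearMap.det_toLin', det_transpose, LinearMap.det_toMatrix']
  refine ⟨LinearMap.equivOfDetNeZero (toLin' (LinearMap.toMatrix' T.toLinearMap)ᵀ)
    (hd ▸ (LinearEquiv.isUnit_det' T).ne_zero), fun y x => ?_, hd⟩
  change toLin' (LinearMap.toMatrix' T.toLinearMap)ᵀ y ⬝ᵥ x = _
  rw [toLin'_apply, mulVec_transpose, ← dotProduct_mulVec, LinearMap.toMatrix'_mulVec]
  rfl

theorem polar_image {T S : (Fin n → ℝ) ≃ₗ[ℝ] (Fin n → ℝ)} (h : ∀ y x, S y ⬝ᵥ x = y ⬝ᵥ T x)
    (K : Set (Fin n → ℝ)) : dotPolar (T '' K) = S.symm '' dotPolar K := by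
  ext y
  rw [LinearEquiv.image_symm_eq_preimage]
  simp only [dotPolar, mem_ofPred_eq, mem_preimage, forall_mem_image, h]

theorem mv_image (T : (Fin n → ℝ) ≃ₗ[ℝ] (Fin n → ℝ)) (K : Set (Fin n → ℝ)) :
    mv (T '' K) = mv K := by
  obtain ⟨S, h1, h2⟩ := exists_tr T
  have h3 : LinearMap.det T.toLinearMap ≠ 0 := (LinearEquiv.isUnit_det' T).ne_zero
  have e1 := Measure.addHaar_image_linearMap volume T.toLinearMap K
  have e2 := Measure.addHaar_image_linearMap volume S.symm.toLinearMap (dotPolar K)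
  rw [LinearEquiv.det_coe_symm, h2] at e2
  rw [mv, mv, polar_image h1]
  erw [e1, e2]
  rw [ENNReal.toReal_mul, ENNReal.toReal_mul, ENNReal.toReal_ofReal (abs_nonneg _),
    ENNReal.toReal_ofReal (abs_nonneg _), abs_inv]
  have := abs_pos.2 h3
  field_simp

theorem Body.image {K : Set (Fin n → ℝ)} (h : Body K) (T : (Fin n → ℝ) ≃ₗ[ℝ] (Fin n → ℝ)) :
    Body (T '' K) := by
  refine Body.of_nhds (h.compact.image T.toContinuousLinearEquiv.continuous)
    (h.convex.linear_image T.toLinearMap) ?_ ?_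
  · rintro _ ⟨x, hx, rfl⟩
    exact ⟨-x, h.symm x hx, map_neg _ _⟩
  · have := T.toContinuousLinearEquiv.toHomeomorph.isOpenMap.image_mem_nhds h.mem_nhds
    convert! this using 2
    exact (map_zero T).symm

theorem seg_eq (a : ℝ) : {x : Fin 1 → ℝ | -a ≤ x 0 ∧ x 0 ≤ a} = Icc (fun _ => -a) fun _ => a := by
  ext x
  simp [Pi.le_def, Fin.forall_fin_one]

theorem seg_body {a : ℝ} (ha : 0 < a) : Body {x : Fin 1 → ℝ | -a ≤ x 0 ∧ x 0 ≤ a} := by
  refine ⟨by rw [seg_eq]; exact isCompact_Icc, by rw [seg_eq]; exact convex_Icc _ _,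
    fun x hx => ⟨by simpa using hx.2, by simpa [neg_le] using hx.1⟩, a, ha, fun x hx => ?_⟩
  rw [mem_closedBall_zero_iff] at hx
  exact abs_le.1 ((norm_le_pi_norm x 0).trans hx)

theorem seg_polar {a : ℝ} (ha : 0 < a) : dotPolar {x : Fin 1 → ℝ | -a ≤ x 0 ∧ x 0 ≤ a} =
    {x : Fin 1 → ℝ | -a⁻¹ ≤ x 0 ∧ x 0 ≤ a⁻¹} := by
  ext y
  simp only [dotPolar, mem_ofPred_eq, dotProduct, Fin.sum_univ_one]
  constructor
  · intro h
    have h1 := h (fun _ => a) ⟨by linarith, le_rfl⟩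
    have h2 := h (fun _ => -a) ⟨le_rfl, by linarith⟩
    rw [neg_le, ← one_div, le_div_iff₀ ha, le_div_iff₀ ha]
    constructor <;> linarith
  · intro h x hx
    have := abs_mul (y 0) (x 0)
    have h1 := mul_le_mul (abs_le.2 h) (abs_le.2 hx) (abs_nonneg _) (inv_nonneg.2 ha.le)
    rw [inv_mul_cancel₀ ha.ne'] at h1
    linarith [le_abs_self (y 0 * x 0)]

theorem seg_vol {a : ℝ} (ha : 0 < a) :
    (volume {x : Fin 1 → ℝ | -a ≤ x 0 ∧ x 0 ≤ a}).toReal = 2 * a := by
  rw [seg_eq, Real.volume_Icc_pi_toReal (fun _ => by linarith)]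
  simp [two_mul]

theorem IsHanner.facts {H : Set (Fin n → ℝ)} (h : IsHanner n H) :
    Body H ∧ IsHanner n (dotPolar H) ∧ mv H = 4 ^ n := by
  induction h with
  | segment a ha =>
    refine ⟨seg_body ha, by rw [seg_polar ha]; exact .segment _ (inv_pos.2 ha), ?_⟩
    rw [mv, seg_polar ha, seg_vol ha, seg_vol (inv_pos.2 ha)]
    field_simp
    norm_num
  | @prod k l A B _ _ hA hB =>
    refine ⟨hA.1.prod hB.1, ?_, ?_⟩
    · change IsHanner _ (dotPolar (prodS A B))
      rw [hA.1.polar_prod hB.1]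
      exact .hull hA.2.1 hB.2.1
    · change mv (prodS A B) = _
      rw [hA.1.mv_prod hB.1, hA.2.2, hB.2.2, pow_add]
  | @hull k l A B _ _ hA hB =>
    refine ⟨hA.1.sum hB.1, ?_, ?_⟩
    · change IsHanner _ (dotPolar (sumS A B))
      rw [polar_sumS]
      exact .prod hA.2.1 hB.2.1
    · change mv (sumS A B) = _
      rw [hA.1.mv_sum hB.1, hA.2.2, hB.2.2, pow_add]

/-- Linear images of Hanner polytopes. -/
def LinH (n : ℕ) (K : Set (Fin n → ℝ)) : Prop :=
  ∃ (T : (Fin n → ℝ) ≃ₗ[ℝ] (Fin n → ℝ)) (H : Set (Fin n → ℝ)), IsHanner n H ∧ K = T '' H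

theorem LinH.mv_eq {K : Set (Fin n → ℝ)} (h : LinH n K) : mv K = 4 ^ n := by
  obtain ⟨T, H, h1, rfl⟩ := h
  rw [mv_image, h1.facts.2.2]

theorem LinH.polar {K : Set (Fin n → ℝ)} (h : LinH n K) : LinH n (dotPolar K) := by
  obtain ⟨T, H, h1, rfl⟩ := h
  obtain ⟨S, h2, -⟩ := exists_tr T
  exact ⟨S.symm, _, h1.facts.2.1, polar_image h2 H⟩

theorem LinH.image {K : Set (Fin n → ℝ)} (h : LinH n K) (S : (Fin n → ℝ) ≃ₗ[ℝ] (Fin n → ℝ)) :
    LinH n (S '' K) := by
  obtain ⟨T, H, h1, rfl⟩ := h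
  exact ⟨T.trans S, H, h1, by rw [← image_comp]; rfl⟩

theorem LinH.sum {A : Set (Fin k → ℝ)} {B : Set (Fin l → ℝ)} (hA : LinH k A) (hB : LinH l B) :
    LinH (k + l) (sumS A B) := by
  obtain ⟨T, H, h1, rfl⟩ := hA
  obtain ⟨S, G, h2, rfl⟩ := hB
  refine ⟨((apE k l).symm.trans (T.prodCongr S)).trans (apE k l), _, .hull h1 h2, ?_⟩
  have := LinearMap.image_convexHull
    (((apE k l).symm.trans (T.prodCongr S)).trans (apE k l)).toLinearMap
    ({z | ∃ x ∈ H, z = Fin.append x (0 : Fin l → ℝ)} ∪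
      {z | ∃ y ∈ G, z = Fin.append (0 : Fin k → ℝ) y})
  erw [this]
  rw [sumS]
  congr 1
  ext z
  simp only [← apE_apply, mem_union, mem_ofPred_eq, mem_image, exists_exists_and_eq_and]
  constructor
  · rintro (⟨x, hx, rfl⟩ | ⟨y, hy, rfl⟩)
    · exact ⟨_, Or.inl ⟨x, hx, rfl⟩, by simp⟩
    · exact ⟨_, Or.inr ⟨y, hy, rfl⟩, by simp⟩
  · rintro ⟨_, ⟨x, hx, rfl⟩ | ⟨y, hy, rfl⟩, rfl⟩
    · exact Or.inl ⟨x, hx, by simp⟩
    · exact Or.inr ⟨y, hy, by simp⟩

theorem Body.comap {K : Set (Fin n → ℝ)} (h : Body K) (f : (Fin k → ℝ) →ₗ[ℝ] (Fin n → ℝ))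
    (hf : Function.Injective f) : Body (f ⁻¹' K) := by
  refine Body.of_nhds ((LinearMap.isClosedEmbedding_of_injective
    (LinearMap.ker_eq_bot.2 hf)).isCompact_preimage h.compact) (h.convex.linear_preimage f)
    (fun x hx => by rw [mem_preimage, map_neg]; exact h.symm _ hx) ?_
  exact f.continuous_of_finiteDimensional.continuousAt.preimage_mem_nhds
    (by rw [map_zero]; exact h.mem_nhds)

theorem Body.of_split {K V W : Set (Fin n → ℝ)} (hn : 0 < n) (h : Body K) (hC : Conf V W)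
    (hK : convexHull ℝ V = K) (hS : Split V) :
    ∃ (k l : ℕ) (e : k + l = n) (A : Set (Fin k → ℝ)) (B : Set (Fin l → ℝ))
      (T : (Fin (k + l) → ℝ) ≃ₗ[ℝ] (Fin n → ℝ)), 0 < k ∧ 0 < l ∧ Body A ∧ Body B ∧
      K = T '' sumS A B := by
  obtain ⟨V₁, V₂, hV, ne₁, ne₂, -, -, hd⟩ := hS
  have hVK : V ⊆ K := hK ▸ subset_convexHull ℝ V
  have hcompl : IsCompl (Submodule.span ℝ V₁) (Submodule.span ℝ V₂) := by
    refine ⟨hd, codisjoint_iff.2 ?_⟩
    rw [← Submodule.span_union, hV]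
    by_contra hne
    obtain ⟨f, hf0, hf⟩ := Submodule.exists_le_ker_of_lt_top _ (lt_top_iff_ne_top.2 hne)
    have key : ∀ x : Fin n → ℝ, x ⬝ᵥ (fun i => f (Pi.single i 1)) = f x := fun x => by
      conv_rhs => rw [← Finset.univ_sum_single x, map_sum]
      refine Finset.sum_congr rfl fun i _ => ?_
      have : (Pi.single i (x i) : Fin n → ℝ) = x i • (Pi.single i 1 : Fin n → ℝ) := by
        rw [← Pi.single_smul']
        simp
      rw [this, map_smul, smul_eq_mul]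
    have := hC.sepV (fun i => f (Pi.single i 1)) fun v hv => by
      rw [key]; exact hf (Submodule.subset_span hv)
    exact hf0 (LinearMap.ext fun x => by rw [← key, this]; simp)
  have pos : ∀ U : Set (Fin n → ℝ), U ⊆ V → U.Nonempty →
      0 < Module.finrank ℝ (Submodule.span ℝ U) := by
    rintro U hU ⟨v, hv⟩
    rw [Nat.pos_iff_ne_zero, Ne, Submodule.finrank_eq_zero, Submodule.span_eq_bot]
    intro h0
    obtain ⟨w, hw⟩ : W.Nonempty := by
      by_contra hc
      have := hC.sepW (Pi.single ⟨0, hn⟩ 1) fun v hv => absurd ⟨v, hv⟩ hc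
      simpa using congrFun this ⟨0, hn⟩
    have := hC.pm w hw v (hU hv)
    simp [h0 v hv] at this
  set U₁ := Submodule.span ℝ V₁
  set U₂ := Submodule.span ℝ V₂
  let b₁ := (Module.finBasis ℝ U₁).equivFun.symm
  let b₂ := (Module.finBasis ℝ U₂).equivFun.symm
  let T := ((apE _ _).symm.trans (b₁.prodCongr b₂)).trans (Submodule.prodEquivOfIsCompl _ _ hcompl)
  have hT : ∀ p, T (apE _ _ p) = (b₁ p.1 : Fin n → ℝ) + (b₂ p.2 : Fin n → ℝ) := fun p => by
    simp [T]
  refine ⟨_, _, by simpa using Submodule.finrank_add_eq_of_isCompl hcompl,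
    (U₁.subtype ∘ₗ b₁.toLinearMap) ⁻¹' K, (U₂.subtype ∘ₗ b₂.toLinearMap) ⁻¹' K, T,
    pos _ (hV ▸ subset_union_left) ne₁, pos _ (hV ▸ subset_union_right) ne₂,
    h.comap _ (Subtype.val_injective.comp b₁.injective),
    h.comap _ (Subtype.val_injective.comp b₂.injective), Subset.antisymm ?_ ?_⟩
  · rw [← hK]
    refine convexHull_min ?_ ((convex_convexHull ℝ _).linear_image T.toLinearMap)
    rw [hK, ← hV]
    rintro v (hv | hv)
    · refine ⟨_, left_mem_sumS _ (x := b₁.symm ⟨v, Submodule.subset_span hv⟩) ?_, ?_⟩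
      · simpa using hVK (hV ▸ Or.inl hv)
      · simp [hT]
    · refine ⟨_, right_mem_sumS _ (y := b₂.symm ⟨v, Submodule.subset_span hv⟩) ?_, ?_⟩
      · simpa using hVK (hV ▸ Or.inr hv)
      · simp [hT]
  · rw [image_subset_iff]
    refine sumS_subset (h.convex.linear_preimage T.toLinearMap) (fun x hx => ?_) fun y hy => ?_
    · simpa [hT] using hx
    · simpa [hT] using hy

theorem Body.linH_one {K : Set (Fin 1 → ℝ)} (h : Body K) : LinH 1 K := by
  obtain ⟨p, hp, hmax⟩ := h.compact.exists_isMaxOn ⟨0, h.zero_mem⟩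
    (f := fun x : Fin 1 → ℝ => x 0) (continuous_apply 0).continuousOn
  obtain ⟨δ, hδ, hb⟩ := h.ball
  have h0 : 0 < p 0 := hδ.trans_le (hmax (hb (a := fun _ => δ) (by
    rw [mem_closedBall_zero_iff, pi_norm_const, Real.norm_of_nonneg hδ.le])))
  refine ⟨LinearEquiv.refl _ _, _, .segment (p 0) h0, ?_⟩
  refine Eq.trans ?_ (image_id _).symm
  ext x
  constructor
  · intro hx
    have := hmax (h.symm x hx)
    exact ⟨by simpa [neg_le] using this, hmax hx⟩
  · rintro ⟨h1, h2⟩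
    have := h.convex hp (h.symm p hp) (a := (p 0 + x 0) / (2 * p 0)) (b := (p 0 - x 0) / (2 * p 0))
      (div_nonneg (by linarith) (by linarith)) (div_nonneg (by linarith) (by linarith))
      (by field_simp; ring)
    convert this using 1
    ext i
    rw [Subsingleton.elim i 0]
    simp only [Pi.add_apply, Pi.smul_apply, Pi.neg_apply, smul_eq_mul]
    field_simp
    ring

theorem Body.linH (hn : 0 < n) {K : Set (Fin n → ℝ)} (h : Body K) (heq : mv K ≤ 4 ^ n) :
    LinH n K := by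
  induction n using Nat.strong_induction_on with
  | _ n ih =>
  rcases Nat.lt_or_ge n 2 with h2 | h2
  · obtain rfl : n = 1 := by omega
    exact h.linH_one
  have main : ∀ K : Set (Fin n → ℝ), Body K → mv K ≤ 4 ^ n → ∀ V W, Conf V W →
      convexHull ℝ V = K → Split V → LinH n K := by
    intro K h heq V W hC hK hS
    obtain ⟨k, l, rfl, A, B, T, hk, hl, hA, hB, rfl⟩ := h.of_split hn hC hK hS
    rw [mv_image, hA.mv_sum hB, pow_add] at heq
    have a1 := hA.le_mv hk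
    have a2 := hB.le_mv hl
    have p1 : (0 : ℝ) < 4 ^ k := by positivity
    have p2 : (0 : ℝ) < 4 ^ l := by positivity
    exact ((ih k (by omega) hk hA (by nlinarith)).sum (ih l (by omega) hl hB (by nlinarith))).image T
  have hP := h.polar
  have heq' : mv (dotPolar K) ≤ 4 ^ n := by rwa [h.mv_polar]
  have hN := h.nstar hn heq
  have hN' := hP.nstar hn heq'
  have hC := h.conf hn hN hN'
  have np' := hP.np hN' (by rw [h.polar_polar]; exact hC.finV)
  rw [h.polar_polar] at np'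
  rcases hC.split (hC.hp (h.np hN hC.finW) np') h2 with hS | hS
  · exact main K h heq _ _ hC (h.convexHull_far hC.finV) hS
  · have := (main _ hP heq' _ _ hC.symm (hP.convexHull_far hC.finW) hS).polar
    rwa [h.polar_polar] at this

end Vale.Agent.P248
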