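import Vale.Agent.P248.HProp

/-! Events and atoms at a vertex. -/

namespace Vale.Agent.P248

open Set Matrix

theorem seinsche_step {α : Type*} {r : α → α → Prop} (hs : ∀ a b, r a b → r b a) {Y : Set α}
    {v : α} (hv : v ∉ Y)
    (h4 : ∀ a ∈ insert v Y, ∀ b ∈ insert v Y, ∀ c ∈ insert v Y, ∀ d ∈ insert v Y,
      r a b → r b c → r c d → ¬ r a c → ¬ r a d → ¬ r b d → False)
    {P : α → Prop} (h1 : ∃ a ∈ Y, P a) (h2 : ∃ b ∈ Y, ¬ P b)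
    (h3 : ∀ a ∈ Y, ∀ b ∈ Y, P a → ¬ P b → ¬ r a b) :
    ∃ Q : α → Prop, (∃ a ∈ insert v Y, Q a) ∧ (∃ b ∈ insert v Y, ¬ Q b) ∧
      ((∀ a ∈ insert v Y, ∀ b ∈ insert v Y, Q a → ¬ Q b → r a b) ∨
        ∀ a ∈ insert v Y, ∀ b ∈ insert v Y, Q a → ¬ Q b → ¬ r a b) := by
  have key : ∀ P : α → Prop, (∀ a ∈ Y, ∀ b ∈ Y, P a → ¬ P b → ¬ r a b) →
      (∃ x ∈ Y, P x ∧ ¬ r v x) → ((∃ z ∈ Y, ¬ P z ∧ r v z) ∨ ∀ y ∈ Y, P y → ¬ r v y) →
      ∃ Q : α → Prop, (∃ a ∈ insert v Y, Q a) ∧ (∃ b ∈ insert v Y, ¬ Q b) ∧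
      ((∀ a ∈ insert v Y, ∀ b ∈ insert v Y, Q a → ¬ Q b → r a b) ∨
        ∀ a ∈ insert v Y, ∀ b ∈ insert v Y, Q a → ¬ Q b → ¬ r a b) := by
    rintro P h3 ⟨x, hx, hx1, hx2⟩ hz
    refine ⟨fun t => t ∈ Y ∧ P t ∧ ¬ r v t, ⟨x, Or.inr hx, hx, hx1, hx2⟩,
      ⟨v, Or.inl rfl, fun h => hv h.1⟩, Or.inr ?_⟩
    rintro a - b hb ⟨ha1, ha2, ha3⟩ hQ hab
    rcases hb with rfl | hb
    · exact ha3 (hs _ _ hab)
    · by_cases hPb : P b
      · have hvb : r v b := by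
          by_contra h
          exact hQ ⟨hb, hPb, h⟩
        rcases hz with ⟨z, hz1, hz2, hz3⟩ | hz
        · exact h4 a (Or.inr ha1) b (Or.inr hb) v (Or.inl rfl) z (Or.inr hz1) hab (hs _ _ hvb) hz3
            (fun h => ha3 (hs _ _ h)) (h3 a ha1 z hz1 ha2 hz2) (h3 b hb z hz1 hPb hz2)
        · exact hz b hb hPb hvb
      · exact h3 a ha1 b hb ha2 hPb hab
  have h3' : ∀ a ∈ Y, ∀ b ∈ Y, ¬ P a → ¬ ¬ P b → ¬ r a b := fun a ha b hb h1 h2 h =>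
    h3 b hb a ha (not_not.1 h2) h1 (hs _ _ h)
  by_cases c1 : ∃ z ∈ Y, ¬ P z ∧ r v z
  · by_cases c2 : ∃ z ∈ Y, P z ∧ r v z
    · by_cases c3 : ∀ x ∈ Y, r v x
      · obtain ⟨a, ha, -⟩ := h1
        refine ⟨fun t => t = v, ⟨v, Or.inl rfl, rfl⟩, ⟨a, Or.inr ha, fun h => hv (h ▸ ha)⟩,
          Or.inl ?_⟩
        rintro a - b hb rfl hb'
        exact c3 b (hb.resolve_left hb')
      · push Not at c3
        obtain ⟨x, hx, hx'⟩ := c3
        by_cases hPx : P x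
        · exact key P h3 ⟨x, hx, hPx, hx'⟩ (Or.inl c1)
        · obtain ⟨z, hz1, hz2, hz3⟩ := c2
          exact key (fun t => ¬ P t) h3' ⟨x, hx, hPx, hx'⟩ (Or.inl ⟨z, hz1, not_not.2 hz2, hz3⟩)
    · push Not at c2
      obtain ⟨a, ha, hPa⟩ := h1
      exact key P h3 ⟨a, ha, hPa, c2 a ha hPa⟩ (Or.inr c2)
  · push Not at c1
    obtain ⟨a, ha, hPa⟩ := h2
    exact key (fun t => ¬ P t) h3' ⟨a, ha, hPa, c1 a ha hPa⟩ (Or.inr c1)

theorem seinsche {α : Type*} {r : α → α → Prop} (hs : ∀ a b, r a b → r b a) {X : Set α}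
    (hX : X.Finite) (h2 : X.Nontrivial)
    (h4 : ∀ a ∈ X, ∀ b ∈ X, ∀ c ∈ X, ∀ d ∈ X,
      r a b → r b c → r c d → ¬ r a c → ¬ r a d → ¬ r b d → False) :
    ∃ Q : α → Prop, (∃ a ∈ X, Q a) ∧ (∃ b ∈ X, ¬ Q b) ∧
      ((∀ a ∈ X, ∀ b ∈ X, Q a → ¬ Q b → r a b) ∨ ∀ a ∈ X, ∀ b ∈ X, Q a → ¬ Q b → ¬ r a b) := by
  induction X, hX using Set.Finite.induction_on with
  | empty => exact absurd h2 not_nontrivial_empty
  | @insert v Y hv hY ih =>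
    by_cases hY2 : Y.Nontrivial
    · obtain ⟨P, h1, h2', h3 | h3⟩ := ih hY2 fun a ha b hb c hc d hd =>
        h4 a (Or.inr ha) b (Or.inr hb) c (Or.inr hc) d (Or.inr hd)
      · obtain ⟨Q, q1, q2, q3⟩ := seinsche_step (r := fun a b => ¬ r a b)
          (fun a b h h' => h (hs _ _ h')) hv (fun a ha b hb c hc d hd e1 e2 e3 e4 e5 e6 =>
            h4 b hb d hd a ha c hc (not_not.1 e6) (hs _ _ (not_not.1 e5)) (not_not.1 e4)
              (fun h => e1 (hs _ _ h)) e2 fun h => e3 (hs _ _ h)) h1 h2'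
          fun a ha b hb p1 p2 => not_not.2 (h3 a ha b hb p1 p2)
        refine ⟨Q, q1, q2, ?_⟩
        rcases q3 with q3 | q3
        · exact Or.inr q3
        · exact Or.inl fun a ha b hb p1 p2 => not_not.1 (q3 a ha b hb p1 p2)
      · exact seinsche_step hs hv h4 h1 h2' h3
    · rw [not_nontrivial_iff] at hY2
      obtain ⟨y, hy, hyv⟩ := h2.exists_ne v
      have hyY : y ∈ Y := hy.resolve_left hyv
      refine ⟨fun t => t = v, ⟨v, Or.inl rfl, rfl⟩, ⟨y, hy, hyv⟩, ?_⟩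
      by_cases hr : r v y
      · left
        rintro a - b hb rfl hb'
        rwa [hY2 (hb.resolve_left hb') hyY]
      · right
        rintro a - b hb rfl hb'
        rwa [hY2 (hb.resolve_left hb') hyY]

variable {n : ℕ}

/-- States at the vertex `u`. -/
def St (W : Set (Fin n → ℝ)) (u w : Fin n → ℝ) : Prop := w ∈ W ∧ w ⬝ᵥ u = 1

/-- Events at the vertex `u`. -/
def Ev (W : Set (Fin n → ℝ)) (u e : Fin n → ℝ) : Prop :=
  ∀ w, St W u w → w ⬝ᵥ e = 0 ∨ w ⬝ᵥ e = 1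

/-- Order of events. -/
def EvLe (W : Set (Fin n → ℝ)) (u e f : Fin n → ℝ) : Prop :=
  ∀ w, St W u w → w ⬝ᵥ e = 1 → w ⬝ᵥ f = 1

/-- Minimal nonzero events. -/
def Atom (W : Set (Fin n → ℝ)) (u a : Fin n → ℝ) : Prop :=
  Ev W u a ∧ a ≠ 0 ∧ ∀ f, Ev W u f → EvLe W u f a → f = 0 ∨ f = a

/-- Orthogonal events. -/
def Orth (W : Set (Fin n → ℝ)) (u a b : Fin n → ℝ) : Prop :=
  ∀ w, St W u w → w ⬝ᵥ a = 1 → w ⬝ᵥ b = 1 → False

theorem Orth.symm {W : Set (Fin n → ℝ)} {u a b : Fin n → ℝ} (h : Orth W u a b) : Orth W u b a :=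
  fun w hw h1 h2 => h w hw h2 h1

theorem not_orth {W : Set (Fin n → ℝ)} {u a b : Fin n → ℝ} (h : ¬ Orth W u a b) :
    ∃ w, St W u w ∧ w ⬝ᵥ a = 1 ∧ w ⬝ᵥ b = 1 := by
  by_contra hc
  exact h fun w hw h1 h2 => hc ⟨w, hw, h1, h2⟩

theorem Ev.compl {W : Set (Fin n → ℝ)} {u e : Fin n → ℝ} (h : Ev W u e) : Ev W u (u - e) := by
  intro w hw
  rw [dotProduct_sub, hw.2]
  rcases h w hw with h1 | h1 <;> rw [h1] <;> norm_num

theorem Ev.sub {W : Set (Fin n → ℝ)} {u e a : Fin n → ℝ} (h : Ev W u e) (ha : Ev W u a)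
    (hle : EvLe W u a e) : Ev W u (e - a) := by
  intro w hw
  rw [dotProduct_sub]
  rcases ha w hw with h1 | h1
  · rw [h1, sub_zero]; exact h w hw
  · rw [h1, hle w hw h1]; norm_num

theorem Ev.add {W : Set (Fin n → ℝ)} {u a b : Fin n → ℝ} (ha : Ev W u a) (hb : Ev W u b)
    (h : Orth W u a b) : Ev W u (a + b) := by
  intro w hw
  rw [dotProduct_add]
  rcases ha w hw with h1 | h1 <;> rcases hb w hw with h2 | h2
  · rw [h1, h2]; norm_num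
  · rw [h1, h2]; norm_num
  · rw [h1, h2]; norm_num
  · exact (h w hw h1 h2).elim

theorem ev_zero (W : Set (Fin n → ℝ)) (u : Fin n → ℝ) : Ev W u 0 := fun _ _ => Or.inl (by simp)

theorem ev_self (W : Set (Fin n → ℝ)) (u : Fin n → ℝ) : Ev W u u := fun _ hw => Or.inr hw.2

namespace Conf

variable {V W : Set (Fin n → ℝ)} {u : Fin n → ℝ}

theorem st_or (h : Conf V W) (hu : u ∈ V) {w : Fin n → ℝ} (hw : w ∈ W) :
    St W u w ∨ St W u (-w) := by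
  rcases h.pm w hw u hu with h1 | h1
  · exact Or.inl ⟨hw, h1⟩
  · exact Or.inr ⟨h.negW w hw, by rw [neg_dotProduct, h1, neg_neg]⟩

theorem exists_st (h : Conf V W) (hu : u ∈ V) {e : Fin n → ℝ} (he : Ev W u e) (h0 : e ≠ 0) :
    ∃ w, St W u w ∧ w ⬝ᵥ e = 1 := by
  by_contra hc
  push Not at hc
  apply h0
  apply h.sepW
  intro w hw
  rcases h.st_or hu hw with h1 | h1
  · exact (he w h1).resolve_right (hc w h1)
  · have := (he _ h1).resolve_right (hc _ h1)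
    rwa [neg_dotProduct, neg_eq_zero] at this

theorem vert_mem (h : Conf V W) (hu : u ∈ V) {e : Fin n → ℝ} (he : Ev W u e) :
    u - (2 : ℝ) • e ∈ V := by
  have key : ∀ w, St W u w → w ⬝ᵥ (u - (2 : ℝ) • e) = 1 ∨ w ⬝ᵥ (u - (2 : ℝ) • e) = -1 := by
    intro w hw
    rw [dotProduct_sub, dotProduct_smul, hw.2, smul_eq_mul]
    rcases he w hw with h1 | h1 <;> rw [h1] <;> norm_num
  apply h.compV
  intro w hw
  rcases h.st_or hu hw with h1 | h1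
  · exact key w h1
  · have := key _ h1
    rw [neg_dotProduct] at this
    rcases this with h2 | h2
    · right; linarith
    · left; linarith

theorem ev_of_mem (h : Conf V W) {v : Fin n → ℝ} (hv : v ∈ V) :
    Ev W u ((1 / 2 : ℝ) • (u - v)) := by
  intro w hw
  rw [dotProduct_smul, dotProduct_sub, hw.2, smul_eq_mul]
  rcases h.pm w hw.1 v hv with h1 | h1 <;> rw [h1] <;> norm_num

theorem he3 (h : Conf V W) (hH : HP V W) (hu : u ∈ V) {e₁ e₂ e₃ f₁ f₂ f₃ : Fin n → ℝ}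
    (a₁ : Ev W u e₁) (a₂ : Ev W u e₂) (a₃ : Ev W u e₃) (b₁ : Ev W u f₁) (b₂ : Ev W u f₂)
    (b₃ : Ev W u f₃)
    (c₁ : ∀ w, St W u w → w ⬝ᵥ e₁ = 0 → w ⬝ᵥ e₂ = 0 → w ⬝ᵥ e₃ = 0 → w ⬝ᵥ f₁ = 1 → w ⬝ᵥ f₂ = 1 →
      w ⬝ᵥ f₃ = 1 → False)
    (c₂ : ∀ w, St W u w → w ⬝ᵥ e₁ = 1 → w ⬝ᵥ e₂ = 1 → w ⬝ᵥ e₃ = 1 → w ⬝ᵥ f₁ = 0 → w ⬝ᵥ f₂ = 0 →
      w ⬝ᵥ f₃ = 0 → False) :
    ∃ z, Ev W u z ∧ ∀ w, St W u w →
      (w ⬝ᵥ e₁ = 0 → w ⬝ᵥ e₂ = 0 → w ⬝ᵥ e₃ = 0 → w ⬝ᵥ z = 0) ∧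
      (w ⬝ᵥ e₁ = 1 → w ⬝ᵥ e₂ = 1 → w ⬝ᵥ e₃ = 1 → w ⬝ᵥ z = 1) ∧
      (w ⬝ᵥ f₁ = 0 → w ⬝ᵥ f₂ = 0 → w ⬝ᵥ f₃ = 0 → w ⬝ᵥ z = 0) ∧
      (w ⬝ᵥ f₁ = 1 → w ⬝ᵥ f₂ = 1 → w ⬝ᵥ f₃ = 1 → w ⬝ᵥ z = 1) := by
  have val : ∀ w, St W u w → ∀ e : Fin n → ℝ, w ⬝ᵥ (u - (2 : ℝ) • e) = 1 - 2 * (w ⬝ᵥ e) := by
    intro w hw e
    rw [dotProduct_sub, dotProduct_smul, hw.2, smul_eq_mul]
  have face : ∀ e₁ e₂ e₃ z : Fin n → ℝ,
      z ∈ dia V (dia W {u - (2 : ℝ) • e₁, u - (2 : ℝ) • e₂, u - (2 : ℝ) • e₃}) → ∀ w, St W u w →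
      (w ⬝ᵥ e₁ = 0 → w ⬝ᵥ e₂ = 0 → w ⬝ᵥ e₃ = 0 → w ⬝ᵥ ((1 / 2 : ℝ) • (u - z)) = 0) ∧
      (w ⬝ᵥ e₁ = 1 → w ⬝ᵥ e₂ = 1 → w ⬝ᵥ e₃ = 1 → w ⬝ᵥ ((1 / 2 : ℝ) • (u - z)) = 1) := by
    intro e₁ e₂ e₃ z hz w hw
    rw [dotProduct_smul, dotProduct_sub, hw.2, smul_eq_mul]
    constructor
    · intro h1 h2 h3
      have := hz.2 w ⟨hw.1, by
        rintro v (rfl | rfl | rfl) <;> rw [val w hw] <;> linarith⟩
      rw [dotProduct_comm] at this
      linarith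
    · intro h1 h2 h3
      have := hz.2 (-w) ⟨h.negW w hw.1, by
        rintro v (rfl | rfl | rfl) <;> rw [neg_dotProduct, val w hw] <;> linarith⟩
      rw [dotProduct_comm, neg_dotProduct] at this
      linarith
  rcases hH {u - (2 : ℝ) • e₁, u - (2 : ℝ) • e₂, u - (2 : ℝ) • e₃}
    {u - (2 : ℝ) • f₁, u - (2 : ℝ) • f₂, u - (2 : ℝ) • f₃}
    (by rintro v (rfl | rfl | rfl) <;> apply h.vert_mem hu <;> assumption)
    (by rintro v (rfl | rfl | rfl) <;> apply h.vert_mem hu <;> assumption)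
    (insert_nonempty _ _) (insert_nonempty _ _) with ⟨w, hw, h1, h2⟩ | ⟨z, h1, h2⟩
  · exfalso
    have p1 := h1 _ (Or.inl rfl)
    have p2 := h1 _ (Or.inr (Or.inl rfl))
    have p3 := h1 _ (Or.inr (Or.inr rfl))
    have q1 := h2 _ (Or.inl rfl)
    have q2 := h2 _ (Or.inr (Or.inl rfl))
    have q3 := h2 _ (Or.inr (Or.inr rfl))
    rcases h.st_or hu hw with hs | hs
    · rw [val w hs] at p1 p2 p3 q1 q2 q3
      exact c₁ w hs (by linarith) (by linarith) (by linarith) (by linarith) (by linarith)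
        (by linarith)
    · have val' : ∀ e : Fin n → ℝ, w ⬝ᵥ (u - (2 : ℝ) • e) = -(1 - 2 * ((-w) ⬝ᵥ e)) := by
        intro e
        rw [← val _ hs, neg_dotProduct, neg_neg]
      rw [val'] at p1 p2 p3 q1 q2 q3
      exact c₂ _ hs (by linarith) (by linarith) (by linarith) (by linarith) (by linarith)
        (by linarith)
  · exact ⟨_, h.ev_of_mem h1.1, fun w hw => ⟨(face _ _ _ _ h1 w hw).1, (face _ _ _ _ h1 w hw).2,
      (face _ _ _ _ h2 w hw).1, (face _ _ _ _ h2 w hw).2⟩⟩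

theorem atom_le_join (h : Conf V W) (hH : HP V W) (hu : u ∈ V) {a e₁ e₂ : Fin n → ℝ}
    (ha : Atom W u a) (h₁ : Ev W u e₁) (h₂ : Ev W u e₂)
    (hne : ∃ w, St W u w ∧ w ⬝ᵥ e₁ = 1 ∧ w ⬝ᵥ e₂ = 1)
    (hsub : ∀ w, St W u w → w ⬝ᵥ e₁ = 1 → w ⬝ᵥ e₂ = 1 → w ⬝ᵥ a = 1) :
    ∀ w, St W u w → w ⬝ᵥ e₁ = 0 → w ⬝ᵥ e₂ = 0 → w ⬝ᵥ a = 0 := by
  obtain ⟨z, hz, hz'⟩ := h.he3 hH hu (ev_zero W u) ha.1 ha.1 h₁ h₂ h₂
    (fun w hw _ p2 _ q1 q2 _ => by linarith [hsub w hw q1 q2])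
    (fun w hw p1 _ _ _ _ _ => by simp at p1)
  rcases ha.2.2 z hz (fun w hw h1 => (ha.1 w hw).resolve_left fun h2 => by
    linarith [(hz' w hw).1 (by simp) h2 h2]) with rfl | rfl
  · obtain ⟨w, hw, p1, p2⟩ := hne
    simpa using (hz' w hw).2.2.2 p1 p2 p2
  · exact fun w hw p1 p2 => (hz' w hw).2.2.1 p1 p2 p2

theorem ncard_lt (h : Conf V W) {e f : Fin n → ℝ} (hle : EvLe W u f e)
    (hne : ∃ w, St W u w ∧ w ⬝ᵥ e = 1 ∧ w ⬝ᵥ f ≠ 1) :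
    {w | St W u w ∧ w ⬝ᵥ f = 1}.ncard < {w | St W u w ∧ w ⬝ᵥ e = 1}.ncard := by
  refine Set.ncard_lt_ncard (ssubset_iff_subset_ne.2 ⟨fun w hw => ⟨hw.1, hle w hw.1 hw.2⟩,
    fun h0 => ?_⟩) (h.finW.subset fun w hw => hw.1.1)
  obtain ⟨w, h1, h2, h3⟩ := hne
  exact h3 (show w ∈ {w | St W u w ∧ w ⬝ᵥ f = 1} from h0 ▸ ⟨h1, h2⟩).2

theorem exists_atom (h : Conf V W) (hu : u ∈ V) {e : Fin n → ℝ} (he : Ev W u e) (h0 : e ≠ 0) :
    ∃ a, Atom W u a ∧ EvLe W u a e := by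
  induction hk : {w | St W u w ∧ w ⬝ᵥ e = 1}.ncard using Nat.strong_induction_on
    generalizing e with
  | _ k ih =>
  by_cases ha : Atom W u e
  · exact ⟨e, ha, fun _ _ h => h⟩
  · simp only [Atom, not_and, not_forall, not_or] at ha
    obtain ⟨f, hf, hle, hf0, hfe⟩ := ha he h0
    obtain ⟨w, hw, hw1⟩ := h.exists_st hu (he.sub hf hle) (sub_ne_zero.2 (Ne.symm hfe))
    rw [dotProduct_sub] at hw1
    obtain ⟨a, ha1, ha2⟩ := ih _ (hk ▸ h.ncard_lt hle ⟨w, hw, by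
      rcases he w hw with p | p <;> rcases hf w hw with q | q <;> linarith, by
      rcases he w hw with p | p <;> intro q <;> linarith⟩) hf hf0 rfl
    exact ⟨a, ha1, fun w hw h1 => hle w hw (ha2 w hw h1)⟩

theorem atom_span (h : Conf V W) (hu : u ∈ V) {η : Fin n → ℝ}
    (hη : ∀ a, Atom W u a → η ⬝ᵥ a = 0) : η = 0 := by
  have key : ∀ e, Ev W u e → η ⬝ᵥ e = 0 := by
    intro e he
    induction hk : {w | St W u w ∧ w ⬝ᵥ e = 1}.ncard using Nat.strong_induction_on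
      generalizing e with
    | _ k ih =>
    by_cases h0 : e = 0
    · simp [h0]
    · obtain ⟨a, ha1, ha2⟩ := h.exists_atom hu he h0
      obtain ⟨w, hw, hw1⟩ := h.exists_st hu ha1.1 ha1.2.1
      have := ih _ (hk ▸ h.ncard_lt (f := e - a) (fun w hw h1 => by
        rw [dotProduct_sub] at h1
        rcases he w hw with p | p <;> rcases ha1.1 w hw with q | q <;> linarith)
        ⟨w, hw, ha2 w hw hw1, by rw [dotProduct_sub, hw1, ha2 w hw hw1]; norm_num⟩) _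
        (he.sub ha1.1 ha2) rfl
      rwa [dotProduct_sub, hη a ha1, sub_zero] at this
  apply h.sepV
  intro v hv
  have h1 := key _ (h.ev_of_mem (u := u) hv)
  rw [dotProduct_smul, dotProduct_sub, key u (ev_self W u), smul_eq_mul] at h1
  rw [dotProduct_comm]
  linarith

theorem atoms_finite (h : Conf V W) (hu : u ∈ V) : {a | Atom W u a}.Finite :=
  (h.finV.image fun v => (1 / 2 : ℝ) • (u - v)).subset fun a ha =>
    ⟨_, h.vert_mem hu ha.1, by simp [smul_smul]⟩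

theorem no_path (h : Conf V W) (hH : HP V W) (hu : u ∈ V) {a b c d : Fin n → ℝ}
    (ha : Atom W u a) (hb : Atom W u b) (hc : Atom W u c) (hd : Atom W u d)
    (ab : Orth W u a b) (bc : Orth W u b c) (cd : Orth W u c d) (ac : ¬ Orth W u a c)
    (ad : ¬ Orth W u a d) (bd : ¬ Orth W u b d) : False := by
  obtain ⟨z, hz, hz'⟩ := h.he3 hH hu (ev_zero W u) ha.1 hd.1 (ev_self W u) (ha.1.add hb.1 ab)
    (hc.1.add hd.1 cd) (fun w hw _ p2 p3 _ q2 q3 => by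
      rw [dotProduct_add] at q2 q3
      exact bc w hw (by linarith) (by linarith))
    (fun w hw p1 _ _ _ _ _ => by simp at p1)
  have z0 : ∀ w, St W u w → w ⬝ᵥ a = 0 → w ⬝ᵥ d = 0 → w ⬝ᵥ z = 0 := fun w hw p q =>
    (hz' w hw).1 (by simp) p q
  have z1 : ∀ w, St W u w → w ⬝ᵥ a + w ⬝ᵥ b = 1 → w ⬝ᵥ c + w ⬝ᵥ d = 1 → w ⬝ᵥ z = 1 :=
    fun w hw p q => (hz' w hw).2.2.2 hw.2 (by rwa [dotProduct_add]) (by rwa [dotProduct_add])
  have zc : ∀ w, St W u w → w ⬝ᵥ a = 1 → w ⬝ᵥ c = 1 → w ⬝ᵥ z = 1 := fun w hw p q => by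
    have p1 := (hb.1 w hw).resolve_right (ab w hw p)
    have p2 := (hd.1 w hw).resolve_right (cd w hw q)
    exact z1 w hw (by linarith) (by linarith)
  have h1 := h.atom_le_join hH hu ha hz hc.1 (by
    obtain ⟨w, hw, p, q⟩ := not_orth ac
    exact ⟨w, hw, zc w hw p q, q⟩) (fun w hw p q => (ha.1 w hw).resolve_left fun r => by
      linarith [z0 w hw r ((hd.1 w hw).resolve_right (cd w hw q))])
  have h2 : EvLe W u a z := fun w hw p => by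
    rcases hc.1 w hw with q | q
    · exact (hz w hw).resolve_left fun r => by linarith [h1 w hw r q]
    · exact zc w hw p q
  have h3 : ∀ w, St W u w → w ⬝ᵥ d = 0 → w ⬝ᵥ (a + d - z) = 0 := fun w hw q => by
    rw [dotProduct_sub, dotProduct_add]
    rcases ha.1 w hw with p | p
    · linarith [z0 w hw p q]
    · linarith [h2 w hw p]
  have h4 : Ev W u (a + d - z) := fun w hw => by
    rcases hd.1 w hw with q | q
    · exact Or.inl (h3 w hw q)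
    · rw [dotProduct_sub, dotProduct_add]
      rcases ha.1 w hw with p | p
      · rcases hz w hw with r | r
        · right; linarith
        · left; linarith
      · right; linarith [h2 w hw p]
  rcases hd.2.2 _ h4 (fun w hw p => (hd.1 w hw).resolve_left fun q => by
    linarith [h3 w hw q]) with e | e
  · obtain ⟨w, hw, p, q⟩ := not_orth ad
    have := congrArg (fun t => w ⬝ᵥ t) e
    simp only [dotProduct_sub, dotProduct_add, dotProduct_zero] at this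
    linarith [h2 w hw p]
  · obtain ⟨w, hw, p, q⟩ := not_orth bd
    have := congrArg (fun t => w ⬝ᵥ t) e
    simp only [dotProduct_sub, dotProduct_add] at this
    have p1 := (ha.1 w hw).resolve_right fun r => ab w hw r p
    have p2 := (hc.1 w hw).resolve_right fun r => cd w hw r q
    linarith [z1 w hw (by linarith) (by linarith)]

end Conf

end Vale.Agent.P248
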