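import Vale.Agent.P248.Far

/-! Disjoint faces lie in opposite facets. -/

namespace Vale.Agent.P248

open Set Filter Topology Metric MeasureTheory Matrix Real Pointwise

variable {n : ℕ}

/-- Polyhedral form of the necessary condition. -/
def NP (V W : Set (Fin n → ℝ)) : Prop :=
  ∀ (x p ζ : Fin n → ℝ) (c : ℝ), (∀ w ∈ W, w ⬝ᵥ x ≤ 1) → (∀ v ∈ V, v ⬝ᵥ p ≤ 1) → 0 ≤ c →
    (∀ w ∈ W, w ⬝ᵥ ζ - c ≤ ht (w ⬝ᵥ x)) →
    ∃ y : Fin n → ℝ, (∀ η, (∀ v ∈ V, v ⬝ᵥ η ≤ 1) → η ⬝ᵥ y ≤ ht (η ⬝ᵥ x)) ∧ p ⬝ᵥ ζ - c ≤ p ⬝ᵥ y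

theorem Body.np {K : Set (Fin n → ℝ)} (h : Body K) (hN : NStar K)
    (hfin : (far (dotPolar K)).Finite) : NP (far K) (far (dotPolar K)) := by
  have hP := h.polar
  intro x p ζ c hx hp hc hζ
  have hxK : x ∈ K := by
    rw [← h.polar_polar]
    exact hP.polar_far fun w hw => by rw [dotProduct_comm]; exact hx w hw
  have hmem : ∀ η, (∀ v ∈ far K, v ⬝ᵥ η ≤ 1) → η ∈ dotPolar K := fun η hη =>
    h.polar_far fun v hv => by rw [dotProduct_comm]; exact hη v hv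
  obtain ⟨y, hy1, hy2⟩ := hN x hxK p (hmem p hp) ζ c hc (fun η hη => by
    rw [← hP.convexHull_far hfin] at hη
    have hconv : Convex ℝ {η : Fin n → ℝ | |η ⬝ᵥ x| ≤ 1 ∧ η ⬝ᵥ ζ - c ≤ ht (η ⬝ᵥ x)} := by
      intro a ha b hb s t hs ht' hst
      have h1 := ht_concave ha.1 hb.1 hs ht' hst
      have h2 := abs_le.1 ha.1
      have h3 := abs_le.1 hb.1
      simp only [mem_ofPred_eq, add_dotProduct, smul_dotProduct, smul_eq_mul]
      refine ⟨abs_le.2 ⟨by nlinarith, by nlinarith⟩, ?_⟩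
      have h4 := mul_le_mul_of_nonneg_left ha.2 hs
      have h5 := mul_le_mul_of_nonneg_left hb.2 ht'
      have h6 : c = s * c + t * c := by rw [← add_mul, hst, one_mul]
      linarith
    exact (convexHull_min (fun w hw => show _ ∧ _ from ⟨abs_dot_le h.symm hw.1 hxK, hζ w hw⟩)
      hconv hη).2)
  exact ⟨y, fun η hη => hy1 η (hmem η hη), hy2⟩

/-- The elements of `W` that take the value `1` on `S`. -/
def dia (W S : Set (Fin n → ℝ)) : Set (Fin n → ℝ) := {w | w ∈ W ∧ ∀ v ∈ S, w ⬝ᵥ v = 1}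

/-- Defect of `w` on a finite set. -/
def defect (A : Finset (Fin n → ℝ)) (w : Fin n → ℝ) : ℝ := ∑ v ∈ A, (1 - w ⬝ᵥ v)

theorem dot_phi (A : Finset (Fin n → ℝ)) {v₀ w : Fin n → ℝ} (h : w ⬝ᵥ v₀ = 1) :
    w ⬝ᵥ (∑ v ∈ A, (v₀ - v)) = defect A w := by
  rw [dotProduct_sum]
  simp only [dotProduct_sub, h, defect]

namespace Conf

variable {V W : Set (Fin n → ℝ)}

theorem le_one (h : Conf V W) {w v : Fin n → ℝ} (hw : w ∈ W) (hv : v ∈ V) : w ⬝ᵥ v ≤ 1 := by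
  rcases h.pm w hw v hv with h1 | h1 <;> linarith

theorem defect_nonneg (h : Conf V W) {A : Finset (Fin n → ℝ)} (hA : ∀ v ∈ A, v ∈ V)
    {w : Fin n → ℝ} (hw : w ∈ W) : 0 ≤ defect A w :=
  Finset.sum_nonneg fun v hv => sub_nonneg.2 (h.le_one hw (hA v hv))

theorem two_le_defect (h : Conf V W) {A : Finset (Fin n → ℝ)} (hA : ∀ v ∈ A, v ∈ V)
    {w : Fin n → ℝ} (hw : w ∈ W) {v : Fin n → ℝ} (hv : v ∈ A) (h1 : w ⬝ᵥ v ≠ 1) :
    2 ≤ defect A w := by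
  have h2 : w ⬝ᵥ v = -1 := (h.pm w hw v (hA v hv)).resolve_left h1
  have h3 := Finset.single_le_sum (f := fun v => 1 - w ⬝ᵥ v)
    (fun v hv => sub_nonneg.2 (h.le_one hw (hA v hv))) hv
  simp only [h2] at h3
  unfold defect
  linarith

theorem sep_facet (h : Conf V W) (hN : NP V W) {v₀ : Fin n → ℝ} {T₁ T₂ : Set (Fin n → ℝ)}
    (hT₁ : T₁ ⊆ W) (hT₂ : T₂ ⊆ W) (hne₁ : T₁.Nonempty) (hne₂ : T₂.Nonempty)
    (hv₁ : v₀ ∈ dia V T₁) (hv₂ : v₀ ∈ dia V T₂) :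
    (∃ v ∈ V, (∀ w ∈ T₁, v ⬝ᵥ w = 1) ∧ ∀ w ∈ T₂, v ⬝ᵥ w = -1) ∨
      ∃ z, z ∈ dia W (dia V T₁) ∧ z ∈ dia W (dia V T₂) := by
  by_contra hcon
  push Not at hcon
  obtain ⟨hc1, hc2⟩ := hcon
  have fA₁ : (dia V T₁).Finite := h.finV.subset fun _ hv => hv.1
  have fA₂ : (dia V T₂).Finite := h.finV.subset fun _ hv => hv.1
  have fT₁ := h.finW.subset hT₁
  have fT₂ := h.finW.subset hT₂
  set A₁ := fA₁.toFinset
  set A₂ := fA₂.toFinset
  have hA₁ : ∀ v ∈ A₁, v ∈ V := fun v hv => (fA₁.mem_toFinset.1 hv).1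
  have hA₂ : ∀ v ∈ A₂, v ∈ V := fun v hv => (fA₂.mem_toFinset.1 hv).1
  have hge : ∀ w ∈ W, 2 ≤ defect A₁ w + defect A₂ w := by
    intro w hw
    by_cases h1 : w ∈ dia W (dia V T₁)
    · have h2 := hc2 w h1
      simp only [dia, mem_ofPred_eq, not_and, not_forall] at h2
      obtain ⟨v, hv, hv'⟩ := h2 hw
      linarith [h.two_le_defect hA₂ hw (fA₂.mem_toFinset.2 hv) hv', h.defect_nonneg hA₁ hw]
    · simp only [dia, mem_ofPred_eq, not_and, not_forall] at h1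
      obtain ⟨v, hv, hv'⟩ := h1 hw
      linarith [h.two_le_defect hA₁ hw (fA₁.mem_toFinset.2 hv) hv', h.defect_nonneg hA₂ hw]
  have hz₁ : ∀ w ∈ T₁, defect A₁ w = 0 := fun w hw => Finset.sum_eq_zero fun v hv => by
    rw [dotProduct_comm, (fA₁.mem_toFinset.1 hv).2 w hw, sub_self]
  have hz₂ : ∀ w ∈ T₂, defect A₂ w = 0 := fun w hw => Finset.sum_eq_zero fun v hv => by
    rw [dotProduct_comm, (fA₂.mem_toFinset.1 hv).2 w hw, sub_self]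
  set T := fT₁.toFinset ×ˢ fT₂.toFinset with hT
  have hTmem : ∀ q ∈ T, q.1 ∈ T₁ ∧ q.2 ∈ T₂ := fun q hq => by
    rw [hT, Finset.mem_product] at hq
    exact ⟨fT₁.mem_toFinset.1 hq.1, fT₂.mem_toFinset.1 hq.2⟩
  obtain ⟨a₁, ha₁⟩ := hne₁
  obtain ⟨a₂, ha₂⟩ := hne₂
  have hTmem' : ∀ a ∈ T₁, ∀ b ∈ T₂, (a, b) ∈ T := fun a ha b hb =>
    Finset.mem_product.2 ⟨fT₁.mem_toFinset.2 ha, fT₂.mem_toFinset.2 hb⟩
  have hm : (1 : ℝ) ≤ T.card := by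
    exact_mod_cast Finset.card_pos.2 ⟨_, hTmem' _ ha₁ _ ha₂⟩
  set m : ℝ := (T.card : ℝ) with hmdef
  let ℓ : (Fin n → ℝ) → ℝ := fun w => (defect A₁ w + defect A₂ w) / 2 - 1 / 2
  have hℓ : ∀ w ∈ W, 0 < ℓ w := fun w hw => by
    have := hge w hw
    simp only [ℓ]
    linarith
  have hμ : 0 < 1 / (8 * m) := by positivity
  have hev : ∀ᶠ ε in 𝓝[>] (0 : ℝ), ∀ w ∈ W,
      |ht (1 - ε * ℓ w) / ht (1 - ε) - ℓ w| < 1 / (8 * m) ∧ ε < 1 / ℓ w := by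
    rw [eventually_all_finite h.finW]
    intro w hw
    refine ((Metric.tendsto_nhds.1 (tendsto_ht_ratio _ (hℓ w hw))) _ hμ).and ?_
    exact mem_of_superset (Ioo_mem_nhdsGT (one_div_pos.2 (hℓ w hw))) fun _ h => h.2
  obtain ⟨ε, hε, hε0, hε1⟩ := (hev.and (Ioo_mem_nhdsGT (zero_lt_one' ℝ))).exists
  have hc : 0 < ht (1 - ε) := ht_pos (abs_lt.2 ⟨by linarith, by linarith⟩)
  set cε := ht (1 - ε) with hcε
  set φ₁ := ∑ v ∈ A₁, (v₀ - v) with hφ₁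
  set φ₂ := ∑ v ∈ A₂, (v₀ - v) with hφ₂
  set x := v₀ - ε • ((1 / 2 : ℝ) • (φ₁ + φ₂) - (1 / 2 : ℝ) • v₀) with hx
  have hwx : ∀ w, w ⬝ᵥ v₀ = 1 → w ⬝ᵥ x = 1 - ε * ℓ w := by
    intro w hw
    simp only [hx, dotProduct_sub, dotProduct_smul, dotProduct_add, hφ₁, hφ₂, dot_phi _ hw, hw,
      smul_eq_mul, ℓ]
    ring
  have hwa : ∀ w, w ⬝ᵥ v₀ = 1 →
      w ⬝ᵥ ((cε / 2) • (φ₂ - φ₁)) = cε / 2 * (defect A₂ w - defect A₁ w) := by
    intro w hw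
    simp only [dotProduct_sub, dotProduct_smul, hφ₁, hφ₂, dot_phi _ hw, smul_eq_mul]
  have hκ : ∀ w ∈ W, w ⬝ᵥ v₀ = 1 → cε * (ℓ w - 1 / (8 * m)) ≤ ht (w ⬝ᵥ x) ∧
      ht (w ⬝ᵥ x) ≤ cε * (ℓ w + 1 / (8 * m)) ∧ |w ⬝ᵥ x| ≤ 1 := by
    intro w hw hw0
    obtain ⟨b1, b2⟩ := hε w hw
    rw [abs_lt, lt_sub_iff_add_lt, sub_lt_iff_lt_add, lt_div_iff₀ hc, div_lt_iff₀ hc] at b1
    rw [lt_div_iff₀ (hℓ w hw)] at b2
    have b3 := mul_pos hε0 (hℓ w hw)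
    rw [hwx w hw0]
    exact ⟨by linarith [b1.1], by linarith [b1.2], abs_le.2 ⟨by linarith, by linarith⟩⟩
  have hsign : ∀ w ∈ W, w ⬝ᵥ v₀ = 1 ∨ (-w) ⬝ᵥ v₀ = 1 := fun w hw => by
    rcases h.pm w hw v₀ hv₁.1 with h1 | h1
    · exact Or.inl h1
    · right; rw [neg_dotProduct, h1, neg_neg]
  have hm1 : 0 < 2 * m - 1 := by linarith
  obtain ⟨y, hy1, hy2⟩ := hN x ((2 * m - 1)⁻¹ • ∑ q ∈ T, (q.1 - q.2)) ((cε / 2) • (φ₂ - φ₁))
    (cε * (1 / 2 + 1 / (8 * m))) (fun w hw => by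
      rcases hsign w hw with h1 | h1
      · exact (le_abs_self _).trans (hκ w hw h1).2.2
      · have := (hκ _ (h.negW w hw) h1).2.2
        rw [neg_dotProduct, abs_neg] at this
        exact (le_abs_self _).trans this)
    (fun v hv => by
      rw [dotProduct_smul, smul_eq_mul, inv_mul_le_iff₀ hm1, mul_one, dotProduct_sum]
      have hex : ∃ q ∈ T, v ⬝ᵥ (q.1 - q.2) ≤ 0 := by
        by_cases h1 : ∀ w ∈ T₁, v ⬝ᵥ w = 1
        · obtain ⟨w, hw, hw'⟩ := hc1 v hv h1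
          refine ⟨(a₁, w), hTmem' _ ha₁ _ hw, ?_⟩
          rw [dotProduct_sub, h1 a₁ ha₁, (h.symm.pm v hv w (hT₂ hw)).resolve_right hw', sub_self]
        · push Not at h1
          obtain ⟨w, hw, hw'⟩ := h1
          refine ⟨(w, a₂), hTmem' _ hw _ ha₂, ?_⟩
          rw [dotProduct_sub, (h.symm.pm v hv w (hT₁ hw)).resolve_left hw']
          rcases h.symm.pm v hv a₂ (hT₂ ha₂) with h2 | h2 <;> rw [h2] <;> norm_num
      obtain ⟨q₀, hq₀, hq₁⟩ := hex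
      have h2 : ∀ q ∈ T, 0 ≤ 2 - v ⬝ᵥ (q.1 - q.2) := fun q hq => by
        rw [dotProduct_sub]
        have b1 := h.symm.le_one hv (hT₁ (hTmem q hq).1)
        rcases h.symm.pm v hv q.2 (hT₂ (hTmem q hq).2) with h2 | h2 <;> linarith
      have h3 := Finset.single_le_sum h2 hq₀
      rw [Finset.sum_sub_distrib, Finset.sum_const, nsmul_eq_mul, ← hmdef] at h3
      linarith)
    (by positivity) (fun w hw => by
      rcases hsign w hw with h1 | h1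
      · have b1 := (hκ w hw h1).1
        rw [hwa w h1]
        have := mul_nonneg hc.le (h.defect_nonneg hA₁ hw)
        simp only [ℓ] at b1
        linarith
      · have b1 := (hκ _ (h.negW w hw) h1).1
        have b2 := hwa _ h1
        rw [neg_dotProduct] at b2
        rw [neg_dotProduct, ht_neg] at b1
        have := mul_nonneg hc.le (h.defect_nonneg hA₂ (h.negW w hw))
        simp only [ℓ] at b1
        linarith)
  rw [smul_dotProduct, smul_dotProduct, smul_eq_mul, smul_eq_mul, sum_dotProduct,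
    sum_dotProduct] at hy2
  have hpair : ∀ q ∈ T, (q.1 - q.2) ⬝ᵥ y
      ≤ (q.1 - q.2) ⬝ᵥ ((cε / 2) • (φ₂ - φ₁)) - cε * (1 - 2 / (8 * m)) := by
    intro q hq
    obtain ⟨q1, q2⟩ := hTmem q hq
    have e1 : q.1 ⬝ᵥ v₀ = 1 := by rw [dotProduct_comm]; exact hv₁.2 _ q1
    have e2 : q.2 ⬝ᵥ v₀ = 1 := by rw [dotProduct_comm]; exact hv₂.2 _ q2
    have b1 := hy1 q.1 fun v hv => h.symm.le_one hv (hT₁ q1)
    have b2 := hy1 (-q.2) fun v hv => h.symm.le_one hv (h.negW _ (hT₂ q2))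
    rw [neg_dotProduct, neg_dotProduct, ht_neg] at b2
    have b3 := (hκ _ (hT₁ q1) e1).2.1
    have b4 := (hκ _ (hT₂ q2) e2).2.1
    rw [sub_dotProduct, sub_dotProduct, hwa _ e1, hwa _ e2]
    simp only [ℓ, hz₁ _ q1, hz₂ _ q2] at b3 b4 ⊢
    have : cε * (2 / (8 * m)) = 2 * (cε * (1 / (8 * m))) := by ring
    linarith
  have h3 := Finset.sum_le_sum hpair
  rw [Finset.sum_sub_distrib, Finset.sum_const, nsmul_eq_mul, ← hmdef] at h3
  have h4 := mul_le_mul_of_nonneg_left hy2 hm1.le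
  rw [mul_sub, mul_inv_cancel_left₀ hm1.ne', mul_inv_cancel_left₀ hm1.ne'] at h4
  have h5 : m * (cε * (1 - 2 / (8 * m))) = cε * (m - 1 / 4) := by field_simp; ring
  have h6 : (2 * m - 1) * (cε * (1 / 2 + 1 / (8 * m))) = cε * (m - 1 / 4 - 1 / (8 * m)) := by
    field_simp; ring
  have h7 := mul_pos hc hμ
  linarith

theorem no_flat (h : Conf V W) (hN : NP V W) {A₁ A₂ : Set (Fin n → ℝ)} (hA₁ : A₁ ⊆ V)
    (hA₂ : A₂ ⊆ V) (hne₁ : A₁.Nonempty) (hne₂ : A₂.Nonempty)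
    (hcl : ∀ v ∈ dia V (dia W A₁), v ∈ A₁) (hG₁ : (dia W A₁).Nonempty)
    (hd₁ : ∀ w ∈ dia W A₂, w ∉ dia W A₁) (hd₂ : ∀ w ∈ dia W A₂, -w ∉ dia W A₁)
    {q : Fin n → ℝ} (hq : ∀ v ∈ V, v ⬝ᵥ q ≤ 1) (hq₁ : ∀ v ∈ A₁, q ⬝ᵥ v = 0)
    (hq₂ : ∀ v ∈ A₂, q ⬝ᵥ v = 1) : False := by
  have f₁ := h.finV.subset hA₁
  have f₂ := h.finV.subset hA₂
  have fG : (dia W A₁).Finite := h.finW.subset fun _ hw => hw.1
  have fG₂ : (dia W A₂).Finite := h.finW.subset fun _ hw => hw.1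
  set a₁ := f₁.toFinset
  set a₂ := f₂.toFinset
  set g₁ := fG.toFinset
  have ha₁ : ∀ v ∈ a₁, v ∈ V := fun v hv => hA₁ (f₁.mem_toFinset.1 hv)
  have ha₂ : ∀ v ∈ a₂, v ∈ V := fun v hv => hA₂ (f₂.mem_toFinset.1 hv)
  have c₁ : (1 : ℝ) ≤ a₁.card := by
    exact_mod_cast Finset.card_pos.2 (f₁.toFinset_nonempty.2 hne₁)
  have c₂ : (1 : ℝ) ≤ a₂.card := by
    exact_mod_cast Finset.card_pos.2 (f₂.toFinset_nonempty.2 hne₂)
  have c₃ : (1 : ℝ) ≤ g₁.card := by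
    exact_mod_cast Finset.card_pos.2 (fG.toFinset_nonempty.2 hG₁)
  set x := (a₁.card : ℝ)⁻¹ • ∑ v ∈ a₁, v with hx
  have hwx : ∀ w, w ⬝ᵥ x = 1 - defect a₁ w / a₁.card := by
    intro w
    rw [hx, dotProduct_smul, dotProduct_sum, defect, Finset.sum_sub_distrib, smul_eq_mul]
    simp only [Finset.sum_const, nsmul_eq_mul, mul_one]
    field_simp
    ring
  have hlt : ∀ w ∈ W, w ∉ dia W A₁ → w ⬝ᵥ x < 1 := by
    intro w hw h1
    simp only [dia, mem_ofPred_eq, not_and, not_forall] at h1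
    obtain ⟨v, hv, hv'⟩ := h1 hw
    have := h.two_le_defect ha₁ hw (f₁.mem_toFinset.2 hv) hv'
    rw [hwx]
    have : 0 < defect a₁ w / a₁.card := by positivity
    linarith
  obtain ⟨κ, hκ0, hκ⟩ : ∃ κ : ℝ, 0 < κ ∧ ∀ w ∈ dia W A₂, κ ≤ ht (w ⬝ᵥ x) := by
    rcases (dia W A₂).eq_empty_or_nonempty with h0 | h0
    · exact ⟨1, one_pos, by simp [h0]⟩
    · obtain ⟨w, hw, hmin⟩ := Set.exists_min_image _ (fun w => ht (w ⬝ᵥ x)) fG₂ h0
      refine ⟨_, ht_pos (abs_lt.2 ⟨?_, hlt w hw.1 (hd₁ w hw)⟩), hmin⟩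
      have := hlt _ (h.negW w hw.1) (hd₂ w hw)
      rw [neg_dotProduct] at this
      linarith
  have hwa : ∀ w, w ⬝ᵥ (κ • ∑ v ∈ a₂, v) = κ * (a₂.card - defect a₂ w) := by
    intro w
    rw [dotProduct_smul, dotProduct_sum, defect, Finset.sum_sub_distrib, smul_eq_mul]
    simp
  obtain ⟨y, hy1, hy2⟩ := hN x q (κ • ∑ v ∈ a₂, v) (κ * (a₂.card - 1))
    (fun w hw => by
      rw [hwx]
      have := h.defect_nonneg ha₁ hw
      have : 0 ≤ defect a₁ w / a₁.card := by positivity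
      linarith) hq (mul_nonneg hκ0.le (by linarith)) (fun w hw => by
      rw [hwa]
      by_cases h1 : w ∈ dia W A₂
      · have := hκ w h1
        nlinarith [h.defect_nonneg ha₂ hw]
      · simp only [dia, mem_ofPred_eq, not_and, not_forall] at h1
        obtain ⟨v, hv, hv'⟩ := h1 hw
        have := h.two_le_defect ha₂ hw (f₂.mem_toFinset.2 hv) hv'
        nlinarith [ht_nonneg (w ⬝ᵥ x)])
  have e1 : defect a₂ q = 0 := Finset.sum_eq_zero fun v hv => by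
    rw [hq₂ v (f₂.mem_toFinset.1 hv), sub_self]
  rw [hwa, e1] at hy2
  have e2 : ∀ g ∈ g₁, g ⬝ᵥ x = 1 := fun g hg => by
    rw [hwx, show defect a₁ g = 0 from Finset.sum_eq_zero fun v hv => by
      rw [(fG.mem_toFinset.1 hg).2 v (f₁.mem_toFinset.1 hv), sub_self]]
    simp
  have e3 : ∀ g ∈ g₁, 0 ≤ g ⬝ᵥ y := fun g hg => by
    have := hy1 (-g) fun v hv => h.symm.le_one hv (h.negW _ (fG.mem_toFinset.1 hg).1)
    rw [neg_dotProduct, neg_dotProduct, ht_neg, e2 g hg, ht_one] at this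
    linarith
  have e4 : q ⬝ᵥ x = 0 := by
    rw [hx, dotProduct_smul, dotProduct_sum,
      Finset.sum_eq_zero fun v hv => hq₁ v (f₁.mem_toFinset.1 hv), smul_zero]
  have hc0 : (0 : ℝ) < g₁.card := by linarith
  have e5 := hy1 ((g₁.card : ℝ)⁻¹ • (∑ g ∈ g₁, g + q)) fun v hv => by
    rw [dotProduct_smul, smul_eq_mul, inv_mul_le_iff₀ hc0, mul_one, dotProduct_add,
      dotProduct_sum]
    have b0 : defect g₁ v = g₁.card - ∑ g ∈ g₁, v ⬝ᵥ g := by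
      rw [defect, Finset.sum_sub_distrib]
      simp
    have hg₁ : ∀ g ∈ g₁, g ∈ W := fun g hg => (fG.mem_toFinset.1 hg).1
    by_cases h1 : v ∈ A₁
    · rw [dotProduct_comm v q, hq₁ v h1]
      linarith [h.symm.defect_nonneg hg₁ hv]
    · have h2 : v ∉ dia V (dia W A₁) := fun h2 => h1 (hcl v h2)
      simp only [dia, mem_ofPred_eq, not_and, not_forall] at h2
      obtain ⟨g, hg, hg'⟩ := h2 hv
      linarith [h.symm.two_le_defect hg₁ hv (fG.mem_toFinset.2 hg) hg', hq v hv]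
  rw [smul_dotProduct, smul_dotProduct, add_dotProduct, add_dotProduct, sum_dotProduct,
    sum_dotProduct, Finset.sum_congr rfl e2, e4, Finset.sum_const, nsmul_eq_mul, mul_one, add_zero,
    smul_eq_mul, smul_eq_mul, inv_mul_cancel₀ hc0.ne', ht_one, inv_mul_le_iff₀ hc0] at e5
  have e6 := Finset.sum_nonneg e3
  nlinarith

end Conf

end Vale.Agent.P248
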