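import Vale.Agent.P248.NStar

/-! Equality forces a polytope whose vertices and facets pair to `1` or `-1`. -/

namespace Vale.Agent.P248

open Set Filter Topology Metric MeasureTheory Matrix Real Pointwise

variable {n : ℕ}

/-- A positive definite quadratic form. -/
def qf (l : Fin n → ℝ) (δ : ℝ) (x : Fin n → ℝ) : ℝ := (l ⬝ᵥ x) ^ 2 + δ * (x ⬝ᵥ x)

/-- Points that maximise one of these forms. -/
def far (K : Set (Fin n → ℝ)) : Set (Fin n → ℝ) :=
  {x | x ∈ K ∧ ∃ l δ, 0 < δ ∧ ∀ z ∈ K, qf l δ z ≤ qf l δ x}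

theorem dot_self_nonneg (x : Fin n → ℝ) : 0 ≤ x ⬝ᵥ x :=
  Finset.sum_nonneg fun i _ => mul_self_nonneg (x i)

theorem norm_sq_le_dot (x : Fin n → ℝ) : ‖x‖ ^ 2 ≤ x ⬝ᵥ x := by
  have h : ‖x‖ ≤ √(x ⬝ᵥ x) := by
    rw [pi_norm_le_iff_of_nonneg (sqrt_nonneg _)]
    intro i
    apply Real.abs_le_sqrt
    rw [sq]
    exact Finset.single_le_sum (f := fun i => x i * x i) (fun i _ => mul_self_nonneg (x i))
      (Finset.mem_univ i)
  calc ‖x‖ ^ 2 ≤ √(x ⬝ᵥ x) ^ 2 := by gcongr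
    _ = _ := sq_sqrt (dot_self_nonneg x)

theorem qf_nonneg (l : Fin n → ℝ) {δ : ℝ} (hδ : 0 < δ) (x : Fin n → ℝ) : 0 ≤ qf l δ x :=
  add_nonneg (sq_nonneg _) (mul_nonneg hδ.le (dot_self_nonneg x))

theorem qf_pos (l : Fin n → ℝ) {δ : ℝ} (hδ : 0 < δ) {x : Fin n → ℝ} (hx : x ≠ 0) :
    0 < qf l δ x :=
  add_pos_of_nonneg_of_pos (sq_nonneg _)
    (mul_pos hδ ((pow_pos (norm_pos_iff.2 hx) 2).trans_le (norm_sq_le_dot x)))

theorem qf_smul (l : Fin n → ℝ) (δ t : ℝ) (x : Fin n → ℝ) :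
    qf l δ (t • x) = t ^ 2 * qf l δ x := by
  simp only [qf, dotProduct_smul, smul_dotProduct, smul_eq_mul]
  ring

theorem qf_para (l : Fin n → ℝ) (δ : ℝ) (x y : Fin n → ℝ) :
    qf l δ (x + y) + qf l δ (x - y) = 2 * qf l δ x + 2 * qf l δ y := by
  simp only [qf, dotProduct_add, add_dotProduct, dotProduct_sub, sub_dotProduct]
  ring

theorem qf_sub (l : Fin n → ℝ) (δ : ℝ) (x p : Fin n → ℝ) :
    qf l δ (x - p) = qf l δ x - 2 * (x ⬝ᵥ ((l ⬝ᵥ p) • l + δ • p)) + qf l δ p := by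
  simp only [qf, dotProduct_add, dotProduct_sub, sub_dotProduct, dotProduct_smul, smul_eq_mul,
    dotProduct_comm p x, dotProduct_comm x l]
  ring

namespace Body

variable {K : Set (Fin n → ℝ)}

theorem far_neg (h : Body K) {x : Fin n → ℝ} (hx : x ∈ far K) : -x ∈ far K := by
  obtain ⟨h1, l, δ, hδ, h2⟩ := hx
  refine ⟨h.symm x h1, l, δ, hδ, fun z hz => (h2 z hz).trans (le_of_eq ?_)⟩
  simp [qf]

theorem exists_far (h : Body K) (l : Fin n → ℝ) {δ : ℝ} (hδ : 0 < δ) :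
    ∃ x ∈ far K, ∀ z ∈ K, qf l δ z ≤ qf l δ x := by
  obtain ⟨x, hx, hmax⟩ := h.compact.exists_isMaxOn ⟨0, h.zero_mem⟩
    (f := qf l δ) (Continuous.continuousOn (by unfold qf; fun_prop))
  exact ⟨x, ⟨hx, l, δ, hδ, hmax⟩, hmax⟩

theorem polar_far (h : Body K) {η : Fin n → ℝ} (hη : ∀ x ∈ far K, η ⬝ᵥ x ≤ 1) :
    η ∈ dotPolar K := by
  intro z hz
  by_contra hc
  push Not at hc
  obtain ⟨R, hR, hRK⟩ := h.compact.isBounded.subset_closedBall_lt 0 0
  have h0 : 0 < (η ⬝ᵥ z) ^ 2 - 1 := by nlinarith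
  set δ := ((η ⬝ᵥ z) ^ 2 - 1) / (n * R ^ 2 + 1) with hδ
  have hδ0 : 0 < δ := by positivity
  obtain ⟨x, hx, hmax⟩ := h.exists_far η hδ0
  have h1 := hmax z hz
  have h2 : x ⬝ᵥ x ≤ n * R ^ 2 := by
    have a1 := hRK hx.1
    rw [mem_closedBall, dist_zero_right] at a1
    refine (le_abs_self _).trans ((abs_dot_le_norm x x).trans ?_)
    rw [sq]
    gcongr
  have h3 := hη x hx
  have h4 := hη _ (h.far_neg hx)
  rw [dotProduct_neg] at h4
  have h5 : (η ⬝ᵥ x) ^ 2 ≤ 1 := by nlinarith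
  have h6 : δ * (n * R ^ 2 + 1) = (η ⬝ᵥ z) ^ 2 - 1 := by
    rw [hδ]; field_simp
  have h7 := mul_nonneg hδ0.le (dot_self_nonneg z)
  have h8 := mul_le_mul_of_nonneg_left h2 hδ0.le
  unfold qf at h1
  nlinarith

theorem far_pm (hn : 0 < n) (h : Body K) (hN : NStar K) {p x : Fin n → ℝ}
    (hp : p ∈ far (dotPolar K)) (hx : x ∈ far K) : |p ⬝ᵥ x| = 1 := by
  have hP := h.polar
  obtain ⟨hp1, l', δ', hδ', hp2⟩ := hp
  obtain ⟨hx1, l, δ, hδ, hx2⟩ := hx
  by_contra hne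
  have hlt : |p ⬝ᵥ x| < 1 := lt_of_le_of_ne (abs_dot_le h.symm hp1 hx1) hne
  have hγ := half_pos (ht_pos hlt)
  set γ := ht (p ⬝ᵥ x) / 2 with hγdef
  have hq : 0 < qf l' δ' p := by
    obtain ⟨r, hr, hb⟩ := hP.ball
    refine (qf_pos l' hδ' (x := fun _ => r) fun h0 => hr.ne' (congrFun h0 ⟨0, hn⟩)).trans_le
      (hp2 _ (hb ?_))
    rw [mem_closedBall, dist_zero_right, pi_norm_le_iff_of_nonneg hr.le]
    intro i
    rw [Real.norm_of_nonneg hr.le]
  have hcont : Continuous fun η : Fin n → ℝ => ht (η ⬝ᵥ x) := continuous_ht.comp (by fun_prop)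
  obtain ⟨ρ, hρ, hball⟩ := Metric.eventually_nhds_iff.1
    ((hcont.tendsto p).eventually (lt_mem_nhds (show γ < ht (p ⬝ᵥ x) by linarith)))
  set t := max (2 * γ / (δ' * ρ ^ 2)) (γ / qf l' δ' p) with ht0
  have ht1 : 2 * γ ≤ t * (δ' * ρ ^ 2) := by
    rw [← div_le_iff₀ (by positivity)]; exact le_max_left _ _
  have ht2 : γ ≤ t * qf l' δ' p := by
    rw [← div_le_iff₀ hq]; exact le_max_right _ _
  have ht3 : 0 < t := lt_max_of_lt_right (by positivity)
  have hpp : p ⬝ᵥ ((l' ⬝ᵥ p) • l' + δ' • p) = qf l' δ' p := by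
    simp only [qf, dotProduct_add, dotProduct_smul, smul_eq_mul, dotProduct_comm p l']
    ring
  obtain ⟨y, hy1, hy2⟩ := hN x hx1 p hp1 (t • ((l' ⬝ᵥ p) • l' + δ' • p)) (t * qf l' δ' p - γ)
    (by linarith) (fun η hη => by
      have a1 := qf_sub l' δ' η p
      have a2 := hp2 η hη
      rw [dotProduct_smul, smul_eq_mul]
      have a3 : δ' * ‖η - p‖ ^ 2 ≤ qf l' δ' (η - p) :=
        le_add_of_nonneg_of_le (sq_nonneg _)
          (mul_le_mul_of_nonneg_left (norm_sq_le_dot _) hδ'.le)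
      have a4 : η ⬝ᵥ ((l' ⬝ᵥ p) • l' + δ' • p) ≤ qf l' δ' p - δ' * ‖η - p‖ ^ 2 / 2 := by linarith
      have a5 := mul_le_mul_of_nonneg_left a4 ht3.le
      rcases lt_or_ge (dist η p) ρ with a6 | a6
      · have a7 := hball a6
        have : 0 ≤ t * (δ' * ‖η - p‖ ^ 2 / 2) := by positivity
        nlinarith
      · rw [dist_eq_norm] at a6
        have a7 : t * (δ' * ρ ^ 2) ≤ t * (δ' * ‖η - p‖ ^ 2) := by gcongr
        nlinarith [ht_nonneg (η ⬝ᵥ x)])
  rw [dotProduct_smul, smul_eq_mul, hpp] at hy2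
  have hy0 : y ≠ 0 := by
    rintro rfl
    rw [dotProduct_zero] at hy2
    linarith
  have hmem : ∀ ε : ℝ, 0 ≤ ε → ∀ s : ℝ, |s| = 1 →
      qf l δ (x + (s * ε) • y) ≤ (1 + 2048 * ε ^ 4) ^ 2 * qf l δ x := by
    intro ε hε s hs
    have hc : 0 < 1 + 2048 * ε ^ 4 := by positivity
    have a1 : (1 + 2048 * ε ^ 4)⁻¹ • (x + (s * ε) • y) ∈ K := by
      apply h.mem_of_polar
      intro η hη
      rw [dotProduct_smul, smul_eq_mul, inv_mul_le_iff₀ hc, mul_one, dotProduct_add,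
        dotProduct_smul, smul_eq_mul]
      have b1 := ht_flat (abs_dot_le h.symm hη hx1) hε
      have b2 := hy1 η hη
      have b3 := hy1 _ (hP.symm η hη)
      rw [neg_dotProduct, neg_dotProduct, ht_neg] at b3
      have b4 : |η ⬝ᵥ y| ≤ ht (η ⬝ᵥ x) := abs_le.2 ⟨by linarith, b2⟩
      have b5 : s * ε * (η ⬝ᵥ y) ≤ ε * ht (η ⬝ᵥ x) := by
        refine (le_abs_self _).trans ?_
        rw [abs_mul, abs_mul, hs, one_mul, abs_of_nonneg hε]
        exact mul_le_mul_of_nonneg_left b4 hε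
      linarith [le_abs_self (η ⬝ᵥ x)]
    have a2 := hx2 _ a1
    rw [qf_smul, inv_pow, inv_mul_le_iff₀ (by positivity)] at a2
    exact a2
  have hy3 := qf_pos l hδ hy0
  have hkey : ∀ ε : ℝ, 0 < ε → qf l δ y ≤ (4096 * ε ^ 2 + 2048 ^ 2 * ε ^ 6) * qf l δ x := by
    intro ε hε
    have a1 := hmem ε hε.le 1 (by simp)
    have a2 := hmem ε hε.le (-1) (by simp)
    rw [one_mul] at a1
    rw [neg_one_mul, neg_smul, ← sub_eq_add_neg] at a2
    have a3 := qf_para l δ x (ε • y)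
    rw [qf_smul] at a3
    refine le_of_mul_le_mul_left ?_ (show 0 < ε ^ 2 by positivity)
    nlinarith
  have hlim : Tendsto (fun ε : ℝ => (4096 * ε ^ 2 + 2048 ^ 2 * ε ^ 6) * qf l δ x) (𝓝[>] 0)
      (𝓝 0) := by
    apply tendsto_nhdsWithin_of_tendsto_nhds
    have : Continuous fun ε : ℝ => (4096 * ε ^ 2 + 2048 ^ 2 * ε ^ 6) * qf l δ x := by fun_prop
    simpa using this.tendsto 0
  have := ge_of_tendsto hlim (by
    filter_upwards [self_mem_nhdsWithin] with ε hε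
    exact hkey ε hε)
  linarith

theorem far_sep (h : Body K) {x : Fin n → ℝ} (hx : ∀ p ∈ far K, p ⬝ᵥ x = 0) : x = 0 := by
  obtain ⟨R, hR, hRK⟩ := h.polar.compact.isBounded.subset_closedBall_lt 0 0
  by_contra h0
  have h1 : 0 < ‖x‖ := norm_pos_iff.2 h0
  have h2 : ((R + 1) / ‖x‖) • x ∈ dotPolar K := h.polar_far fun p hp => by
    rw [smul_dotProduct, dotProduct_comm, hx p hp]
    simp
  have h3 := hRK h2
  rw [mem_closedBall, dist_zero_right, norm_smul, Real.norm_of_nonneg (by positivity),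
    div_mul_cancel₀ _ h1.ne'] at h3
  linarith

theorem far_finite (hn : 0 < n) (h : Body K) (hN : NStar K) : (far K).Finite := by
  have hP := h.polar
  obtain ⟨R, hR, hRK⟩ := hP.compact.isBounded.subset_closedBall_lt 0 0
  have hn' : (0 : ℝ) < n := by exact_mod_cast hn
  obtain ⟨t, ht, hcov⟩ := Metric.totallyBounded_iff.1 h.compact.totallyBounded
    (1 / (2 * (n * R))) (by positivity)
  refine (ht.biUnion (t := fun y => far K ∩ Metric.ball y (1 / (2 * (n * R))))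
    fun y _ => Set.Subsingleton.finite ?_).subset fun x hx => ?_
  · intro x hx x' hx'
    apply sub_eq_zero.1
    apply hP.far_sep
    intro p hp
    have a1 := h.far_pm hn hN hp hx.1
    have a2 := h.far_pm hn hN hp hx'.1
    have a3 : ‖x - x'‖ < 1 / (n * R) := by
      rw [← dist_eq_norm]
      have := dist_triangle_right x x' y
      have b1 : dist x y < 1 / (2 * (n * R)) := hx.2
      have b2 : dist x' y < 1 / (2 * (n * R)) := hx'.2
      have : 1 / (2 * (n * R)) + 1 / (2 * (n * R)) = 1 / (n * R) := by field_simp; norm_num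
      linarith
    have a4 := hRK hp.1
    rw [mem_closedBall, dist_zero_right] at a4
    have a5 : |p ⬝ᵥ (x - x')| ≤ 1 := by
      refine (abs_dot_le_norm _ _).trans ?_
      calc (n : ℝ) * (‖p‖ * ‖x - x'‖) ≤ n * (R * (1 / (n * R))) := by gcongr
        _ = 1 := by field_simp
    rw [dotProduct_sub] at a5 ⊢
    rw [abs_le] at a5
    rcases abs_eq zero_le_one |>.1 a1 with b1 | b1 <;>
      rcases abs_eq zero_le_one |>.1 a2 with b2 | b2 <;> linarith
  · obtain ⟨y, hy, hxy⟩ := mem_iUnion₂.1 (hcov hx.1)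
    exact mem_iUnion₂.2 ⟨y, hy, hx, hxy⟩

theorem far_nonempty (h : Body K) : (far K).Nonempty := by
  obtain ⟨x, hx, -⟩ := h.exists_far 0 one_pos
  exact ⟨x, hx⟩

theorem convexHull_far (h : Body K) (hfin : (far K).Finite) : convexHull ℝ (far K) = K := by
  apply Subset.antisymm (convexHull_min (fun x hx => hx.1) h.convex)
  intro x hx
  obtain ⟨v, hv⟩ := h.far_nonempty
  refine bipolar (hfin.isClosed_convexHull ℝ) (convex_convexHull ℝ _) ?_ fun y hy => ?_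
  · have := convex_convexHull ℝ (far K) (subset_convexHull ℝ _ hv)
      (subset_convexHull ℝ _ (h.far_neg hv)) (a := 1 / 2) (b := 1 / 2) (by norm_num) (by norm_num)
      (by norm_num)
    simpa using this
  · exact h.polar_far (fun z hz => hy z (subset_convexHull ℝ _ hz)) x hx

end Body

/-- A finite configuration of vertices and facet normals pairing to `1` or `-1`. -/
structure Conf (V W : Set (Fin n → ℝ)) : Prop where
  finV : V.Finite
  finW : W.Finite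
  pm : ∀ w ∈ W, ∀ v ∈ V, w ⬝ᵥ v = 1 ∨ w ⬝ᵥ v = -1
  negV : ∀ v ∈ V, -v ∈ V
  negW : ∀ w ∈ W, -w ∈ W
  sepV : ∀ x, (∀ v ∈ V, v ⬝ᵥ x = 0) → x = 0
  sepW : ∀ x, (∀ w ∈ W, w ⬝ᵥ x = 0) → x = 0
  compV : ∀ x, (∀ w ∈ W, w ⬝ᵥ x = 1 ∨ w ⬝ᵥ x = -1) → x ∈ V
  compW : ∀ x, (∀ v ∈ V, v ⬝ᵥ x = 1 ∨ v ⬝ᵥ x = -1) → x ∈ W

theorem Conf.symm {V W : Set (Fin n → ℝ)} (h : Conf V W) : Conf W V :=
  ⟨h.finW, h.finV, fun v hv w hw => by rw [dotProduct_comm]; exact h.pm w hw v hv, h.negW, h.negV,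
    h.sepW, h.sepV, h.compW, h.compV⟩

theorem Body.far_comp (hn : 0 < n) {K : Set (Fin n → ℝ)} (h : Body K) (hN : NStar K)
    (hfin : (far (dotPolar K)).Finite) {x : Fin n → ℝ}
    (hx : ∀ w ∈ far (dotPolar K), w ⬝ᵥ x = 1 ∨ w ⬝ᵥ x = -1) : x ∈ far K := by
  have hP := h.polar
  have hxK : x ∈ convexHull ℝ (far K) := by
    rw [h.convexHull_far (h.far_finite hn hN), ← h.polar_polar]
    refine hP.polar_far fun p hp => ?_
    rw [dotProduct_comm]
    rcases hx p hp with h1 | h1 <;> linarith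
  have hex : ∃ v ∈ far K, ∑ p ∈ hfin.toFinset, (1 : ℝ)
      ≤ ∑ p ∈ hfin.toFinset, (p ⬝ᵥ x) * (p ⬝ᵥ v) := by
    by_contra hc
    push Not at hc
    have hconv : Convex ℝ {v : Fin n → ℝ | ∑ p ∈ hfin.toFinset, (p ⬝ᵥ x) * (p ⬝ᵥ v)
        < ∑ p ∈ hfin.toFinset, (1 : ℝ)} := by
      apply convex_halfSpace_lt
      constructor
      · intro a b
        simp only [dotProduct_add, mul_add, Finset.sum_add_distrib]
      · intro c a
        simp only [dotProduct_smul, smul_eq_mul, Finset.mul_sum]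
        exact Finset.sum_congr rfl fun _ _ => by ring
    have h1 : ∑ p ∈ hfin.toFinset, (p ⬝ᵥ x) * (p ⬝ᵥ x) < ∑ p ∈ hfin.toFinset, (1 : ℝ) :=
      convexHull_min hc hconv hxK
    refine absurd h1 (not_lt.2 (le_of_eq (Finset.sum_congr rfl fun p hp => ?_)))
    rcases hx p (hfin.mem_toFinset.1 hp) with h1 | h1 <;> rw [h1] <;> norm_num
  obtain ⟨v, hv, hs⟩ := hex
  have hle : ∀ p ∈ hfin.toFinset, (p ⬝ᵥ x) * (p ⬝ᵥ v) ≤ 1 := by
    intro p hp
    have hp' := hfin.mem_toFinset.1 hp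
    have a1 := abs_le.1 (h.far_pm hn hN hp' hv).le
    rcases hx p hp' with h1 | h1 <;> rw [h1] <;> linarith
  have heq := (Finset.sum_eq_sum_iff_of_le hle).1 (le_antisymm (Finset.sum_le_sum hle) hs)
  have : x = v := by
    apply sub_eq_zero.1
    apply hP.far_sep
    intro p hp
    have a1 := heq p (hfin.mem_toFinset.2 hp)
    rw [dotProduct_sub]
    rcases hx p hp with h1 | h1 <;> rw [h1] at a1 ⊢ <;> linarith
  rwa [this]

theorem Body.conf (hn : 0 < n) {K : Set (Fin n → ℝ)} (h : Body K) (hN : NStar K)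
    (hN' : NStar (dotPolar K)) : Conf (far K) (far (dotPolar K)) := by
  have hP := h.polar
  have f1 := h.far_finite hn hN
  have f2 := hP.far_finite hn hN'
  refine ⟨f1, f2, fun w hw v hv => (abs_eq zero_le_one).1 (h.far_pm hn hN hw hv),
    fun v hv => h.far_neg hv, fun w hw => hP.far_neg hw, fun x hx => h.far_sep hx,
    fun x hx => hP.far_sep hx, fun x hx => h.far_comp hn hN f2 hx, fun x hx => ?_⟩
  refine hP.far_comp hn hN' (by rwa [h.polar_polar]) ?_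
  rwa [h.polar_polar]

end Vale.Agent.P248
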