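import Vale.Agent.P248.Upper

/-! The volume product inequality for finitely many linear forms. -/

namespace Vale.Agent.P248

open Set Filter Topology Metric MeasureTheory Matrix Real Pointwise

variable {n : ℕ} {κ : Type*} [Fintype κ]

omit [Fintype κ] in
theorem fam_inj {ε : ℝ} (hε : 0 < ε) (ζ : κ → Fin n → ℝ) (v : Fin n → ℝ)
    (h : ∀ i, fam ε ζ i ⬝ᵥ v = 0) : v = 0 := by
  funext j
  have := h (Sum.inl j)
  simpa [fam, hε.ne'] using this

omit [Fintype κ] in
theorem slab_subset {ε : ℝ} (hε : 0 < ε) (ζ : κ → Fin n → ℝ) {c : ℝ} (hc : 0 ≤ c) :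
    slab (fam ε ζ) c ⊆ closedBall 0 (c / ε) := by
  intro x hx
  rw [mem_closedBall, dist_zero_right, pi_norm_le_iff_of_nonneg (by positivity)]
  intro j
  have := hx (Sum.inl j)
  simp only [fam, Sum.elim_inl, single_dotProduct, abs_mul, abs_of_pos hε] at this
  rw [Real.norm_eq_abs, le_div_iff₀ hε]
  linarith

omit [Fintype κ] in
theorem volume_slab_ne_top {ε : ℝ} (hε : 0 < ε) (ζ : κ → Fin n → ℝ) :
    volume (slab (fam ε ζ) 1) ≠ ⊤ :=
  ((measure_mono (slab_subset hε ζ zero_le_one)).trans_lt measure_closedBall_lt_top).ne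

omit [Fintype κ] in
theorem ex_le (k : ℕ) (i : Fin n ⊕ κ) : ex n κ k i ≤ k + 1 := by
  rcases i with i | i <;> simp [ex]

omit [Fintype κ] in
theorem le_ex (k : ℕ) (i : Fin n ⊕ κ) : k ≤ ex n κ k i := by
  rcases i with i | i <;> simp [ex]

theorem exists_compact {ε : ℝ} (hε : 0 < ε) (ζ : κ → Fin n → ℝ) (k : ℕ) {σ : ℝ} (hσ : σ < 1) :
    ∃ C : Set (Cx n), IsCompact C ∧ C ⊆ dom (fam ε ζ) lens ∧
      ∀ z ∈ dom (fam ε ζ) lens, z ∉ C → σ ≤ rho (fam ε ζ) (pows n κ k) z := by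
  have h1 : Tendsto (fun r : ℝ => (r ^ 2) ^ (k + 2)) (𝓝[<] 1) (𝓝 1) := by
    apply tendsto_nhdsWithin_of_tendsto_nhds
    have : Continuous fun r : ℝ => (r ^ 2) ^ (k + 2) := by fun_prop
    simpa using this.tendsto 1
  obtain ⟨r, hr1, hr2⟩ := ((h1.eventually (lt_mem_nhds hσ)).and
    (Ioo_mem_nhdsLT (zero_lt_one' ℝ))).exists
  refine ⟨⋂ i, lin (fam ε ζ i) ⁻¹' (lensMap '' closedBall 0 r), ?_, ?_, ?_⟩
  · refine (isCompact_closedBall (0 : Cx n) (π ^ 2 / 8 / ε)).of_isClosed_subset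
      (isClosed_iInter fun i => (isCompact_image hr2.2.le).isClosed.preimage (continuous_lin _)) ?_
    intro z hz
    have hz' : ∀ i, ‖lin (fam ε ζ i) z‖ ≤ π ^ 2 / 8 := by
      intro i
      obtain ⟨w, hw, hw2⟩ := mem_iInter.1 hz i
      rw [← hw2]
      exact norm_lensMap_le ((by simpa using hw : ‖w‖ ≤ r).trans hr2.2.le)
    have a1 : z.1 ∈ slab (fam ε ζ) (π ^ 2 / 8) := fun i => by
      simpa [lin] using (Complex.abs_re_le_norm _).trans (hz' i)
    have a2 : z.2 ∈ slab (fam ε ζ) (π ^ 2 / 8) := fun i => by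
      simpa [lin] using (Complex.abs_im_le_norm _).trans (hz' i)
    have a3 := slab_subset hε ζ (by positivity) a1
    have a4 := slab_subset hε ζ (by positivity) a2
    rw [mem_closedBall, dist_zero_right] at a3 a4 ⊢
    rw [Prod.norm_def]
    exact max_le a3 a4
  · intro z hz i
    exact ((mem_image_iff hr2.2).1 (mem_iInter.1 hz i)).1
  · intro z hz hzC
    rw [mem_iInter, not_forall] at hzC
    obtain ⟨i, hi⟩ := hzC
    rw [mem_preimage, mem_image_iff hr2.2, not_and, not_le] at hi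
    have a1 := hi (hz i)
    have a2 : r ^ 2 ≤ Complex.normSq (lensInv (lin (fam ε ζ i) z)) := by
      rw [Complex.normSq_eq_norm_sq]
      have := hr2.1
      gcongr
    have a3 : (r ^ 2) ^ (k + 2) ≤ Complex.normSq (pows n κ k i (lin (fam ε ζ i) z)) := by
      rw [pows, normSq_lensPow]
      calc (r ^ 2) ^ (k + 2) ≤ (r ^ 2) ^ (ex n κ k i + 1) :=
            pow_le_pow_of_le_one (by positivity) (by nlinarith [hr2.1, hr2.2])
              (by have := ex_le k i; omega)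
        _ ≤ _ := by gcongr
    refine (hr1.le.trans a3).trans ?_
    exact Finset.single_le_sum (f := fun i => Complex.normSq (pows n κ k i (lin (fam ε ζ i) z)))
      (fun _ _ => Complex.normSq_nonneg _) (Finset.mem_univ i)

theorem step_bound (hn : 0 < n) {ε : ℝ} (hε : 0 < ε) (ζ : κ → Fin n → ℝ)
    {B : Set (Fin n → ℝ)} (hB : ∀ c : Fin n ⊕ κ → ℝ, ∑ i, |c i| ≤ 1 → comb (fam ε ζ) c ∈ B)
    (hBtop : volume B ≠ ⊤) {c T r₀ : ℝ} (hc0 : 0 < c) (hc : c < π ^ 2 / 8) (hT : 0 < T)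
    (hr0 : 0 ≤ r₀) (hr1 : r₀ < 1)
    (hr : ∀ (k : ℕ) (u v : ℝ), pt u v ∈ lens → |u| ≤ c →
      |xi k u v| ≤ 4 * (k + 1) / arctan T * Complex.normSq (lensPow k (pt u v))
        + 8 * (k + 1) ^ 2 * r₀ ^ k) (k : ℕ) :
    (4 * π * (k + 1)) ^ n ≤ n.factorial *
      (((4 * (k + 2) / arctan T + Fintype.card (Fin n ⊕ κ) * (8 * (k + 2) ^ 2 * r₀ ^ k)) ^ n * c ^ n
        + (Fintype.card (Fin n ⊕ κ) * (14 * (k + 2))) ^ n * ((π ^ 2 / 8) ^ n - c ^ n))
        * (volume (slab (fam ε ζ) 1) * volume B).toReal) := by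
  have : Nonempty (Fin n ⊕ κ) := ⟨Sum.inl ⟨0, hn⟩⟩
  have hN : (0 : ℝ) < Fintype.card (Fin n ⊕ κ) := by exact_mod_cast Fintype.card_pos
  have hat := arctan_pos.2 hT
  set X : ℝ := ((4 * (k + 2) / arctan T
      + Fintype.card (Fin n ⊕ κ) * (8 * (k + 2) ^ 2 * r₀ ^ k)) ^ n * c ^ n
        + (Fintype.card (Fin n ⊕ κ) * (14 * (k + 2))) ^ n * ((π ^ 2 / 8) ^ n - c ^ n)) with hX
  have hle : c ^ n ≤ (π ^ 2 / 8) ^ n := by gcongr
  have hX0 : 0 ≤ X := add_nonneg (by positivity) (mul_nonneg (by positivity) (by linarith))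
  set P := volume (slab (fam ε ζ) 1) * volume B with hP
  have hPtop : P ≠ ⊤ := ENNReal.mul_ne_top (volume_slab_ne_top hε ζ) hBtop
  have hΦ : ∀ i, DifferentiableOn ℂ (pows n κ k i) lens := fun i => differentiableOn_lensPow _
  have key : ∀ σ : ℝ, 0 < σ → σ < 1 →
      (4 * π * (k + 1)) ^ n ≤ n.factorial * ((σ ^ n)⁻¹ * (X * P.toReal)) := by
    intro σ hσ0 hσ1
    obtain ⟨C, hC, hCΩ, hσ⟩ := exists_compact hε ζ k hσ1
    have h1 := lower_bound hε ζ k hσ0 fun δ h0 h2 => mass_mono hn isOpen_lens hΦ hC hCΩ hσ h0 h2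
    have h2 : mass (fam ε ζ) (pows n κ k) lens σ ≤ ENNReal.ofReal X * P := by
      refine mass_le (fam_inj hε ζ) (ex n κ k) hB σ (volume_slab_ne_top hε ζ) hc0 hc.le
        (by positivity) (by positivity) (fun x hx y hy => ?_) (fun x y hy => ?_)
      · have a1 : ∀ i, |xi (ex n κ k i) (fam ε ζ i ⬝ᵥ x) (fam ε ζ i ⬝ᵥ y)|
            ≤ 4 * (k + 2) / arctan T * Complex.normSq (pows n κ k i (lin (fam ε ζ i) (x, y)))
              + 8 * (k + 2) ^ 2 * r₀ ^ k := by
          intro i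
          refine (hr _ _ _ (hy.1 i) (hx i)).trans ?_
          have b1 : ((ex n κ k i : ℕ) : ℝ) + 1 ≤ k + 2 := by
            have := ex_le k i
            have : ((ex n κ k i : ℕ) : ℝ) ≤ (k + 1 : ℕ) := by exact_mod_cast this
            push_cast at this
            linarith
          have b2 : r₀ ^ ex n κ k i ≤ r₀ ^ k := pow_le_pow_of_le_one hr0 hr1.le (le_ex k i)
          have b3 := Complex.normSq_nonneg (pows n κ k i (lin (fam ε ζ i) (x, y)))
          apply add_le_add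
          · exact mul_le_mul_of_nonneg_right (by gcongr) b3
          · gcongr
        refine (Finset.sum_le_sum fun i _ => a1 i).trans ?_
        rw [Finset.sum_add_distrib, ← Finset.mul_sum, Finset.sum_const, Finset.card_univ,
          nsmul_eq_mul]
        have a2 : rho (fam ε ζ) (pows n κ k) (x, y) < σ := hy.2
        have a3 : 4 * (k + 2) / arctan T * rho (fam ε ζ) (pows n κ k) (x, y)
            ≤ 4 * (k + 2) / arctan T := mul_le_of_le_one_right (by positivity) (by linarith)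
        exact add_le_add a3 le_rfl
      · have a1 : ∀ i, |xi (ex n κ k i) (fam ε ζ i ⬝ᵥ x) (fam ε ζ i ⬝ᵥ y)| ≤ 14 * (k + 2) := by
          intro i
          refine (abs_xi_le_uniform _ (hy.1 i)).trans ?_
          have b1 : ((ex n κ k i : ℕ) : ℝ) + 1 ≤ k + 2 := by
            have := ex_le k i
            have : ((ex n κ k i : ℕ) : ℝ) ≤ (k + 1 : ℕ) := by exact_mod_cast this
            push_cast at this
            linarith
          gcongr
        refine (Finset.sum_le_sum fun i _ => a1 i).trans ?_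
        rw [Finset.sum_const, Finset.card_univ, nsmul_eq_mul]
    have h3 := h1.trans (mul_le_mul_right (mul_le_mul_right h2 _) _)
    rw [← ENNReal.ofReal_toReal hPtop, ← ENNReal.ofReal_mul hX0,
      ← ENNReal.ofReal_mul (by positivity), ← ENNReal.ofReal_natCast,
      ← ENNReal.ofReal_mul (by positivity), ENNReal.ofReal_le_ofReal_iff (by positivity)] at h3
    exact h3
  have hlim : Tendsto (fun σ : ℝ => n.factorial * ((σ ^ n)⁻¹ * (X * P.toReal))) (𝓝[<] 1)
      (𝓝 (n.factorial * (((1 : ℝ) ^ n)⁻¹ * (X * P.toReal)))) := by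
    apply tendsto_nhdsWithin_of_tendsto_nhds
    exact ((((continuous_pow n).tendsto 1).inv₀ (by simp)).mul_const _).const_mul _
  rw [one_pow, inv_one, one_mul] at hlim
  refine ge_of_tendsto hlim ?_
  filter_upwards [Ioo_mem_nhdsLT (zero_lt_one' ℝ)] with σ hσ
  exact key σ hσ.1 hσ.2

theorem tendsto_ratio : Tendsto (fun k : ℕ => ((k : ℝ) + 2) / (k + 1)) atTop (𝓝 1) := by
  have h := tendsto_one_div_add_atTop_nhds_zero_nat.const_add (1 : ℝ)
  rw [add_zero] at h
  refine h.congr fun k => ?_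
  field_simp
  ring

theorem tendsto_err {r : ℝ} (h0 : 0 ≤ r) (h1 : r < 1) :
    Tendsto (fun k : ℕ => ((k : ℝ) + 2) ^ 2 * r ^ k / (k + 1)) atTop (𝓝 0) := by
  have a1 := tendsto_self_mul_const_pow_of_lt_one h0 h1
  have a2 := (tendsto_pow_atTop_nhds_zero_of_lt_one h0 h1).const_mul 2
  have h := tendsto_ratio.mul (a1.add a2)
  simp only [mul_zero, add_zero] at h
  refine h.congr fun k => ?_
  field_simp

theorem finite_mahler (hn : 0 < n) {ε : ℝ} (hε : 0 < ε) (ζ : κ → Fin n → ℝ)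
    {B : Set (Fin n → ℝ)} (hB : ∀ c : Fin n ⊕ κ → ℝ, ∑ i, |c i| ≤ 1 → comb (fam ε ζ) c ∈ B)
    (hBtop : volume B ≠ ⊤) :
    (4 : ℝ) ^ n ≤ n.factorial * (volume (slab (fam ε ζ) 1) * volume B).toReal := by
  set P := (volume (slab (fam ε ζ) 1) * volume B).toReal with hP
  set N : ℝ := (Fintype.card (Fin n ⊕ κ) : ℝ) with hN
  have h1 : ∀ c T : ℝ, 0 < c → c < π ^ 2 / 8 → 0 < T → (4 * π) ^ n ≤ n.factorial *
      (((4 / arctan T) ^ n * c ^ n + (N * 14) ^ n * ((π ^ 2 / 8) ^ n - c ^ n)) * P) := by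
    intro c T hc0 hc hT
    obtain ⟨r₀, hr0, hr1, hr⟩ := abs_xi_le_sharp hc0.le hc hT
    have hlim : Tendsto (fun k : ℕ => n.factorial *
        (((4 / arctan T * (((k : ℝ) + 2) / (k + 1))
          + N * 8 * (((k : ℝ) + 2) ^ 2 * r₀ ^ k / (k + 1))) ^ n * c ^ n
        + (N * 14 * (((k : ℝ) + 2) / (k + 1))) ^ n * ((π ^ 2 / 8) ^ n - c ^ n)) * P)) atTop
        (𝓝 (n.factorial * (((4 / arctan T * 1 + N * 8 * 0) ^ n * c ^ n
          + (N * 14 * 1) ^ n * ((π ^ 2 / 8) ^ n - c ^ n)) * P))) :=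
      ((((((tendsto_ratio.const_mul _).add ((tendsto_err hr0 hr1).const_mul _)).pow n).mul_const
        _).add (((tendsto_ratio.const_mul _).pow n).mul_const _)).mul_const _).const_mul _
    simp only [mul_one, mul_zero, add_zero] at hlim
    refine ge_of_tendsto' hlim fun k => ?_
    have h := step_bound hn hε ζ hB hBtop hc0 hc hT hr0 hr1 hr k
    have hk : (0 : ℝ) < ((k : ℝ) + 1) ^ n := by positivity
    have e1 : 4 / arctan T * (((k : ℝ) + 2) / (k + 1))
          + N * 8 * (((k : ℝ) + 2) ^ 2 * r₀ ^ k / (k + 1))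
        = (4 * (k + 2) / arctan T + N * (8 * (k + 2) ^ 2 * r₀ ^ k)) / (k + 1) := by
      field_simp
    have e2 : N * 14 * (((k : ℝ) + 2) / (k + 1)) = N * (14 * (k + 2)) / (k + 1) := by
      field_simp
    rw [e1, e2, div_pow _ ((k : ℝ) + 1), div_pow _ ((k : ℝ) + 1)]
    rw [mul_pow _ ((k : ℝ) + 1), ← le_div_iff₀ hk] at h
    refine h.trans (le_of_eq ?_)
    rw [← hN, ← hP]
    ring
  have h2 : ∀ c : ℝ, 0 < c → c < π ^ 2 / 8 → (4 * π) ^ n ≤ n.factorial *
      (((4 / (π / 2)) ^ n * c ^ n + (N * 14) ^ n * ((π ^ 2 / 8) ^ n - c ^ n)) * P) := by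
    intro c hc0 hc
    have a1 : Tendsto arctan atTop (𝓝 (π / 2)) :=
      tendsto_arctan_atTop.mono_right nhdsWithin_le_nhds
    have hlim := ((((((tendsto_const_nhds (x := (4 : ℝ))).div a1 (by positivity)).pow n).mul_const
      (c ^ n)).add_const ((N * 14) ^ n * ((π ^ 2 / 8) ^ n - c ^ n))).mul_const P).const_mul
      (n.factorial : ℝ)
    refine ge_of_tendsto hlim ?_
    filter_upwards [eventually_gt_atTop 0] with T hT
    exact h1 c T hc0 hc hT
  have hlim : Tendsto (fun c : ℝ => n.factorial *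
      (((4 / (π / 2)) ^ n * c ^ n + (N * 14) ^ n * ((π ^ 2 / 8) ^ n - c ^ n)) * P))
      (𝓝[<] (π ^ 2 / 8)) (𝓝 (n.factorial * (((4 / (π / 2)) ^ n * (π ^ 2 / 8) ^ n
        + (N * 14) ^ n * ((π ^ 2 / 8) ^ n - (π ^ 2 / 8) ^ n)) * P))) := by
    apply tendsto_nhdsWithin_of_tendsto_nhds
    exact Continuous.tendsto (f := fun c : ℝ => n.factorial *
      (((4 / (π / 2)) ^ n * c ^ n + (N * 14) ^ n * ((π ^ 2 / 8) ^ n - c ^ n)) * P)) (by fun_prop) _
  have h3 := ge_of_tendsto hlim (by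
    filter_upwards [Ioo_mem_nhdsLT (show (0 : ℝ) < π ^ 2 / 8 by positivity)] with c hc
    exact h2 c hc.1 hc.2)
  have e : 4 / (π / 2) * (π ^ 2 / 8) = π := by
    field_simp
    norm_num
  rw [sub_self, mul_zero, add_zero, ← mul_pow, e, mul_pow] at h3
  have hp : 0 < π ^ n := by positivity
  refine le_of_mul_le_mul_right (h3.trans (le_of_eq ?_)) hp
  ring

end Vale.Agent.P248
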