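import Vale.Agent.P248.Height

/-! The normalised height function of the lens. -/

namespace Vale.Agent.P248

open Set Filter Topology Metric Real MeasureTheory

/-- Height of the lens over the point `t * (π ^ 2 / 8)`. -/
noncomputable def ht (t : ℝ) : ℝ := cl (max 0 (min π (π / 2 * (1 - t))))

theorem continuous_ht : Continuous ht := continuous_cl.comp (by fun_prop)

theorem ht_eq {t : ℝ} (h : |t| ≤ 1) : ht t = cl (π / 2 * (1 - t)) := by
  have h1 := abs_le.1 h
  have := pi_pos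
  rw [ht, min_eq_right (by nlinarith), max_eq_right (by nlinarith)]

theorem ht_nonneg (t : ℝ) : 0 ≤ ht t :=
  cl_nonneg ⟨le_max_left _ _, max_le pi_pos.le (min_le_left _ _)⟩

theorem ht_le (t : ℝ) : ht t ≤ π ^ 2 / 8 := cl_le _

theorem ht_of_one_le {t : ℝ} (h : 1 ≤ |t|) : ht t = 0 := by
  have := pi_pos
  rcases le_abs.1 h with h | h
  · rw [ht, max_eq_left ((min_le_right _ _).trans (by nlinarith)), cl_zero]
  · rw [ht, min_eq_left (by nlinarith), max_eq_right this.le, cl_pi]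

theorem ht_neg (t : ℝ) : ht (-t) = ht t := by
  rcases le_total |t| 1 with h | h
  · rw [ht_eq h, ht_eq (by rwa [abs_neg]), ← cl_symm]
    congr 1
    ring
  · rw [ht_of_one_le h, ht_of_one_le (by rwa [abs_neg])]

theorem ht_abs (t : ℝ) : ht |t| = ht t := by
  rcases abs_choice t with h | h <;> rw [h]
  exact ht_neg t

theorem ht_one : ht 1 = 0 := ht_of_one_le (by simp)

theorem ht_pos {t : ℝ} (h : |t| < 1) : 0 < ht t := by
  have h1 := abs_lt.1 h
  have := pi_pos
  rw [ht_eq h.le]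
  exact cl_pos (by nlinarith) (by nlinarith)

theorem ht_concave {s t a b : ℝ} (hs : |s| ≤ 1) (ht' : |t| ≤ 1) (ha : 0 ≤ a) (hb : 0 ≤ b)
    (hab : a + b = 1) : a * ht s + b * ht t ≤ ht (a * s + b * t) := by
  have h1 := abs_le.1 hs
  have h2 := abs_le.1 ht'
  have := pi_pos
  have h3 : |a * s + b * t| ≤ 1 := by
    rw [abs_le]
    constructor <;> nlinarith
  rw [ht_eq hs, ht_eq ht', ht_eq h3]
  have h := strictConcaveOn_cl.concaveOn.2
    (show π / 2 * (1 - s) ∈ Icc 0 π from ⟨by nlinarith, by nlinarith⟩)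
    (show π / 2 * (1 - t) ∈ Icc 0 π from ⟨by nlinarith, by nlinarith⟩) ha hb hab
  simp only [smul_eq_mul] at h
  convert! h using 2
  have : b = 1 - a := by linarith
  rw [this]
  ring

theorem ht_flat {t ε : ℝ} (h : |t| ≤ 1) (hε : 0 ≤ ε) : |t| + ε * ht t ≤ 1 + 2048 * ε ^ 4 := by
  have hp := pi_gt_three
  have hp4 := pi_lt_four
  have h0 : 0 ≤ π / 2 * (1 - |t|) := by nlinarith
  set τ := √(√(π / 2 * (1 - |t|))) with hτ
  have hτ0 : 0 ≤ τ := sqrt_nonneg _
  have hτ4 : τ ^ 4 = π / 2 * (1 - |t|) := by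
    rw [show τ ^ 4 = (τ ^ 2) ^ 2 by ring, hτ, sq_sqrt (sqrt_nonneg _), sq_sqrt h0]
  have h1 := cl_pow_four_le hτ0 (by rw [hτ4]; nlinarith [abs_nonneg t])
  rw [← ht_abs, ht_eq (by rwa [abs_abs]), ← hτ4]
  have h2 : τ ^ 4 / 2 ≤ 1 - |t| := by rw [hτ4]; nlinarith
  have h3 : ε * cl (τ ^ 4) ≤ ε * (4 * τ ^ 3) := mul_le_mul_of_nonneg_left h1 hε
  rcases le_total τ (8 * ε) with h4 | h4
  · have : τ ^ 3 ≤ (8 * ε) ^ 3 := pow_le_pow_left₀ hτ0 h4 3
    have h5 : ε * (4 * τ ^ 3) ≤ ε * (4 * (8 * ε) ^ 3) := by gcongr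
    nlinarith [pow_nonneg hτ0 4]
  · have h5 : 8 * ε * τ ^ 3 ≤ τ * τ ^ 3 := mul_le_mul_of_nonneg_right h4 (by positivity)
    nlinarith [pow_nonneg hε 4]

theorem tendsto_ht_ratio (s : ℝ) (hs : 0 < s) :
    Tendsto (fun ε : ℝ => ht (1 - ε * s) / ht (1 - ε)) (𝓝[>] 0) (𝓝 s) := by
  have h1 : Tendsto (fun ε : ℝ => π / 2 * ε) (𝓝[>] 0) (𝓝[>] 0) := by
    apply tendsto_nhdsWithin_of_tendsto_nhds_of_eventually_within
    · apply tendsto_nhdsWithin_of_tendsto_nhds
      have : Continuous fun ε : ℝ => π / 2 * ε := by fun_prop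
      simpa using this.tendsto 0
    · filter_upwards [self_mem_nhdsWithin] with ε hε
      have : 0 < ε := hε
      exact mul_pos (by positivity) this
  refine ((tendsto_cl_ratio s hs).comp h1).congr' ?_
  filter_upwards [Ioo_mem_nhdsGT (zero_lt_one' ℝ), Ioo_mem_nhdsGT (show 0 < 1 / s by positivity)]
    with ε h1 h2
  have h3 : ε * s < 1 := by
    have := h2.2
    rwa [lt_div_iff₀ hs] at this
  have h4 : 0 < ε * s := mul_pos h1.1 hs
  rw [ht_eq (abs_le.2 ⟨by linarith, by linarith⟩),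
    ht_eq (abs_le.2 ⟨by linarith [h1.2], by linarith [h1.1]⟩), Function.comp_apply]
  congr 2 <;> ring

theorem ht_boundary {z : ℂ} (hz : ‖z‖ = 1) :
    ht ((lensMap z).re / (π ^ 2 / 8)) = |(lensMap z).im| := by
  have key : ∀ z : ℂ, ‖z‖ = 1 → 0 ≤ z.im →
      ht ((lensMap z).re / (π ^ 2 / 8)) = |(lensMap z).im| := by
    intro z hz h
    have h1 : z = Complex.exp (z.arg * Complex.I) := by
      have := Complex.norm_mul_exp_arg_mul_I z
      rw [hz] at this
      simpa using this.symm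
    have h2 : z.arg ∈ Icc 0 π := ⟨Complex.arg_nonneg_iff.2 h, Complex.arg_le_pi z⟩
    have h3 : lensMap z = bdry z.arg := by rw [bdry, ← h1]
    have hp := pi_pos
    have h4 : π / 2 * (1 - (π ^ 2 / 8 - π / 4 * z.arg) / (π ^ 2 / 8)) = z.arg := by
      field_simp
      ring
    rw [h3, re_bdry h2, ht, h4, min_eq_right h2.2, max_eq_right h2.1]
    exact (abs_of_nonneg (cl_nonneg h2)).symm
  rcases le_total 0 z.im with h | h
  · exact key z hz h
  · have := key (starRingEnd ℂ z) (by simpa using hz) (by simpa using h)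
    rw [lensMap_conj] at this
    simpa using this

theorem abs_im_le_ht {u v : ℝ} (hw : pt u v ∈ lens) : |v| ≤ ht (u / (π ^ 2 / 8)) := by
  have h1 : pt u |v| ∈ lens := (vertical_abs hw (by rw [abs_abs])).1
  let S : Set ℝ := {s | pt u s ∈ lensMap '' closedBall 0 1}
  have hcl : IsClosed S := (isCompact_image le_rfl).isClosed.preimage (continuous_pt u)
  have hsub : lens ⊆ lensMap '' closedBall 0 1 := image_mono ball_subset_closedBall
  have hbdd : BddAbove S := by
    refine ⟨π ^ 2 / 8, ?_⟩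
    rintro s ⟨z, hz, h⟩
    have a1 := (Complex.abs_im_le_norm _).trans (norm_lensMap_le (z := z) (by simpa using hz))
    rw [h, pt_im] at a1
    exact (le_abs_self _).trans a1
  have hmem := hcl.csSup_mem ⟨|v|, hsub h1⟩ hbdd
  have hle : |v| ≤ sSup S := le_csSup hbdd (hsub h1)
  obtain ⟨z, hz, h⟩ := hmem
  have hz' : ‖z‖ ≤ 1 := by simpa using hz
  rcases hz'.eq_or_lt with h2 | h2
  · have := ht_boundary h2
    rw [h, pt_re, pt_im] at this
    rw [this]
    exact hle.trans (le_abs_self _)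
  · exfalso
    have a1 : pt u (sSup S) ∈ lens := h ▸ lensMap_mem h2
    have a2 : ∀ᶠ s in 𝓝[>] (sSup S), pt u s ∈ lens :=
      ((continuous_pt u).continuousAt.eventually (isOpen_lens.mem_nhds a1)).filter_mono
        nhdsWithin_le_nhds
    obtain ⟨s, hs1, hs2⟩ := (a2.and self_mem_nhdsWithin).exists
    exact absurd (le_csSup hbdd (show s ∈ S from hsub hs1)) (not_le.2 hs2)

theorem exists_gap_radius {γ : ℝ} (hγ : 0 < γ) :
    ∃ r : ℝ, 0 ≤ r ∧ r < 1 ∧ ∀ u v : ℝ, pt u v ∈ lens →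
      γ ≤ ht (u / (π ^ 2 / 8)) - |v| → ‖lensInv (pt u v)‖ ≤ r := by
  let A : Set ℂ := closedBall 0 1 ∩
    (fun z => ht ((lensMap z).re / (π ^ 2 / 8)) - |(lensMap z).im|) ⁻¹' Ici γ
  have hA : IsCompact A := by
    apply (isCompact_closedBall (0 : ℂ) 1).of_isClosed_subset _ inter_subset_left
    apply ContinuousOn.preimage_isClosed_of_isClosed _ isClosed_closedBall isClosed_Ici
    exact (continuous_ht.comp_continuousOn
      ((Complex.continuous_re.comp_continuousOn continuousOn_lensMap).div_const _)).sub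
      (Complex.continuous_im.comp_continuousOn continuousOn_lensMap).abs
  have hmem : ∀ u v : ℝ, pt u v ∈ lens → γ ≤ ht (u / (π ^ 2 / 8)) - |v| →
      lensInv (pt u v) ∈ A := by
    intro u v hw h
    refine ⟨by simpa using (norm_lensInv hw).le, ?_⟩
    simpa [lensMap_lensInv hw] using h
  rcases A.eq_empty_or_nonempty with h | h
  · exact ⟨0, le_rfl, one_pos, fun u v hw h1 => absurd (hmem u v hw h1) (by simp [h])⟩
  · obtain ⟨z₀, hz₀, hmax⟩ := hA.exists_isMaxOn h continuous_norm.continuousOn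
    refine ⟨‖z₀‖, norm_nonneg _, ?_, fun u v hw h1 => hmax (hmem u v hw h1)⟩
    have h1 : ‖z₀‖ ≤ 1 := by simpa using hz₀.1
    rcases h1.eq_or_lt with h2 | h2
    · have h3 : γ ≤ ht ((lensMap z₀).re / (π ^ 2 / 8)) - |(lensMap z₀).im| := hz₀.2
      rw [ht_boundary h2] at h3
      linarith
    · exact h2

end Vale.Agent.P248
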