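import Vale.Agent.P248.Finite
import Vale.Agent.P248.Ht

/-! A refined volume product inequality, with an avoided region. -/

namespace Vale.Agent.P248

open Set Filter Topology Metric MeasureTheory Matrix Real Pointwise

section
variable {n : ℕ} {ι : Type*} [Fintype ι]

theorem slice_mass_le' {η : ι → Fin n → ℝ} (hη : ∀ v, (∀ i, η i ⬝ᵥ v = 0) → v = 0) (e : ι → ℕ)
    {B : Set (Fin n → ℝ)} (σ : ℝ) (x : Fin n → ℝ) {R : ℝ} (hR : 0 < R)
    (h : ∀ y, (x, y) ∈ sub η (fun i => lensPow (e i)) lens σ → slice η e x y ∈ R • B) :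
    ∫⁻ y, (sub η (fun i => lensPow (e i)) lens σ).indicator
      (fun z => ENNReal.ofReal (mat η (fun i => lensPow (e i)) z).det) (x, y)
      ≤ ENNReal.ofReal (R ^ n) * volume B := by
  let Y : Set (Fin n → ℝ) := {y | (x, y) ∈ sub η (fun i => lensPow (e i)) lens σ}
  have hY : MeasurableSet Y :=
    ((isOpen_sub isOpen_lens (fun i => differentiableOn_lensPow (e i)) σ).preimage
      (Continuous.prodMk_right x)).measurableSet
  have h1 := lintegral_abs_det_fderiv_le_addHaar_image (volume : Measure (Fin n → ℝ)) hY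
    (fun y hy => (hasFDerivAt_slice η e hy.1).hasFDerivWithinAt)
    ((injOn_slice hη e x).mono fun y hy => hy.1)
  have h2 : slice η e x '' Y ⊆ R • B := by
    rintro _ ⟨y, hy, rfl⟩
    exact h y hy
  have h3 := (h1.trans (measure_mono h2)).trans_eq (Measure.addHaar_smul_of_nonneg _ hR.le B)
  rw [Module.finrank_fin_fun, ← lintegral_indicator hY] at h3
  refine le_trans (le_of_eq ?_) h3
  congr 1
  funext y
  by_cases hy : y ∈ Y
  · rw [indicator_of_mem hy, indicator_of_mem (show (x, y) ∈ _ from hy),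
      LinearMap.det_toContinuousLinearMap, LinearMap.det_toLin',
      abs_of_nonneg (det_mat_nonneg _)]
  · rw [indicator_of_notMem hy, indicator_of_notMem (show (x, y) ∉ _ from hy)]

theorem mass_add_le {η : ι → Fin n → ℝ} (hη : ∀ v, (∀ i, η i ⬝ᵥ v = 0) → v = 0) (e : ι → ℕ)
    {B : Set (Fin n → ℝ)} (hB : ∀ c : ι → ℝ, ∑ i, |c i| ≤ 1 → comb η c ∈ B) (σ : ℝ)
    (hA : volume (slab η 1) ≠ ⊤) {c R₁ R₂ : ℝ} (hc0 : 0 < c) (hc : c ≤ π ^ 2 / 8)
    (hR₁ : 0 < R₁) (hR₂ : 0 < R₂)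
    (h₁ : ∀ x ∈ slab η c, ∀ y, (x, y) ∈ sub η (fun i => lensPow (e i)) lens σ →
      ∑ i, |xi (e i) (η i ⬝ᵥ x) (η i ⬝ᵥ y)| ≤ R₁)
    (h₂ : ∀ x y, (x, y) ∈ sub η (fun i => lensPow (e i)) lens σ →
      ∑ i, |xi (e i) (η i ⬝ᵥ x) (η i ⬝ᵥ y)| ≤ R₂)
    {U U' : Set (Fin n → ℝ)} (hU : MeasurableSet U) (hUc : U ⊆ slab η c)
    (hU' : MeasurableSet U') (hU'B : U' ⊆ B)
    (h₃ : ∀ x ∈ U, ∀ y, (x, y) ∈ sub η (fun i => lensPow (e i)) lens σ →
      slice η e x y ∈ R₁ • (B \ U')) :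
    mass η (fun i => lensPow (e i)) lens σ + ENNReal.ofReal (R₁ ^ n) * volume U' * volume U
      ≤ ENNReal.ofReal
      (R₁ ^ n * c ^ n + R₂ ^ n * ((π ^ 2 / 8) ^ n - c ^ n)) * (volume (slab η 1) * volume B) := by
  have hΦ : ∀ i, DifferentiableOn ℂ (lensPow (e i)) lens := fun i => differentiableOn_lensPow _
  rw [mass, ← lintegral_indicator (isOpen_sub isOpen_lens hΦ σ).measurableSet,
    Measure.volume_eq_prod, lintegral_prod _ (measurable_density isOpen_lens hΦ σ).aemeasurable,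
    ← lintegral_indicator_const hU, ← lintegral_add_right _ (measurable_const.indicator hU)]
  have m1 := (isClosed_slab η c).measurableSet
  have m2 := (isClosed_slab η (π ^ 2 / 8)).measurableSet
  have key : ∀ x, (∫⁻ y, (sub η (fun i => lensPow (e i)) lens σ).indicator
      (fun z => ENNReal.ofReal (mat η (fun i => lensPow (e i)) z).det) (x, y))
      + U.indicator (fun _ => ENNReal.ofReal (R₁ ^ n) * volume U') x
      ≤ (slab η c).indicator (fun _ => ENNReal.ofReal (R₁ ^ n) * volume B) x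
        + (slab η (π ^ 2 / 8) \ slab η c).indicator
          (fun _ => ENNReal.ofReal (R₂ ^ n) * volume B) x := by
    intro x
    by_cases hx0 : x ∈ U
    · rw [indicator_of_mem hx0, indicator_of_mem (hUc hx0)]
      refine le_trans ?_ le_self_add
      refine (add_le_add (slice_mass_le' hη e σ x hR₁ (h₃ x hx0)) le_rfl).trans (le_of_eq ?_)
      rw [← mul_add, ← measure_sdiff_add_inter B hU', inter_eq_right.2 hU'B]
    rw [indicator_of_notMem hx0, add_zero]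
    by_cases hx1 : x ∈ slab η c
    · rw [indicator_of_mem hx1]
      exact (slice_mass_le hη e hB σ x hR₁ (h₁ x hx1)).trans le_self_add
    · by_cases hx2 : x ∈ slab η (π ^ 2 / 8)
      · rw [indicator_of_mem (show x ∈ slab η (π ^ 2 / 8) \ slab η c from ⟨hx2, hx1⟩)]
        exact (slice_mass_le hη e hB σ x hR₂ (h₂ x)).trans le_add_self
      · have : ∀ y, (x, y) ∉ sub η (fun i => lensPow (e i)) lens σ := by
          intro y hy
          apply hx2
          intro i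
          simpa [lin] using abs_re_le (hy.1 i)
        simp [indicator_of_notMem (this _)]
  refine (lintegral_mono key).trans ?_
  have hb : (0 : ℝ) < π ^ 2 / 8 := by positivity
  have hsub : slab η c ⊆ slab η (π ^ 2 / 8) := fun x hx i => (hx i).trans hc
  have hle : c ^ n ≤ (π ^ 2 / 8) ^ n := by gcongr
  rw [lintegral_add_left (measurable_const.indicator m1), lintegral_indicator_const m1,
    lintegral_indicator_const (m2.diff m1), measure_sdiff hsub m1.nullMeasurableSet (by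
      rw [volume_slab η hc0]; exact ENNReal.mul_ne_top ENNReal.ofReal_ne_top hA),
    volume_slab η hc0, volume_slab η hb, ← ENNReal.sub_mul (fun _ _ => hA),
    ← ENNReal.ofReal_sub _ (by positivity),
    ENNReal.ofReal_add (by positivity) (mul_nonneg (by positivity) (by linarith)),
    ENNReal.ofReal_mul (by positivity), ENNReal.ofReal_mul (by positivity)]
  apply le_of_eq
  ring

end

variable {n : ℕ} {κ : Type*} [Fintype κ]

theorem xi_mul_nonneg (k : ℕ) {u v : ℝ} (h : pt u v ∈ lens) : 0 ≤ xi k u v * v := by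
  rcases le_total 0 v with h0 | h0
  · exact mul_nonneg (xi_nonneg k u h0) h0
  · have h1 := xi_nonneg k u (v := -v) (by linarith)
    rw [xi_neg k h] at h1
    exact mul_nonneg_of_nonpos_of_nonpos (by linarith) h0

/-- The avoidance property of a pair of regions. -/
def Avoids {ι : Type*} [Fintype ι] (η : ι → Fin n → ℝ) (U U' : Set (Fin n → ℝ)) (γ : ℝ) : Prop :=
  ∀ x ∈ U, ∀ y : Fin n → ℝ, (∀ i, |η i ⬝ᵥ y| ≤ ht (η i ⬝ᵥ x)) → ∀ l : ι → ℝ, ∑ i, |l i| ≤ 1 →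
    (∀ i, 0 ≤ l i * (η i ⬝ᵥ y)) → ∑ i, |l i| * (ht (η i ⬝ᵥ x) - |η i ⬝ᵥ y|) ≤ γ → comb η l ∉ U'

theorem gap_sum {ι : Type*} [Fintype ι] (ξ g : ι → ℝ) {γ b E R : ℝ}
    (h : ∀ i, g i ≤ γ / 2 ∨ |ξ i| ≤ E) (hg : ∀ i, g i ≤ b) (hE0 : 0 ≤ E) (hb : 0 ≤ b)
    (hγ : 0 < γ) (hR0 : 0 < R) (hR : ∑ i, |ξ i| ≤ R)
    (hE : b * Fintype.card ι * E ≤ γ / 2 * R) : ∑ i, |ξ i / R| * g i ≤ γ := by
  have t1 : ∀ i, |ξ i| * g i ≤ γ / 2 * |ξ i| + b * E := by
    intro i
    have p0 := abs_nonneg (ξ i)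
    rcases h i with h1 | h1
    · nlinarith [mul_le_mul_of_nonneg_left h1 p0, mul_nonneg hb hE0]
    · nlinarith [mul_le_mul_of_nonneg_left (hg i) p0, mul_le_mul_of_nonneg_left h1 hb,
        mul_nonneg hγ.le p0]
  have t2 := Finset.sum_le_sum fun i (_ : i ∈ Finset.univ) => t1 i
  rw [Finset.sum_add_distrib, ← Finset.mul_sum, Finset.sum_const, Finset.card_univ,
    nsmul_eq_mul] at t2
  simp only [abs_div, abs_of_pos hR0, div_mul_eq_mul_div]
  rw [← Finset.sum_div, div_le_iff₀ hR0]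
  have t3 := mul_le_mul_of_nonneg_left hR (show 0 ≤ γ / 2 by positivity)
  nlinarith

theorem slice_avoid {ι : Type*} [Fintype ι] {η : ι → Fin n → ℝ} (e : ι → ℕ)
    {B U U' : Set (Fin n → ℝ)} (hB : ∀ c : ι → ℝ, ∑ i, |c i| ≤ 1 → comb η c ∈ B) {γ r : ℝ}
    (hγ : 0 < γ) (hav : Avoids η U U' γ)
    (hr4 : ∀ u v : ℝ, pt u v ∈ lens →
      γ / 2 ≤ ht (u / (π ^ 2 / 8)) - |v| → ‖lensInv (pt u v)‖ ≤ r)
    {x y : Fin n → ℝ} (hx : x ∈ U) (hy : ((π ^ 2 / 8) • x, y) ∈ dom η lens) {E R : ℝ}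
    (hE0 : 0 ≤ E) (hR0 : 0 < R)
    (hR : ∑ i, |xi (e i) (η i ⬝ᵥ ((π ^ 2 / 8) • x)) (η i ⬝ᵥ y)| ≤ R)
    (hE1 : ∀ i, ‖lensInv (lin (η i) ((π ^ 2 / 8) • x, y))‖ ≤ r →
      |xi (e i) (η i ⬝ᵥ ((π ^ 2 / 8) • x)) (η i ⬝ᵥ y)| ≤ E)
    (hE : π ^ 2 / 8 * Fintype.card ι * E ≤ γ / 2 * R) :
    slice η e ((π ^ 2 / 8) • x) y ∈ R • (B \ U') := by
  have e0 : ∀ i, η i ⬝ᵥ ((π ^ 2 / 8) • x) / (π ^ 2 / 8) = η i ⬝ᵥ x := by
    intro i
    rw [dotProduct_smul, smul_eq_mul]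
    field_simp
  have s1 : ∑ i, |xi (e i) (η i ⬝ᵥ ((π ^ 2 / 8) • x)) (η i ⬝ᵥ y) / R| ≤ 1 := by
    simp only [abs_div, abs_of_pos hR0]
    rwa [← Finset.sum_div, div_le_one hR0]
  refine ⟨comb η fun i => xi (e i) (η i ⬝ᵥ ((π ^ 2 / 8) • x)) (η i ⬝ᵥ y) / R,
    ⟨hB _ s1, hav x hx y (fun i => ?_) _ s1 (fun i => ?_) ?_⟩, ?_⟩
  · rw [← e0]
    exact abs_im_le_ht (hy i)
  · rw [div_mul_eq_mul_div]
    exact div_nonneg (xi_mul_nonneg _ (hy i)) hR0.le
  · refine gap_sum _ _ (fun i => ?_) (fun i => ?_) hE0 (by positivity) hγ hR0 hR hE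
    · rcases le_total (ht (η i ⬝ᵥ x) - |η i ⬝ᵥ y|) (γ / 2) with hg | hg
      · exact Or.inl hg
      · exact Or.inr (hE1 i (hr4 _ _ (hy i) (by rwa [e0])))
    · linarith [ht_le (η i ⬝ᵥ x), abs_nonneg (η i ⬝ᵥ y)]
  · funext j
    simp only [slice, comb, Pi.smul_apply, smul_eq_mul, Finset.mul_sum]
    refine Finset.sum_congr rfl fun i _ => ?_
    field_simp

theorem step_bound' (hn : 0 < n) {ε : ℝ} (hε : 0 < ε) (ζ : κ → Fin n → ℝ)
    {B : Set (Fin n → ℝ)} (hB : ∀ c : Fin n ⊕ κ → ℝ, ∑ i, |c i| ≤ 1 → comb (fam ε ζ) c ∈ B)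
    (hBtop : volume B ≠ ⊤) {c T r₀ : ℝ} (hc0 : 0 < c) (hc : c < π ^ 2 / 8) (hT : 0 < T)
    (hr0 : 0 ≤ r₀) (hr1 : r₀ < 1)
    (hr : ∀ (k : ℕ) (u v : ℝ), pt u v ∈ lens → |u| ≤ c →
      |xi k u v| ≤ 4 * (k + 1) / arctan T * Complex.normSq (lensPow k (pt u v))
        + 8 * (k + 1) ^ 2 * r₀ ^ k)
    {U U' : Set (Fin n → ℝ)} (hU : MeasurableSet U) {c₀ : ℝ} (hUc : U ⊆ slab (fam ε ζ) c₀)
    (hc₀ : π ^ 2 / 8 * c₀ ≤ c) (hc₀1 : c₀ ≤ 1)
    (hU' : MeasurableSet U') (hU'B : U' ⊆ B) {γ r : ℝ} (hγ : 0 < γ)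
    (hav : Avoids (fam ε ζ) U U' γ) (hr2 : 0 ≤ r) (hr3 : r < 1)
    (hr4 : ∀ u v : ℝ, pt u v ∈ lens →
      γ / 2 ≤ ht (u / (π ^ 2 / 8)) - |v| → ‖lensInv (pt u v)‖ ≤ r) (k : ℕ)
    (hk : π ^ 2 / 8 * Fintype.card (Fin n ⊕ κ) *
      (4 * (k + 2) / arctan T * (r ^ 2) ^ (k + 1) + 8 * (k + 2) ^ 2 * r₀ ^ k)
        ≤ γ / 2 * (4 * (k + 2) / arctan T)) :
    (4 * π * (k + 1)) ^ n + n.factorial * ((4 * (k + 2) / arctan T) ^ n * (π ^ 2 / 8) ^ n
      * ((volume U).toReal * (volume U').toReal)) ≤ n.factorial *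
      (((4 * (k + 2) / arctan T + Fintype.card (Fin n ⊕ κ) * (8 * (k + 2) ^ 2 * r₀ ^ k)) ^ n * c ^ n
        + (Fintype.card (Fin n ⊕ κ) * (14 * (k + 2))) ^ n * ((π ^ 2 / 8) ^ n - c ^ n))
        * (volume (slab (fam ε ζ) 1) * volume B).toReal) := by
  have : Nonempty (Fin n ⊕ κ) := ⟨Sum.inl ⟨0, hn⟩⟩
  have hN : (0 : ℝ) < Fintype.card (Fin n ⊕ κ) := by exact_mod_cast Fintype.card_pos
  have hat := arctan_pos.2 hT
  have hb : (0 : ℝ) < π ^ 2 / 8 := by positivity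
  set R₁ : ℝ := 4 * (k + 2) / arctan T + Fintype.card (Fin n ⊕ κ) * (8 * (k + 2) ^ 2 * r₀ ^ k)
    with hR₁
  have hR₁0 : 0 < R₁ := by positivity
  have hR₁le : 4 * (k + 2) / arctan T ≤ R₁ := le_add_of_nonneg_right (by positivity)
  set X : ℝ := (R₁ ^ n * c ^ n
        + (Fintype.card (Fin n ⊕ κ) * (14 * (k + 2))) ^ n * ((π ^ 2 / 8) ^ n - c ^ n)) with hX
  have hle : c ^ n ≤ (π ^ 2 / 8) ^ n := by gcongr
  have hX0 : 0 ≤ X := add_nonneg (by positivity) (mul_nonneg (by positivity) (by linarith))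
  set P := volume (slab (fam ε ζ) 1) * volume B with hP
  have hPtop : P ≠ ⊤ := ENNReal.mul_ne_top (volume_slab_ne_top hε ζ) hBtop
  have hUtop : volume U ≠ ⊤ := ne_top_of_le_ne_top (volume_slab_ne_top hε ζ)
    (measure_mono (hUc.trans fun x hx i => (hx i).trans hc₀1))
  have hU'top : volume U' ≠ ⊤ := ne_top_of_le_ne_top hBtop (measure_mono hU'B)
  set Y : ℝ := (4 * (k + 2) / arctan T) ^ n * (π ^ 2 / 8) ^ n
      * ((volume U).toReal * (volume U').toReal) with hY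
  have hΦ : ∀ i, DifferentiableOn ℂ (pows n κ k i) lens := fun i => differentiableOn_lensPow _
  have b1 : ∀ i, ((ex n κ k i : ℕ) : ℝ) + 1 ≤ k + 2 := by
    intro i
    have := ex_le k i
    have : ((ex n κ k i : ℕ) : ℝ) ≤ (k + 1 : ℕ) := by exact_mod_cast this
    push_cast at this
    linarith
  have key : ∀ σ : ℝ, 0 < σ → σ < 1 →
      (4 * π * (k + 1)) ^ n ≤ n.factorial * ((σ ^ n)⁻¹ * (X * P.toReal - Y)) := by
    intro σ hσ0 hσ1
    obtain ⟨C, hC, hCΩ, hσ⟩ := exists_compact hε ζ k hσ1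
    have h1 := lower_bound hε ζ k hσ0 fun δ h0 h2 => mass_mono hn isOpen_lens hΦ hC hCΩ hσ h0 h2
    have a1 : ∀ x ∈ slab (fam ε ζ) c, ∀ y, (x, y) ∈ sub (fam ε ζ) (pows n κ k) lens σ → ∀ i,
        |xi (ex n κ k i) (fam ε ζ i ⬝ᵥ x) (fam ε ζ i ⬝ᵥ y)|
          ≤ 4 * (k + 2) / arctan T * Complex.normSq (pows n κ k i (lin (fam ε ζ i) (x, y)))
            + 8 * (k + 2) ^ 2 * r₀ ^ k := by
      intro x hx y hy i
      refine (hr _ _ _ (hy.1 i) (hx i)).trans ?_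
      have b1 := b1 i
      have b2 : r₀ ^ ex n κ k i ≤ r₀ ^ k := pow_le_pow_of_le_one hr0 hr1.le (le_ex k i)
      have b3 := Complex.normSq_nonneg (pows n κ k i (lin (fam ε ζ i) (x, y)))
      apply add_le_add
      · exact mul_le_mul_of_nonneg_right (by gcongr) b3
      · gcongr
    have a2 : ∀ x ∈ slab (fam ε ζ) c, ∀ y, (x, y) ∈ sub (fam ε ζ) (pows n κ k) lens σ →
        ∑ i, |xi (ex n κ k i) (fam ε ζ i ⬝ᵥ x) (fam ε ζ i ⬝ᵥ y)| ≤ R₁ := by
      intro x hx y hy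
      refine (Finset.sum_le_sum fun i _ => a1 x hx y hy i).trans ?_
      rw [Finset.sum_add_distrib, ← Finset.mul_sum, Finset.sum_const, Finset.card_univ,
        nsmul_eq_mul]
      have a2 : rho (fam ε ζ) (pows n κ k) (x, y) < σ := hy.2
      have a3 : 4 * (k + 2) / arctan T * rho (fam ε ζ) (pows n κ k) (x, y)
          ≤ 4 * (k + 2) / arctan T := mul_le_of_le_one_right (by positivity) (by linarith)
      exact add_le_add a3 le_rfl
    have hUc' : (π ^ 2 / 8) • U ⊆ slab (fam ε ζ) c := by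
      rintro _ ⟨x, hx, rfl⟩ i
      simp only [dotProduct_smul, smul_eq_mul, abs_mul, abs_of_pos hb]
      exact (mul_le_mul_of_nonneg_left (hUc hx i) hb.le).trans hc₀
    have h2 := mass_add_le (fam_inj hε ζ) (ex n κ k) hB σ (volume_slab_ne_top hε ζ) hc0 hc.le
      hR₁0 (R₂ := Fintype.card (Fin n ⊕ κ) * (14 * (k + 2))) (by positivity) a2
      (fun x y hy => by
        have a1 : ∀ i, |xi (ex n κ k i) (fam ε ζ i ⬝ᵥ x) (fam ε ζ i ⬝ᵥ y)| ≤ 14 * (k + 2) := by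
          intro i
          refine (abs_xi_le_uniform _ (hy.1 i)).trans ?_
          have b1 := b1 i
          gcongr
        refine (Finset.sum_le_sum fun i _ => a1 i).trans ?_
        rw [Finset.sum_const, Finset.card_univ, nsmul_eq_mul])
      (hU.const_smul₀ (π ^ 2 / 8)) hUc' hU' hU'B (by
        rintro _ ⟨x, hx, rfl⟩ y hy
        have hx' := hUc' ⟨x, hx, rfl⟩
        refine slice_avoid _ hB hγ hav hr4 hx hy.1 (E := 4 * (k + 2) / arctan T * (r ^ 2) ^ (k + 1)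
          + 8 * (k + 2) ^ 2 * r₀ ^ k) (by positivity) hR₁0 (a2 _ hx' y hy) (fun i p1 => ?_)
          (hk.trans (mul_le_mul_of_nonneg_left hR₁le (by positivity)))
        have p3 : Complex.normSq (pows n κ k i (lin (fam ε ζ i) ((π ^ 2 / 8) • x, y)))
            ≤ (r ^ 2) ^ (k + 1) := by
          rw [pows, normSq_lensPow, Complex.normSq_eq_norm_sq]
          calc _ ≤ (r ^ 2) ^ (ex n κ k i + 1) := by
                apply pow_le_pow_left₀ (by positivity)
                exact pow_le_pow_left₀ (norm_nonneg _) p1 2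
            _ ≤ _ := pow_le_pow_of_le_one (by positivity) (pow_le_one₀ hr2 hr3.le)
                (by have := le_ex k i; omega)
        exact (a1 _ hx' y hy i).trans (add_le_add (mul_le_mul_of_nonneg_left p3 (by positivity))
          le_rfl))
    have h3 : ENNReal.ofReal Y ≤ ENNReal.ofReal (R₁ ^ n) * volume U' * volume ((π ^ 2 / 8) • U) := by
      rw [Measure.addHaar_smul_of_nonneg _ hb.le, Module.finrank_fin_fun,
        ← ENNReal.ofReal_toReal hUtop, ← ENNReal.ofReal_toReal hU'top,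
        ← ENNReal.ofReal_mul (by positivity), ← ENNReal.ofReal_mul (by positivity),
        ← ENNReal.ofReal_mul (by positivity)]
      apply ENNReal.ofReal_le_ofReal
      have : (4 * (k + 2) / arctan T) ^ n ≤ R₁ ^ n := by gcongr
      calc Y ≤ R₁ ^ n * (π ^ 2 / 8) ^ n * ((volume U).toReal * (volume U').toReal) := by
            rw [hY]; gcongr
        _ = _ := by ring
    have h4 : mass (fam ε ζ) (pows n κ k) lens σ + ENNReal.ofReal Y
        ≤ ENNReal.ofReal (X * P.toReal) := by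
      rw [ENNReal.ofReal_mul hX0, ENNReal.ofReal_toReal hPtop]
      exact (add_le_add le_rfl h3).trans h2
    have hY0 : 0 ≤ Y := by positivity
    have h5 : Y ≤ X * P.toReal :=
      (ENNReal.ofReal_le_ofReal_iff (by positivity)).1 (le_add_self.trans h4)
    have h6 : mass (fam ε ζ) (pows n κ k) lens σ ≤ ENNReal.ofReal (X * P.toReal - Y) := by
      rw [ENNReal.ofReal_sub _ hY0]
      exact ENNReal.le_sub_of_add_le_right ENNReal.ofReal_ne_top h4
    have h7 := h1.trans (mul_le_mul_right (mul_le_mul_right h6 _) _)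
    have h8 : 0 ≤ X * P.toReal - Y := by linarith
    rw [← ENNReal.ofReal_mul (by positivity), ← ENNReal.ofReal_natCast,
      ← ENNReal.ofReal_mul (by positivity), ENNReal.ofReal_le_ofReal_iff (by positivity)] at h7
    exact h7
  have hlim : Tendsto (fun σ : ℝ => n.factorial * ((σ ^ n)⁻¹ * (X * P.toReal - Y))) (𝓝[<] 1)
      (𝓝 (n.factorial * (((1 : ℝ) ^ n)⁻¹ * (X * P.toReal - Y)))) := by
    apply tendsto_nhdsWithin_of_tendsto_nhds
    exact ((((continuous_pow n).tendsto 1).inv₀ (by simp)).mul_const _).const_mul _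
  rw [one_pow, inv_one, one_mul] at hlim
  have := ge_of_tendsto hlim (by
    filter_upwards [Ioo_mem_nhdsLT (zero_lt_one' ℝ)] with σ hσ
    exact key σ hσ.1 hσ.2)
  linarith

theorem finite_mahler' (hn : 0 < n) {ε : ℝ} (hε : 0 < ε) (ζ : κ → Fin n → ℝ)
    {B : Set (Fin n → ℝ)} (hB : ∀ c : Fin n ⊕ κ → ℝ, ∑ i, |c i| ≤ 1 → comb (fam ε ζ) c ∈ B)
    (hBtop : volume B ≠ ⊤)
    {U U' : Set (Fin n → ℝ)} (hU : MeasurableSet U) {c₀ : ℝ} (hUc : U ⊆ slab (fam ε ζ) c₀)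
    (hc₀0 : 0 < c₀) (hc₀1 : c₀ < 1) (hU' : MeasurableSet U') (hU'B : U' ⊆ B) {γ : ℝ} (hγ : 0 < γ)
    (hav : Avoids (fam ε ζ) U U' γ) :
    (4 : ℝ) ^ n + n.factorial * ((volume U).toReal * (volume U').toReal)
      ≤ n.factorial * (volume (slab (fam ε ζ) 1) * volume B).toReal := by
  set P := (volume (slab (fam ε ζ) 1) * volume B).toReal with hP
  set Y := (volume U).toReal * (volume U').toReal with hY
  set N : ℝ := (Fintype.card (Fin n ⊕ κ) : ℝ) with hN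
  obtain ⟨r, hr2, hr3, hr4⟩ := exists_gap_radius (half_pos hγ)
  have hb : (0 : ℝ) < π ^ 2 / 8 := by positivity
  have h1 : ∀ c T : ℝ, π ^ 2 / 8 * c₀ < c → c < π ^ 2 / 8 → 0 < T →
      (4 * π) ^ n + n.factorial * ((4 / arctan T) ^ n * (π ^ 2 / 8) ^ n * Y) ≤ n.factorial *
      (((4 / arctan T) ^ n * c ^ n + (N * 14) ^ n * ((π ^ 2 / 8) ^ n - c ^ n)) * P) := by
    intro c T hc0' hc hT
    have hc0 : 0 < c := lt_trans (by positivity) hc0'
    have hat := arctan_pos.2 hT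
    obtain ⟨r₀, hr0, hr1, hr⟩ := abs_xi_le_sharp hc0.le hc hT
    have hlim : Tendsto (fun k : ℕ => n.factorial *
        (((4 / arctan T * (((k : ℝ) + 2) / (k + 1))
          + N * 8 * (((k : ℝ) + 2) ^ 2 * r₀ ^ k / (k + 1))) ^ n * c ^ n
        + (N * 14 * (((k : ℝ) + 2) / (k + 1))) ^ n * ((π ^ 2 / 8) ^ n - c ^ n)) * P)) atTop
        (𝓝 (n.factorial * (((4 / arctan T * 1 + N * 8 * 0) ^ n * c ^ n
          + (N * 14 * 1) ^ n * ((π ^ 2 / 8) ^ n - c ^ n)) * P))) :=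
      ((((((tendsto_ratio.const_mul _).add ((tendsto_err hr0 hr1).const_mul _)).pow n).mul_const
        _).add (((tendsto_ratio.const_mul _).pow n).mul_const _)).mul_const _).const_mul _
    have hlim' : Tendsto (fun k : ℕ => (4 * π) ^ n + n.factorial *
        ((4 / arctan T * (((k : ℝ) + 2) / (k + 1))) ^ n * (π ^ 2 / 8) ^ n * Y)) atTop
        (𝓝 ((4 * π) ^ n + n.factorial * ((4 / arctan T * 1) ^ n * (π ^ 2 / 8) ^ n * Y))) :=
      (((((tendsto_ratio.const_mul _).pow n).mul_const _).mul_const _).const_mul _).const_add _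
    simp only [mul_one, mul_zero, add_zero] at hlim hlim'
    have hk1 : Tendsto (fun k : ℕ => π ^ 2 / 8 * N *
        (4 / arctan T * ((((k : ℝ) + 2) / (k + 1)) * (r ^ 2) ^ (k + 1))
          + 8 * (((k : ℝ) + 2) ^ 2 * r₀ ^ k / (k + 1)))
        - γ / 2 * (4 / arctan T * (((k : ℝ) + 2) / (k + 1)))) atTop
        (𝓝 (π ^ 2 / 8 * N * (4 / arctan T * (1 * 0) + 8 * 0) - γ / 2 * (4 / arctan T * 1))) :=
      ((((tendsto_ratio.mul ((tendsto_pow_atTop_nhds_zero_of_lt_one (r := r ^ 2) (by positivity)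
        (by nlinarith)).comp (tendsto_add_atTop_nat 1))).const_mul _).add
        ((tendsto_err hr0 hr1).const_mul _)).const_mul _).sub
        ((tendsto_ratio.const_mul _).const_mul _)
    have hk2 := hk1.eventually (gt_mem_nhds (show _ < (0 : ℝ) by
      have : 0 < γ / 2 * (4 / arctan T * 1) := by positivity
      simp only [mul_zero, add_zero]
      linarith))
    refine le_of_tendsto_of_tendsto hlim' hlim ?_
    filter_upwards [hk2] with k hk
    have hk0 : (0 : ℝ) < (k : ℝ) + 1 := by positivity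
    have h := step_bound' hn hε ζ hB hBtop hc0 hc hT hr0 hr1 hr hU hUc hc0'.le hc₀1.le hU' hU'B hγ
      hav hr2 hr3 hr4 k (by
        rw [← hN, ← sub_nonpos]
        have := mul_neg_of_neg_of_pos hk hk0
        refine le_trans (le_of_eq ?_) this.le
        field_simp)
    have hk : (0 : ℝ) < ((k : ℝ) + 1) ^ n := by positivity
    have e0 : 4 / arctan T * (((k : ℝ) + 2) / (k + 1)) = (4 * (k + 2) / arctan T) / (k + 1) := by
      field_simp
    have e1 : 4 / arctan T * (((k : ℝ) + 2) / (k + 1))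
          + N * 8 * (((k : ℝ) + 2) ^ 2 * r₀ ^ k / (k + 1))
        = (4 * (k + 2) / arctan T + N * (8 * (k + 2) ^ 2 * r₀ ^ k)) / (k + 1) := by
      field_simp
    have e2 : N * 14 * (((k : ℝ) + 2) / (k + 1)) = N * (14 * (k + 2)) / (k + 1) := by
      field_simp
    rw [e1, e2, e0, div_pow _ ((k : ℝ) + 1), div_pow _ ((k : ℝ) + 1), div_pow _ ((k : ℝ) + 1)]
    rw [mul_pow _ ((k : ℝ) + 1), ← hN, ← hP, ← hY] at h
    have h' := div_le_div_of_nonneg_right h hk.le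
    refine le_trans (le_of_eq ?_) (h'.trans (le_of_eq ?_))
    · field_simp
    · ring
  have h2 : ∀ c : ℝ, π ^ 2 / 8 * c₀ < c → c < π ^ 2 / 8 →
      (4 * π) ^ n + n.factorial * ((4 / (π / 2)) ^ n * (π ^ 2 / 8) ^ n * Y) ≤ n.factorial *
      (((4 / (π / 2)) ^ n * c ^ n + (N * 14) ^ n * ((π ^ 2 / 8) ^ n - c ^ n)) * P) := by
    intro c hc0 hc
    have a1 : Tendsto arctan atTop (𝓝 (π / 2)) :=
      tendsto_arctan_atTop.mono_right nhdsWithin_le_nhds
    have a2 := ((tendsto_const_nhds (x := (4 : ℝ))).div a1 (by positivity)).pow n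
    have hlim := (((a2.mul_const
      (c ^ n)).add_const ((N * 14) ^ n * ((π ^ 2 / 8) ^ n - c ^ n))).mul_const P).const_mul
      (n.factorial : ℝ)
    have hlim' := (((a2.mul_const ((π ^ 2 / 8) ^ n)).mul_const Y).const_mul
      (n.factorial : ℝ)).const_add ((4 * π) ^ n)
    refine le_of_tendsto_of_tendsto hlim' hlim ?_
    filter_upwards [eventually_gt_atTop 0] with T hT
    exact h1 c T hc0 hc hT
  have hlim : Tendsto (fun c : ℝ => n.factorial *
      (((4 / (π / 2)) ^ n * c ^ n + (N * 14) ^ n * ((π ^ 2 / 8) ^ n - c ^ n)) * P))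
      (𝓝[<] (π ^ 2 / 8)) (𝓝 (n.factorial * (((4 / (π / 2)) ^ n * (π ^ 2 / 8) ^ n
        + (N * 14) ^ n * ((π ^ 2 / 8) ^ n - (π ^ 2 / 8) ^ n)) * P))) := by
    apply tendsto_nhdsWithin_of_tendsto_nhds
    exact Continuous.tendsto (f := fun c : ℝ => n.factorial *
      (((4 / (π / 2)) ^ n * c ^ n + (N * 14) ^ n * ((π ^ 2 / 8) ^ n - c ^ n)) * P)) (by fun_prop) _
  have h3 := ge_of_tendsto hlim (by
    filter_upwards [Ioo_mem_nhdsLT (show π ^ 2 / 8 * c₀ < π ^ 2 / 8 by nlinarith)] with c hc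
    exact h2 c hc.1 hc.2)
  have e : 4 / (π / 2) * (π ^ 2 / 8) = π := by
    field_simp
    norm_num
  rw [sub_self, mul_zero, add_zero, ← mul_pow, e, mul_pow] at h3
  have hp : 0 < π ^ n := by positivity
  refine le_of_mul_le_mul_right (le_trans (le_of_eq ?_) (h3.trans (le_of_eq ?_))) hp
  · ring
  · ring

end Vale.Agent.P248
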