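import Mathlib

/-! Linear algebra of weighted Gram matrices. -/

namespace Vale.Agent.P248

open Matrix Finset

variable {n : ℕ} {ι : Type*} [Fintype ι]

/-- The weighted Gram matrix `∑ a i • η i η iᵀ`. -/
def gram (η : ι → Fin n → ℝ) (a : ι → ℝ) : Matrix (Fin n) (Fin n) ℝ :=
  Matrix.of fun k l => ∑ i, a i * η i k * η i l

/-- The combination `∑ p i • η i`. -/
def comb (η : ι → Fin n → ℝ) (p : ι → ℝ) : Fin n → ℝ := fun k => ∑ i, p i * η i k

theorem comb_dot (η : ι → Fin n → ℝ) (p : ι → ℝ) (v : Fin n → ℝ) :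
    comb η p ⬝ᵥ v = ∑ i, p i * (η i ⬝ᵥ v) := by
  simp only [comb, dotProduct, sum_mul, mul_sum]
  rw [sum_comm]
  exact sum_congr rfl fun _ _ => sum_congr rfl fun _ _ => by ring

theorem gram_row (η : ι → Fin n → ℝ) (a : ι → ℝ) (k : Fin n) :
    gram η a k = comb η (fun i => a i * η i k) := rfl

theorem gram_mulVec (η : ι → Fin n → ℝ) (a : ι → ℝ) (v : Fin n → ℝ) :
    gram η a *ᵥ v = comb η (fun i => a i * (η i ⬝ᵥ v)) := by
  funext k
  rw [mulVec, gram_row, comb_dot]
  exact sum_congr rfl fun _ _ => by ring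

theorem gram_transpose (η : ι → Fin n → ℝ) (a : ι → ℝ) : (gram η a)ᵀ = gram η a := by
  ext k l
  exact sum_congr rfl fun _ _ => by ring

theorem dot_gram (η : ι → Fin n → ℝ) (a : ι → ℝ) (v : Fin n → ℝ) :
    v ⬝ᵥ (gram η a *ᵥ v) = ∑ i, a i * (η i ⬝ᵥ v) ^ 2 := by
  rw [gram_mulVec, dotProduct_comm, comb_dot]
  exact sum_congr rfl fun _ _ => by ring

theorem det_gram_nonneg (η : ι → Fin n → ℝ) {a : ι → ℝ} (ha : ∀ i, 0 ≤ a i) :
    0 ≤ (gram η a).det := by
  apply PosSemidef.det_nonneg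
  apply PosSemidef.of_dotProduct_mulVec_nonneg
  · rw [IsHermitian, conjTranspose_eq_transpose_of_trivial, gram_transpose]
  · intro v
    rw [star_trivial, dot_gram]
    exact sum_nonneg fun i _ => mul_nonneg (ha i) (sq_nonneg _)

theorem det_updateRow_gram (η : ι → Fin n → ℝ) (a : ι → ℝ) (l : Fin n) (w : Fin n → ℝ) :
    ((gram η a).updateRow l w).det = ((gram η a).adjugate *ᵥ w) l := by
  rw [← cramer_transpose_apply, gram_transpose, cramer_eq_adjugate_mulVec]

theorem adj_bound (η : ι → Fin n → ℝ) {a φ p q : ι → ℝ} (ha : ∀ i, 0 ≤ a i) (hφ : ∀ i, 0 ≤ φ i)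
    (h : ∀ i, p i ^ 2 + q i ^ 2 ≤ φ i * a i) :
    comb η p ⬝ᵥ ((gram η a).adjugate *ᵥ comb η p) + comb η q ⬝ᵥ ((gram η a).adjugate *ᵥ comb η q)
      ≤ (∑ i, φ i) * (gram η a).det := by
  set u := (gram η a).adjugate *ᵥ comb η p with hu
  set v := (gram η a).adjugate *ᵥ comb η q with hv
  have h1 : gram η a *ᵥ u = (gram η a).det • comb η p := by
    rw [hu, mulVec_mulVec, mul_adjugate, smul_mulVec, one_mulVec]
  have h2 : gram η a *ᵥ v = (gram η a).det • comb η q := by
    rw [hv, mulVec_mulVec, mul_adjugate, smul_mulVec, one_mulVec]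
  have h3 := dot_gram η a u
  have h4 := dot_gram η a v
  rw [h1, dotProduct_smul, smul_eq_mul, dotProduct_comm] at h3
  rw [h2, dotProduct_smul, smul_eq_mul, dotProduct_comm] at h4
  have h5 := sum_sq_le_sum_mul_sum_of_sq_le_mul univ
    (r := fun i => p i * (η i ⬝ᵥ u) + q i * (η i ⬝ᵥ v)) (f := φ)
    (g := fun i => a i * (η i ⬝ᵥ u) ^ 2 + a i * (η i ⬝ᵥ v) ^ 2) (fun i _ => hφ i)
    (fun i _ => add_nonneg (mul_nonneg (ha i) (sq_nonneg _)) (mul_nonneg (ha i) (sq_nonneg _)))
    (fun i _ => by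
      have e1 := mul_le_mul_of_nonneg_right (h i)
        (add_nonneg (sq_nonneg (η i ⬝ᵥ u)) (sq_nonneg (η i ⬝ᵥ v)))
      nlinarith [sq_nonneg (p i * (η i ⬝ᵥ v) - q i * (η i ⬝ᵥ u))])
  rw [sum_add_distrib, sum_add_distrib, ← h3, ← h4, ← comb_dot, ← comb_dot] at h5
  have h6 : 0 ≤ (∑ i, φ i) * (gram η a).det :=
    mul_nonneg (sum_nonneg fun i _ => hφ i) (det_gram_nonneg η ha)
  by_contra hc
  push Not at hc
  nlinarith

theorem exists_expansion [Nonempty ι] [DecidableEq ι] (η : ι → Fin n → ℝ) (l : Fin n) :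
    ∃ (κ : (Fin n → ι) → ℝ) (ν : (Fin n → ι) → Fin n → ℝ),
      (∀ J r, r ≠ l → η (J r) ⬝ᵥ ν J = 0) ∧ ∀ (a : ι → ℝ) (w : Fin n → ℝ),
        ((gram η a).updateRow l w).det
          = ∑ J, κ J * (∏ r ∈ univ.erase l, a (J r)) * (w ⬝ᵥ ν J) := by
  let B : (Fin n → ι) → Matrix (Fin n) (Fin n) ℝ := fun J => Matrix.of fun r => η (J r)
  have hlin : ∀ J (w : Fin n → ℝ), ((B J).updateRow l w).det
      = w ⬝ᵥ fun k => ((B J).updateRow l (Pi.single k 1)).det := by
    intro J w
    rw [← cramer_transpose_apply, cramer_eq_adjugate_mulVec]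
    simp only [← cramer_transpose_apply, cramer_eq_adjugate_mulVec, mulVec_single_one]
    rw [mulVec, dotProduct_comm]
    rfl
  refine ⟨fun J => (1 / Fintype.card ι) * ∏ r ∈ univ.erase l, η (J r) r,
    fun J k => ((B J).updateRow l (Pi.single k 1)).det, fun J r hr => ?_, fun a w => ?_⟩
  · rw [← hlin]
    exact det_updateRow_eq_zero (M := B J) hr
  · let c : Fin n → ι → ℝ := fun r i => if r = l then 1 / Fintype.card ι else a i * η i r
    let V : Fin n → ι → Fin n → ℝ := fun r i => if r = l then w else η i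
    have h1 : (gram η a).updateRow l w = Matrix.of fun r => ∑ i, c r i • V r i := by
      ext r k
      by_cases hr : r = l
      · subst hr
        have : (Fintype.card ι : ℝ) ≠ 0 := Nat.cast_ne_zero.2 Fintype.card_ne_zero
        simp only [updateRow_self, of_apply, c, V, if_true, Finset.sum_apply, Pi.smul_apply,
          smul_eq_mul, sum_const, card_univ, nsmul_eq_mul]
        field_simp
      · simp [updateRow_ne hr, gram, c, V, hr]
    rw [h1]
    have h2 := (detRowAlternating (R := ℝ) (n := Fin n)).toMultilinearMap.map_sum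
      (fun r i => c r i • V r i)
    refine h2.trans (sum_congr rfl fun J _ => ?_)
    rw [MultilinearMap.map_smul_univ, ← hlin, smul_eq_mul]
    congr 1
    · rw [← mul_prod_erase univ _ (mem_univ l), mul_assoc, ← prod_mul_distrib]
      simp only [c, if_true]
      congr 1
      refine prod_congr rfl fun r hr => ?_
      rw [if_neg (ne_of_mem_erase hr), mul_comm]
    · show det (Matrix.of fun r => V r (J r)) = _
      congr 1
      ext r k
      by_cases hr : r = l
      · subst hr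
        simp [V]
      · simp [V, hr, updateRow_ne hr, B]

end Vale.Agent.P248
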