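import Mathlib

namespace Vale.Agent.P248

/-- Hanner polytopes: segments `[-a, a]`, products, and convex hulls of
`(A × {0}) ∪ ({0} × B)`. A point of `ℝ^k × ℝ^l` is written `Fin.append x y`. -/
inductive IsHanner : (n : ℕ) → Set (Fin n → ℝ) → Prop
  | segment (a : ℝ) (ha : 0 < a) : IsHanner 1 {x | -a ≤ x 0 ∧ x 0 ≤ a}
  | prod {k l : ℕ} {A : Set (Fin k → ℝ)} {B : Set (Fin l → ℝ)} :
      IsHanner k A → IsHanner l B →
        IsHanner (k + l) {z | ∃ x ∈ A, ∃ y ∈ B, z = Fin.append x y}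
  | hull {k l : ℕ} {A : Set (Fin k → ℝ)} {B : Set (Fin l → ℝ)} :
      IsHanner k A → IsHanner l B →
        IsHanner (k + l) (convexHull ℝ ({z | ∃ x ∈ A, z = Fin.append x (0 : Fin l → ℝ)} ∪
          {z | ∃ y ∈ B, z = Fin.append (0 : Fin k → ℝ) y}))

end Vale.Agent.P248
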