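import Vale.Agent.P248.Faces

/-! The intersection property of faces. -/

namespace Vale.Agent.P248

open Set Matrix

variable {n : ℕ}

/-- Two sets of vertices lie in opposite facets, or the faces they generate meet. -/
def HP (V W : Set (Fin n → ℝ)) : Prop :=
  ∀ S₁ S₂ : Set (Fin n → ℝ), S₁ ⊆ V → S₂ ⊆ V → S₁.Nonempty → S₂.Nonempty →
    (∃ w ∈ W, (∀ v ∈ S₁, w ⬝ᵥ v = 1) ∧ ∀ v ∈ S₂, w ⬝ᵥ v = -1) ∨
      ∃ z, z ∈ dia V (dia W S₁) ∧ z ∈ dia V (dia W S₂)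

theorem subset_dia_dia {V W S : Set (Fin n → ℝ)} (hS : S ⊆ V) : S ⊆ dia V (dia W S) :=
  fun v hv => ⟨hS hv, fun w hw => by rw [dotProduct_comm]; exact hw.2 v hv⟩

theorem dia_anti {W S S' : Set (Fin n → ℝ)} (h : S ⊆ S') : dia W S' ⊆ dia W S :=
  fun _ hw => ⟨hw.1, fun v hv => hw.2 v (h hv)⟩

namespace Conf

variable {V W : Set (Fin n → ℝ)}

theorem sep_closed (h : Conf V W) (hN : NP V W) (hN' : NP W V) (k : ℕ) :
    ∀ A₁ A₂ : Set (Fin n → ℝ), A₁.ncard = k → A₁ ⊆ V → A₂ ⊆ V → A₁.Nonempty → A₂.Nonempty →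
      (∀ v ∈ dia V (dia W A₁), v ∈ A₁) → (∀ v ∈ dia V (dia W A₂), v ∈ A₂) →
      (∀ v ∈ A₁, v ∉ A₂) → ∃ w ∈ dia W A₁, -w ∈ dia W A₂ := by
  induction k using Nat.strong_induction_on with
  | _ k ih =>
  intro A₁ A₂ hk hA₁ hA₂ hne₁ hne₂ hc₁ hc₂ hdis
  by_contra hcon
  push Not at hcon
  have N1 : ∀ w ∈ dia W A₂, -w ∉ dia W A₁ := fun w hw h1 => hcon _ h1 (by rwa [neg_neg])
  have hG₁ : (dia W A₁).Nonempty := by
    by_contra h0
    obtain ⟨v, hv⟩ := hne₂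
    exact hdis v (hc₁ v ⟨hA₂ hv, fun w hw => absurd ⟨w, hw⟩ h0⟩) hv
  have hG₂ : (dia W A₂).Nonempty := by
    by_contra h0
    obtain ⟨v, hv⟩ := hne₁
    exact hdis v hv (hc₂ v ⟨hA₁ hv, fun w hw => absurd ⟨w, hw⟩ h0⟩)
  have N2 : ∀ w ∈ dia W A₂, w ∉ dia W A₁ := by
    intro w hw2 hw1
    rcases h.symm.sep_facet hN' hA₁ hA₂ hne₁ hne₂ hw1 hw2 with ⟨w', h1, h2, h3⟩ | ⟨z, h1, h2⟩
    · exact hcon w' ⟨h1, h2⟩ ⟨h.negW _ h1, fun v hv => by rw [neg_dotProduct, h3 v hv, neg_neg]⟩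
    · exact hdis z (hc₁ z h1) (hc₂ z h2)
  have N3 : ∀ v ∈ A₁, -v ∉ A₂ := by
    intro v hv1 hv2
    obtain ⟨g, hg⟩ := hG₂
    have hneg : ∀ a ∈ A₂, -a ∈ dia V {w | -w ∈ dia W A₂} := fun a ha =>
      ⟨h.negV a (hA₂ ha), fun w hw => by
        have := hw.2 a ha
        rwa [neg_dotProduct, dotProduct_comm, ← neg_dotProduct] at this⟩
    rcases h.sep_facet hN (T₁ := dia W A₁) (T₂ := {w | -w ∈ dia W A₂}) (v₀ := v)
      (fun _ hw => hw.1) (fun w hw => by simpa using h.negW _ hw.1) hG₁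
      ⟨-g, by simpa using hg⟩ (subset_dia_dia hA₁ hv1) (by simpa using hneg _ hv2)
      with ⟨v', h1, h2, h3⟩ | ⟨z, h1, h2⟩
    · refine hdis v' (hc₁ v' ⟨h1, h2⟩) (hc₂ v' ⟨h1, fun w hw => ?_⟩)
      have := h3 (-w) (by simpa using hw)
      rw [dotProduct_neg] at this
      linarith
    · refine hcon z (dia_anti (subset_dia_dia hA₁) h1) ⟨h.negW _ h1.1, fun a ha => ?_⟩
      have := h2.2 _ (hneg a ha)
      rwa [dotProduct_neg, ← neg_dotProduct] at this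
  have fA₁ := h.finV.subset hA₁
  have fG : {g | g ∈ dia W A₂ ∨ -g ∈ dia W A₂}.Finite := h.finW.subset fun g hg => by
    rcases hg with hg | hg
    · exact hg.1
    · simpa using h.negW _ hg.1
  obtain ⟨g₀, hg₀⟩ := hG₂
  obtain ⟨g, hg, hmax⟩ := Set.exists_max_image _
    (fun g => {v | v ∈ A₁ ∧ g ⬝ᵥ v = 1}.ncard) fG ⟨g₀, Or.inl hg₀⟩
  have hgW : g ∈ W := by
    rcases hg with hg | hg
    · exact hg.1
    · simpa using h.negW _ hg.1
  set A := {v | v ∈ A₁ ∧ g ⬝ᵥ v = 1} with hA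
  have hsub : A ⊆ A₁ := fun _ hv => hv.1
  have hAne : A.Nonempty := by
    obtain ⟨v, hv⟩ := hne₁
    rw [← Set.ncard_pos (fA₁.subset hsub)]
    rcases h.pm g₀ hg₀.1 v (hA₁ hv) with h1 | h1
    · refine lt_of_lt_of_le ?_ (hmax g₀ (Or.inl hg₀))
      exact (Set.ncard_pos (fA₁.subset fun _ hv => hv.1)).2 ⟨v, hv, h1⟩
    · refine lt_of_lt_of_le ?_ (hmax (-g₀) (Or.inr (by simpa using hg₀)))
      exact (Set.ncard_pos (fA₁.subset fun _ hv => hv.1)).2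
        ⟨v, hv, by rw [neg_dotProduct, h1, neg_neg]⟩
  have hlt : A.ncard < k := by
    rw [← hk]
    refine Set.ncard_lt_ncard (ssubset_iff_subset_ne.2 ⟨hsub, fun h0 => ?_⟩) fA₁
    have hg1 : g ∈ dia W A₁ := ⟨hgW, fun v hv => (show v ∈ A from h0 ▸ hv).2⟩
    rcases hg with hg | hg
    · exact N2 g hg hg1
    · exact hcon g hg1 hg
  have hcA : ∀ v ∈ dia V (dia W A), v ∈ A := fun v hv =>
    ⟨hc₁ v (dia_anti (dia_anti hsub) hv), by
      rw [dotProduct_comm]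
      exact hv.2 g ⟨hgW, fun v hv => hv.2⟩⟩
  obtain ⟨w, hw1, hw2⟩ := ih _ hlt A A₂ rfl (hsub.trans hA₁) hA₂ hAne hne₂ hcA hc₂
    fun v hv => hdis v hv.1
  obtain ⟨w', hw1', hw2'⟩ := ih _ hlt A {v | -v ∈ A₂} rfl (hsub.trans hA₁)
    (fun v hv => by simpa using h.negV _ (hA₂ hv)) hAne
    (by obtain ⟨v, hv⟩ := hne₂; exact ⟨-v, by simpa using hv⟩) hcA
    (fun v hv => hc₂ _ ⟨h.negV _ hv.1, fun w hw => by
      have := hv.2 (-w) ⟨h.negW _ hw.1, fun a ha => by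
        have := hw.2 _ ha
        rwa [dotProduct_neg, ← neg_dotProduct] at this⟩
      rwa [dotProduct_neg, ← neg_dotProduct] at this⟩)
    fun v hv => N3 v hv.1
  have hw3 : w' ∈ dia W A₂ := ⟨hw1'.1, fun a ha => by
    have := hw2'.2 (-a) (by simpa using ha)
    rwa [neg_dotProduct_neg] at this⟩
  have key : ∀ u ∈ dia W A, (u ∈ dia W A₂ ∨ -u ∈ dia W A₂) → ∀ v ∈ A₁, u ⬝ᵥ v = g ⬝ᵥ v := by
    intro u hu hu2 v hv
    have e := Set.eq_of_subset_of_ncard_le (s := A) (t := {v | v ∈ A₁ ∧ u ⬝ᵥ v = 1})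
      (fun v hv => ⟨hv.1, hu.2 v hv⟩) (hmax u hu2) (fA₁.subset fun _ hv => hv.1)
    rcases h.pm g hgW v (hA₁ hv) with h1 | h1
    · rw [h1]; exact hu.2 v ⟨hv, h1⟩
    · rw [h1]
      refine (h.pm u hu.1 v (hA₁ hv)).resolve_left fun h2 => ?_
      have : v ∈ A := e ▸ ⟨hv, h2⟩
      linarith [this.2]
  refine h.no_flat hN hA₁ hA₂ hne₁ hne₂ hc₁ hG₁ N2 N1 (q := (1 / 2 : ℝ) • (w' - w))
    (fun v hv => ?_) (fun v hv => ?_) (fun v hv => ?_)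
  · rw [dotProduct_smul, dotProduct_sub, smul_eq_mul]
    have a1 := h.symm.le_one hv hw1'.1
    have a2 := h.symm.le_one hv (h.negW _ hw1.1)
    rw [dotProduct_neg] at a2
    linarith
  · rw [smul_dotProduct, sub_dotProduct, key w hw1 (Or.inr hw2) v hv,
      key w' hw1' (Or.inl hw3) v hv, sub_self, smul_zero]
  · have a1 := hw2.2 v hv
    rw [neg_dotProduct] at a1
    rw [smul_dotProduct, sub_dotProduct, hw3.2 v hv, smul_eq_mul]
    linarith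

theorem hp (h : Conf V W) (hN : NP V W) (hN' : NP W V) : HP V W := by
  intro S₁ S₂ hS₁ hS₂ hne₁ hne₂
  by_cases hz : ∃ z, z ∈ dia V (dia W S₁) ∧ z ∈ dia V (dia W S₂)
  · exact Or.inr hz
  · left
    push Not at hz
    have hcl : ∀ S, ∀ v ∈ dia V (dia W (dia V (dia W S))), v ∈ dia V (dia W S) := fun S v hv =>
      dia_anti (subset_dia_dia fun _ hw => hw.1) hv
    obtain ⟨w, h1, h2⟩ := h.sep_closed hN hN' _ (dia V (dia W S₁)) (dia V (dia W S₂)) rfl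
      (fun _ hv => hv.1) (fun _ hv => hv.1) (hne₁.mono (subset_dia_dia hS₁))
      (hne₂.mono (subset_dia_dia hS₂)) (hcl S₁) (hcl S₂) hz
    refine ⟨w, h1.1, fun v hv => h1.2 v (subset_dia_dia hS₁ hv), fun v hv => ?_⟩
    have := h2.2 v (subset_dia_dia hS₂ hv)
    rw [neg_dotProduct] at this
    linarith

end Conf

end Vale.Agent.P248
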