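import Vale.Agent.P248.Lens

/-! The boundary curve of the lens. -/

namespace Vale.Agent.P248

open Set Filter Topology Metric Real MeasureTheory

/-- Boundary curve. -/
noncomputable def bdry (θ : ℝ) : ℂ := lensMap (Complex.exp (θ * Complex.I))

/-- Closed form of `z * lensDer z`. -/
noncomputable def halfLog (z : ℂ) : ℂ := 1 / 2 * Complex.log ((1 + z) / (1 - z))

theorem cayley_im' (z : ℂ) : ((1 + z) / (1 - z)).im = 2 * z.im / Complex.normSq (1 - z) := by
  rw [Complex.div_im, ← sub_div]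
  congr 1
  simp
  ring

theorem continuousAt_halfLog {z : ℂ} (h : ‖z‖ < 1 ∨ 0 < z.im) : ContinuousAt halfLog z := by
  have h1 : 1 - z ≠ 0 := by
    rcases h with h | h
    · exact one_sub_ne h
    · intro h0
      have : z = 1 := (sub_eq_zero.1 h0).symm
      simp [this] at h
  have h2 : (1 + z) / (1 - z) ∈ Complex.slitPlane := by
    rcases h with h | h
    · exact Or.inl (cayley_re_pos h)
    · right
      rw [cayley_im']
      exact (div_pos (by linarith) (Complex.normSq_pos.2 h1)).ne'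
  exact continuousAt_const.mul (ContinuousAt.clog (ContinuousAt.div (by fun_prop) (by fun_prop) h1) h2)

theorem norm_polar (r t : ℝ) (hr : 0 ≤ r) : ‖(r : ℂ) * Complex.exp (t * Complex.I)‖ = r := by
  rw [norm_mul, Complex.norm_exp_ofReal_mul_I, Complex.norm_real, Real.norm_of_nonneg hr, mul_one]

theorem hasDerivAt_circle {r : ℝ} (hr0 : 0 ≤ r) (hr : r < 1) (t : ℝ) :
    HasDerivAt (fun t : ℝ => lensMap ((r : ℂ) * Complex.exp (t * Complex.I)))
      (Complex.I * halfLog ((r : ℂ) * Complex.exp (t * Complex.I))) t := by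
  have hn : ‖(r : ℂ) * Complex.exp (t * Complex.I)‖ < 1 := by rwa [norm_polar r t hr0]
  have h1 : HasDerivAt (fun w : ℂ => (r : ℂ) * Complex.exp (w * Complex.I))
      ((r : ℂ) * (Complex.exp (t * Complex.I) * Complex.I)) (t : ℂ) := by
    have := ((hasDerivAt_id (t : ℂ)).mul_const Complex.I).cexp.const_mul (r : ℂ)
    simpa using this
  have h2 := (HasDerivAt.comp (t : ℂ) (h₂ := lensMap) (hasDerivAt_lensMap hn) h1).comp_ofReal
  refine h2.congr_deriv ?_
  rw [halfLog, ← mul_lensDer hn]
  ring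

theorem continuous_bdry : Continuous bdry :=
  continuousOn_lensMap.comp_continuous (by fun_prop) fun t => by
    simp [Complex.norm_exp_ofReal_mul_I]

theorem bdry_sub {a b : ℝ} (ha : 0 < a) (hab : a ≤ b) (hb : b < π) :
    bdry b - bdry a = ∫ t in a..b, Complex.I * halfLog (Complex.exp (t * Complex.I)) := by
  let f : ℝ → ℝ → ℂ := fun r t => Complex.I * halfLog
    (((max 0 (min 1 r) : ℝ) : ℂ) * Complex.exp ((max a (min b t) : ℝ) * Complex.I))
  have hf : Continuous f.uncurry := by
    rw [continuous_iff_continuousAt]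
    rintro ⟨r, t⟩
    refine continuousAt_const.mul (ContinuousAt.comp (f := fun p : ℝ × ℝ =>
      ((max 0 (min 1 p.1) : ℝ) : ℂ) * Complex.exp ((max a (min b p.2) : ℝ) * Complex.I))
      (continuousAt_halfLog ?_) (by fun_prop))
    rcases (max_le zero_le_one (min_le_left 1 r)).eq_or_lt with h | h
    · right
      have h1 : 0 < sin (max a (min b t)) :=
        sin_pos_of_pos_of_lt_pi (ha.trans_le (le_max_left _ _))
          ((max_le hab (min_le_left _ _)).trans_lt hb)
      simp only [h, Complex.ofReal_one, one_mul, Complex.exp_ofReal_mul_I_im]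
      exact h1
    · left
      rwa [norm_polar _ _ (le_max_left _ _)]
  have hc := intervalIntegral.continuous_parametric_intervalIntegral_of_continuous'
    (μ := volume) hf a b
  have e1 : ∀ r ∈ Icc (0 : ℝ) 1, ∫ t in a..b, f r t
      = ∫ t in a..b, Complex.I * halfLog ((r : ℂ) * Complex.exp (t * Complex.I)) := by
    intro r hr
    apply intervalIntegral.integral_congr
    intro t ht
    rw [uIcc_of_le hab] at ht
    simp only [f, min_eq_right hr.2, max_eq_right hr.1, min_eq_right ht.2, max_eq_right ht.1]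
  have h1 : Tendsto (fun r : ℝ => ∫ t in a..b, f r t) (𝓝[<] 1) (𝓝 (∫ t in a..b, f 1 t)) :=
    tendsto_nhdsWithin_of_tendsto_nhds (hc.tendsto 1)
  have h2 : ∀ t : ℝ, Tendsto (fun r : ℝ => lensMap ((r : ℂ) * Complex.exp (t * Complex.I)))
      (𝓝[<] 1) (𝓝 (bdry t)) := by
    intro t
    have a1 : ContinuousWithinAt lensMap (closedBall 0 1) (Complex.exp (t * Complex.I)) :=
      continuousOn_lensMap _ (by simp [Complex.norm_exp_ofReal_mul_I])
    apply a1.tendsto.comp
    apply tendsto_nhdsWithin_of_tendsto_nhds_of_eventually_within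
    · apply tendsto_nhdsWithin_of_tendsto_nhds
      have : Continuous fun r : ℝ => (r : ℂ) * Complex.exp (t * Complex.I) := by fun_prop
      simpa using this.tendsto 1
    · filter_upwards [Ioo_mem_nhdsLT (zero_lt_one' ℝ)] with r hr
      rw [mem_closedBall, dist_zero_right, norm_polar r t hr.1.le]
      exact hr.2.le
  have h3 : Tendsto (fun r : ℝ => ∫ t in a..b, f r t) (𝓝[<] 1) (𝓝 (bdry b - bdry a)) := by
    refine ((h2 b).sub (h2 a)).congr' ?_
    filter_upwards [Ioo_mem_nhdsLT (zero_lt_one' ℝ)] with r hr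
    rw [e1 r ⟨hr.1.le, hr.2.le⟩]
    symm
    apply intervalIntegral.integral_eq_sub_of_hasDerivAt
      (fun t _ => hasDerivAt_circle hr.1.le hr.2 t)
    apply Continuous.intervalIntegrable
    rw [continuous_iff_continuousAt]
    intro t
    refine continuousAt_const.mul (ContinuousAt.comp (f := fun t : ℝ =>
      (r : ℂ) * Complex.exp (t * Complex.I)) (continuousAt_halfLog (Or.inl ?_)) (by fun_prop))
    rw [norm_polar r t hr.1.le]
    exact hr.2
  rw [← tendsto_nhds_unique h1 h3, e1 1 (by simp)]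
  simp

theorem halfLog_exp {θ : ℝ} (h0 : 0 < θ) (h1 : θ < π) :
    halfLog (Complex.exp (θ * Complex.I))
      = ((-(1 / 2 * log (tan (θ / 2))) : ℝ) : ℂ) + ((π / 4 : ℝ) : ℂ) * Complex.I := by
  have hs : 0 < sin (θ / 2) := sin_pos_of_pos_of_lt_pi (by linarith) (by linarith)
  have hc : 0 < cos (θ / 2) := cos_pos_of_mem_Ioo ⟨by linarith, by linarith⟩
  have ht : 0 < tan (θ / 2) := by rw [tan_eq_sin_div_cos]; positivity
  have e1 : sin θ = 2 * sin (θ / 2) * cos (θ / 2) := by
    rw [← sin_two_mul]; congr 1; ring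
  have e2 : cos θ = 1 - 2 * sin (θ / 2) ^ 2 := by
    have := cos_two_mul (θ / 2)
    rw [show 2 * (θ / 2) = θ by ring, cos_sq'] at this
    linarith
  have hne : 1 - Complex.exp (θ * Complex.I) ≠ 0 := by
    intro h
    have := congrArg Complex.re h
    simp only [Complex.sub_re, Complex.one_re, Complex.exp_ofReal_mul_I_re, Complex.zero_re] at this
    nlinarith
  have key : (1 + Complex.exp (θ * Complex.I)) / (1 - Complex.exp (θ * Complex.I))
      = (((tan (θ / 2))⁻¹ : ℝ) : ℂ) * Complex.I := by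
    rw [div_eq_iff hne]
    have e3 := sin_sq_add_cos_sq (θ / 2)
    apply Complex.ext
    · simp only [Complex.add_re, Complex.one_re, Complex.exp_ofReal_mul_I_re, Complex.mul_re,
        Complex.ofReal_re, Complex.I_re, mul_zero, Complex.ofReal_im, Complex.I_im, mul_one,
        sub_self, Complex.sub_re, zero_mul, Complex.mul_im, add_zero, Complex.sub_im,
        Complex.one_im, Complex.exp_ofReal_mul_I_im, zero_sub]
      rw [e1, e2, tan_eq_sin_div_cos]
      field_simp
      nlinarith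
    · simp only [Complex.add_im, Complex.one_im, Complex.exp_ofReal_mul_I_im, zero_add,
        Complex.mul_im, Complex.mul_re, Complex.ofReal_re, Complex.I_re, mul_zero,
        Complex.ofReal_im, Complex.I_im, mul_one, sub_self, Complex.sub_im, zero_sub, zero_mul,
        add_zero, Complex.sub_re, Complex.one_re, Complex.exp_ofReal_mul_I_re]
      rw [e1, e2, tan_eq_sin_div_cos]
      field_simp
      ring
  rw [halfLog, key, Complex.log_ofReal_mul (by positivity) Complex.I_ne_zero, Complex.log_I,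
    log_inv]
  push_cast
  ring

theorem hasDerivAt_bdry {θ : ℝ} (h0 : 0 < θ) (h1 : θ < π) :
    HasDerivAt bdry (Complex.I * halfLog (Complex.exp (θ * Complex.I))) θ := by
  have hc : ContinuousOn (fun t : ℝ => Complex.I * halfLog (Complex.exp (t * Complex.I)))
      (Ioo 0 π) := by
    intro t ht
    refine (continuousAt_const.mul (ContinuousAt.comp (f := fun t : ℝ =>
      Complex.exp (t * Complex.I)) (continuousAt_halfLog (Or.inr ?_))
      (by fun_prop))).continuousWithinAt
    rw [Complex.exp_ofReal_mul_I_im]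
    exact sin_pos_of_pos_of_lt_pi ht.1 ht.2
  have hsub : uIcc (θ / 2) θ ⊆ Ioo 0 π := by
    rw [uIcc_of_le (by linarith)]
    intro t ht
    exact ⟨by linarith [ht.1], by linarith [ht.2]⟩
  have h := (intervalIntegral.integral_hasDerivAt_right (hc.mono hsub).intervalIntegrable
    (hc.stronglyMeasurableAtFilter (μ := volume) isOpen_Ioo θ ⟨h0, h1⟩)
    (hc.continuousAt (isOpen_Ioo.mem_nhds ⟨h0, h1⟩))).add_const (bdry (θ / 2))
  refine h.congr_of_eventuallyEq ?_
  filter_upwards [Ioo_mem_nhds (show θ / 2 < θ by linarith) h1] with t ht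
  rw [← bdry_sub (by linarith) ht.1.le ht.2]
  ring

/-- Height of the boundary as a function of the angle. -/
noncomputable def cl (θ : ℝ) : ℝ := (bdry θ).im

theorem continuous_cl : Continuous cl := Complex.continuous_im.comp continuous_bdry

theorem hasDerivAt_cl {θ : ℝ} (h0 : 0 < θ) (h1 : θ < π) :
    HasDerivAt cl (-(1 / 2 * log (tan (θ / 2)))) θ := by
  refine (hasDerivAt_im (hasDerivAt_bdry h0 h1)).congr_deriv ?_
  rw [halfLog_exp h0 h1]
  simp only [Complex.mul_im, Complex.I_re, Complex.I_im, Complex.add_re, Complex.add_im,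
    Complex.ofReal_re, Complex.ofReal_im, Complex.mul_re]
  ring

theorem bdry_zero : bdry 0 = ((π ^ 2 / 8 : ℝ) : ℂ) := by
  simp only [bdry, Complex.ofReal_zero, zero_mul, Complex.exp_zero, lensMap_one]

theorem re_bdry {θ : ℝ} (h : θ ∈ Icc 0 π) : (bdry θ).re = π ^ 2 / 8 - π / 4 * θ := by
  have hd : ∀ t ∈ interior (Icc 0 π), HasDerivWithinAt (fun t => (bdry t).re + π / 4 * t) 0
      (interior (Icc 0 π)) t := by
    intro t ht
    rw [interior_Icc] at ht
    have h1 := (hasDerivAt_re (hasDerivAt_bdry ht.1 ht.2)).add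
      ((hasDerivAt_id t).const_mul (π / 4))
    refine (h1.congr_deriv ?_).hasDerivWithinAt
    rw [halfLog_exp ht.1 ht.2]
    simp only [Complex.mul_im, Complex.I_re, Complex.I_im, Complex.add_re, Complex.add_im,
      Complex.ofReal_re, Complex.ofReal_im, Complex.mul_re]
    ring
  have hc : ContinuousOn (fun t => (bdry t).re + π / 4 * t) (Icc 0 π) :=
    ((Complex.continuous_re.comp continuous_bdry).add (by fun_prop)).continuousOn
  have h1 := monotoneOn_of_hasDerivWithinAt_nonneg (convex_Icc 0 π) hc hd (fun _ _ => le_rfl)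
    ⟨le_rfl, pi_pos.le⟩ h h.1
  have h2 := antitoneOn_of_hasDerivWithinAt_nonpos (convex_Icc 0 π) hc hd (fun _ _ => le_rfl)
    ⟨le_rfl, pi_pos.le⟩ h h.1
  simp only [bdry_zero, Complex.ofReal_re, mul_zero, add_zero] at h1 h2
  linarith

theorem cl_zero : cl 0 = 0 := by rw [cl, bdry_zero, Complex.ofReal_im]

theorem cl_symm (θ : ℝ) : cl (π - θ) = cl θ := by
  have : Complex.exp (((π - θ : ℝ) : ℂ) * Complex.I)
      = -starRingEnd ℂ (Complex.exp (θ * Complex.I)) := by
    apply Complex.ext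
    · simp only [Complex.exp_ofReal_mul_I_re, Complex.neg_re, Complex.conj_re, cos_pi_sub]
    · simp only [Complex.exp_ofReal_mul_I_im, Complex.neg_im, Complex.conj_im, sin_pi_sub, neg_neg]
  rw [cl, bdry, this, lensMap_neg, lensMap_conj]
  simp [cl, bdry]

theorem cl_pi : cl π = 0 := by
  have := cl_symm 0
  rwa [sub_zero, cl_zero] at this

theorem strictConcaveOn_cl : StrictConcaveOn ℝ (Icc 0 π) cl := by
  apply StrictAntiOn.strictConcaveOn_of_deriv (convex_Icc 0 π) continuous_cl.continuousOn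
  rw [interior_Icc]
  intro a ha b hb hab
  rw [(hasDerivAt_cl ha.1 ha.2).deriv, (hasDerivAt_cl hb.1 hb.2).deriv]
  have h1 : 0 < tan (a / 2) := tan_pos_of_pos_of_lt_pi_div_two (by linarith [ha.1])
    (by linarith [ha.2])
  have h2 : tan (a / 2) < tan (b / 2) :=
    tan_lt_tan_of_nonneg_of_lt_pi_div_two (by linarith [ha.1]) (by linarith [hb.2]) (by linarith)
  have := log_lt_log h1 h2
  linarith

theorem cl_pos {θ : ℝ} (h0 : 0 < θ) (h1 : θ < π) : 0 < cl θ := by
  have h := strictConcaveOn_cl.2 (show (0 : ℝ) ∈ Icc 0 π from ⟨le_rfl, pi_pos.le⟩)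
    (show π ∈ Icc 0 π from ⟨pi_pos.le, le_rfl⟩) pi_pos.ne
    (show 0 < 1 - θ / π by rw [sub_pos, div_lt_one pi_pos]; exact h1)
    (show 0 < θ / π by positivity) (by ring)
  rw [cl_zero, cl_pi] at h
  simpa [pi_pos.ne'] using h

theorem cl_nonneg {θ : ℝ} (h : θ ∈ Icc 0 π) : 0 ≤ cl θ := by
  rcases h.1.eq_or_lt with h0 | h0
  · rw [← h0, cl_zero]
  · rcases h.2.eq_or_lt with h1 | h1
    · rw [h1, cl_pi]
    · exact (cl_pos h0 h1).le

theorem cl_le (θ : ℝ) : cl θ ≤ π ^ 2 / 8 :=
  ((le_abs_self _).trans (Complex.abs_im_le_norm _)).trans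
    (norm_lensMap_le (by simp [Complex.norm_exp_ofReal_mul_I]))

theorem cl_pow_four_le {τ : ℝ} (h0 : 0 ≤ τ) (h1 : τ ^ 4 ≤ π) : cl (τ ^ 4) ≤ 4 * τ ^ 3 := by
  have hd : ∀ t ∈ interior (Icc 0 τ), HasDerivAt (fun t => 4 * t ^ 3 - cl (t ^ 4))
      (4 * (3 * t ^ 2) - (-(1 / 2 * log (tan (t ^ 4 / 2)))) * (4 * t ^ 3)) t := by
    intro t ht
    rw [interior_Icc] at ht
    have a0 := ht.1
    have a1 : t ^ 4 < π := (pow_lt_pow_left₀ ht.2 ht.1.le (by norm_num)).trans_le h1
    have a2 : HasDerivAt (fun t : ℝ => t ^ 4) (4 * t ^ 3) t := by simpa using hasDerivAt_pow 4 t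
    have a3 : HasDerivAt (fun t : ℝ => t ^ 3) (3 * t ^ 2) t := by simpa using hasDerivAt_pow 3 t
    exact (a3.const_mul 4).sub
      (HasDerivAt.comp t (h₂ := cl) (hasDerivAt_cl (by positivity) a1) a2)
  have hm := monotoneOn_of_hasDerivWithinAt_nonneg (convex_Icc 0 τ)
    (f := fun t => 4 * t ^ 3 - cl (t ^ 4))
    (Continuous.continuousOn ((by fun_prop : Continuous fun t : ℝ => 4 * t ^ 3).sub
      (continuous_cl.comp (by fun_prop))))
    (fun t ht => (hd t ht).hasDerivWithinAt) (fun t ht => by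
      rw [interior_Icc] at ht
      have a0 := ht.1
      have a1 : t ^ 4 < π := (pow_lt_pow_left₀ ht.2 ht.1.le (by norm_num)).trans_le h1
      have a2 : t ^ 4 / 2 ≤ tan (t ^ 4 / 2) := le_tan (by positivity) (by linarith)
      have a3 := log_le_log (by positivity) a2
      rw [log_div (by positivity) (by norm_num), log_pow] at a3
      have a4 : -t⁻¹ ≤ log t := by
        have := log_le_sub_one_of_pos (inv_pos.2 a0)
        rw [log_inv] at this
        linarith
      have a5 : log 2 ≤ 1 := by linarith [log_le_sub_one_of_pos (show (0 : ℝ) < 2 by norm_num)]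
      have a6 : t < 2 := by
        by_contra hc
        have : (2 : ℝ) ^ 4 ≤ t ^ 4 := pow_le_pow_left₀ (by norm_num) (not_lt.1 hc) 4
        linarith [pi_lt_four]
      have a7 : -(4 * t⁻¹ + 1) ≤ log (tan (t ^ 4 / 2)) := by
        push_cast at a3
        linarith
      have a8 : t ^ 3 * t⁻¹ = t ^ 2 := by field_simp
      have a9 := mul_le_mul_of_nonneg_left a7 (show 0 ≤ t ^ 3 by positivity)
      nlinarith [sq_nonneg t])
  have := hm ⟨le_rfl, h0⟩ ⟨h0, le_rfl⟩ h0
  simp only [ne_eq, OfNat.ofNat_ne_zero, not_false_eq_true, zero_pow, mul_zero, cl_zero,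
    sub_self] at this
  linarith

theorem tendsto_log_tan (s : ℝ) (hs : 0 < s) :
    Tendsto (fun θ : ℝ => log (tan (s * θ / 2)) - log θ) (𝓝[>] 0) (𝓝 (log (s / 2))) := by
  have h1 : HasDerivAt (fun θ : ℝ => tan (s * θ / 2)) (s / 2) 0 := by
    have a1 : HasDerivAt (fun θ : ℝ => s * θ / 2) (s / 2) 0 := by
      simpa using ((hasDerivAt_id (0 : ℝ)).const_mul s).div_const 2
    have a2 : HasDerivAt tan 1 (s * 0 / 2) := by
      simpa using hasDerivAt_tan (x := 0) (by simp)
    exact (HasDerivAt.comp (0 : ℝ) (h₂ := tan) a2 a1).congr_deriv (one_mul _)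
  rw [hasDerivAt_iff_tendsto_slope_zero] at h1
  have h2 := ((continuousAt_log (show s / 2 ≠ 0 by positivity)).tendsto).comp
    (h1.mono_left (nhdsGT_le_nhdsNE 0))
  refine h2.congr' ?_
  filter_upwards [Ioo_mem_nhdsGT (show 0 < π / s by positivity)] with θ hθ
  have a1 : s * θ < π := by
    have := hθ.2
    rwa [lt_div_iff₀' hs] at this
  have a0 := hθ.1
  have a2 : 0 < tan (s * θ / 2) := tan_pos_of_pos_of_lt_pi_div_two (by positivity) (by linarith)
  simp only [Function.comp_apply, zero_add, mul_zero, zero_div, tan_zero, sub_zero, smul_eq_mul]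
  rw [log_mul (by positivity) a2.ne', log_inv]
  ring

theorem tendsto_cl_ratio (s : ℝ) (hs : 0 < s) :
    Tendsto (fun θ : ℝ => cl (s * θ) / cl θ) (𝓝[>] 0) (𝓝 s) := by
  have hlog : Tendsto (fun θ : ℝ => (log θ)⁻¹) (𝓝[>] 0) (𝓝 0) :=
    tendsto_log_nhdsGT_zero.inv_tendsto_atBot
  have hq : ∀ s : ℝ, 0 < s → Tendsto (fun θ : ℝ => log (tan (s * θ / 2)) * (log θ)⁻¹) (𝓝[>] 0)
      (𝓝 1) := by
    intro s hs
    have h := ((tendsto_log_tan s hs).mul hlog).add_const 1
    rw [mul_zero, zero_add] at h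
    refine h.congr' ?_
    filter_upwards [Ioo_mem_nhdsGT (zero_lt_one' ℝ)] with θ hθ
    have := (log_neg hθ.1 hθ.2).ne
    field_simp
    ring
  have hne : ∀ᶠ θ in 𝓝[>] (0 : ℝ), log (tan (θ / 2)) ≠ 0 := by
    filter_upwards [(hq 1 one_pos).eventually (lt_mem_nhds zero_lt_one)] with θ hθ h
    rw [one_mul, h, zero_mul] at hθ
    exact lt_irrefl _ hθ
  have h0 : ∀ s : ℝ, Tendsto (fun θ : ℝ => cl (s * θ)) (𝓝[>] 0) (𝓝 0) := by
    intro s
    apply tendsto_nhdsWithin_of_tendsto_nhds
    have : Continuous fun θ : ℝ => cl (s * θ) := continuous_cl.comp (by fun_prop)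
    simpa [cl_zero] using this.tendsto 0
  apply HasDerivAt.lhopital_zero_nhdsGT
    (f' := fun θ => -(1 / 2 * log (tan (s * θ / 2))) * s)
    (g' := fun θ => -(1 / 2 * log (tan (θ / 2))))
  · filter_upwards [Ioo_mem_nhdsGT (show 0 < π / s by positivity)] with θ hθ
    have a1 : s * θ < π := by
      have := hθ.2
      rwa [lt_div_iff₀' hs] at this
    have a0 := hθ.1
    have a2 : HasDerivAt (fun θ : ℝ => s * θ) s θ := by
      simpa using (hasDerivAt_id θ).const_mul s
    exact HasDerivAt.comp θ (h₂ := cl) (hasDerivAt_cl (by positivity) a1) a2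
  · filter_upwards [Ioo_mem_nhdsGT pi_pos] with θ hθ
    exact hasDerivAt_cl hθ.1 hθ.2
  · filter_upwards [hne] with θ hθ
    simpa using hθ
  · exact h0 s
  · simpa using h0 1
  · have h := ((hq s hs).div (hq 1 one_pos) one_ne_zero).mul_const s
    rw [div_one, one_mul] at h
    refine h.congr' ?_
    filter_upwards [hne, Ioo_mem_nhdsGT (zero_lt_one' ℝ)] with θ h1 hθ
    have := (log_neg hθ.1 hθ.2).ne
    simp only [Pi.div_apply, one_mul]
    field_simp

end Vale.Agent.P248
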