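import Vale.Agent.P248.Series

/-! The lens, the inverse conformal map, and vertical sections. -/

namespace Vale.Agent.P248

open Set Filter Topology Metric Real

/-- The lens. -/
def lens : Set ℂ := lensMap '' ball 0 1

/-- The conformal map of the lens onto the disc. -/
noncomputable def lensInv : ℂ → ℂ := Function.invFunOn lensMap (ball 0 1)

theorem lensInv_lensMap {z : ℂ} (hz : ‖z‖ < 1) : lensInv (lensMap z) = z :=
  injOn_lensMap.leftInvOn_invFunOn (by simpa using hz)

theorem norm_lensInv {w : ℂ} (hw : w ∈ lens) : ‖lensInv w‖ < 1 := by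
  obtain ⟨z, hz, rfl⟩ := hw
  have hz' : ‖z‖ < 1 := by simpa using hz
  rwa [lensInv_lensMap hz']

theorem lensMap_lensInv {w : ℂ} (hw : w ∈ lens) : lensMap (lensInv w) = w := by
  obtain ⟨z, hz, rfl⟩ := hw
  have hz' : ‖z‖ < 1 := by simpa using hz
  rw [lensInv_lensMap hz']

theorem lensMap_mem {z : ℂ} (hz : ‖z‖ < 1) : lensMap z ∈ lens := ⟨z, by simpa using hz, rfl⟩

theorem hasStrictDerivAt_lensMap {z : ℂ} (hz : ‖z‖ < 1) :
    HasStrictDerivAt lensMap (lensDer z) z := by
  have h := (analyticAt_lensMap hz).hasStrictDerivAt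
  rwa [(hasDerivAt_lensMap hz).deriv] at h

theorem isOpen_lens : IsOpen lens := by
  rw [isOpen_iff_mem_nhds]
  rintro w ⟨z, hz, rfl⟩
  have hz' : ‖z‖ < 1 := by simpa using hz
  rw [← (hasStrictDerivAt_lensMap hz').map_nhds_eq (lensDer_ne hz')]
  exact image_mem_map (isOpen_ball.mem_nhds hz)

theorem hasDerivAt_lensInv {w : ℂ} (hw : w ∈ lens) :
    HasDerivAt lensInv (lensDer (lensInv w))⁻¹ w := by
  obtain ⟨z, hz, rfl⟩ := hw
  have hz' : ‖z‖ < 1 := by simpa using hz
  rw [lensInv_lensMap hz']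
  refine ((hasStrictDerivAt_lensMap hz').to_local_left_inverse (lensDer_ne hz') ?_).hasDerivAt
  filter_upwards [isOpen_ball.mem_nhds hz] with y hy
  exact lensInv_lensMap (by simpa using hy)

theorem zero_mem_lens : (0 : ℂ) ∈ lens := ⟨0, by simp, lensMap_zero⟩

theorem lensInv_zero : lensInv 0 = 0 := by
  have := lensInv_lensMap (z := 0) (by simp)
  rwa [lensMap_zero] at this

theorem lensInv_ne_zero {w : ℂ} (hw : w ∈ lens) (h0 : w ≠ 0) : lensInv w ≠ 0 := by
  intro h
  have := lensMap_lensInv hw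
  rw [h, lensMap_zero] at this
  exact h0 this.symm

theorem conj_mem_lens {w : ℂ} (hw : w ∈ lens) : starRingEnd ℂ w ∈ lens := by
  obtain ⟨z, hz, rfl⟩ := hw
  rw [← lensMap_conj]
  exact lensMap_mem (by simpa using hz)

theorem lensInv_conj {w : ℂ} (hw : w ∈ lens) :
    lensInv (starRingEnd ℂ w) = starRingEnd ℂ (lensInv w) := by
  obtain ⟨z, hz, rfl⟩ := hw
  have hz' : ‖z‖ < 1 := by simpa using hz
  rw [← lensMap_conj, lensInv_lensMap hz', lensInv_lensMap (by simpa using hz')]

theorem abs_re_le {w : ℂ} (hw : w ∈ lens) : |w.re| ≤ π ^ 2 / 8 := by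
  obtain ⟨z, hz, rfl⟩ := hw
  have hz' : ‖z‖ < 1 := by simpa using hz
  exact (Complex.abs_re_le_norm _).trans (norm_lensMap_le hz'.le)

theorem im_lensInv_pos {w : ℂ} (hw : w ∈ lens) (h : 0 < w.im) : 0 < (lensInv w).im := by
  have h1 := im_mul_im_lensMap (norm_lensInv hw)
  rw [lensMap_lensInv hw] at h1
  rcases lt_trichotomy (lensInv w).im 0 with h2 | h2 | h2
  · nlinarith [mul_pos (neg_pos.2 h2) h, sq_nonneg (lensInv w).im]
  · exfalso
    have h3 : starRingEnd ℂ (lensInv w) = lensInv w := Complex.conj_eq_iff_im.2 h2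
    have h4 := lensMap_conj (lensInv w)
    rw [h3, lensMap_lensInv hw] at h4
    have := Complex.conj_eq_iff_im.1 h4.symm
    linarith
  · exact h2

theorem im_lensInv_zero {w : ℂ} (hw : w ∈ lens) (h : w.im = 0) : (lensInv w).im = 0 := by
  have h1 := im_mul_im_lensMap (norm_lensInv hw)
  rw [lensMap_lensInv hw, h] at h1
  nlinarith [sq_nonneg (lensInv w).im]

theorem im_lensInv_nonneg {w : ℂ} (hw : w ∈ lens) (h : 0 ≤ w.im) : 0 ≤ (lensInv w).im := by
  rcases h.eq_or_lt with h | h
  · exact (im_lensInv_zero hw h.symm).ge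
  · exact (im_lensInv_pos hw h).le

theorem isCompact_image {r : ℝ} (hr : r ≤ 1) : IsCompact (lensMap '' closedBall 0 r) :=
  (isCompact_closedBall 0 r).image_of_continuousOn
    (continuousOn_lensMap.mono (closedBall_subset_closedBall hr))

theorem mem_image_iff {r : ℝ} (hr : r < 1) {w : ℂ} :
    w ∈ lensMap '' closedBall 0 r ↔ w ∈ lens ∧ ‖lensInv w‖ ≤ r := by
  constructor
  · rintro ⟨z, hz, rfl⟩
    have hz' : ‖z‖ ≤ r := by simpa using hz
    exact ⟨lensMap_mem (hz'.trans_lt hr), by rwa [lensInv_lensMap (hz'.trans_lt hr)]⟩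
  · rintro ⟨h1, h2⟩
    exact ⟨lensInv w, by simpa using h2, lensMap_lensInv h1⟩

/-- The point with real part `u` and imaginary part `s`. -/
def pt (u s : ℝ) : ℂ := (u : ℂ) + (s : ℂ) * Complex.I

@[simp] theorem pt_re (u s : ℝ) : (pt u s).re = u := by simp [pt]

@[simp] theorem pt_im (u s : ℝ) : (pt u s).im = s := by simp [pt]

theorem continuous_pt (u : ℝ) : Continuous (pt u) := by
  unfold pt; fun_prop

theorem conj_pt (u s : ℝ) : starRingEnd ℂ (pt u s) = pt u (-s) := by
  apply Complex.ext <;> simp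

theorem hasDerivAt_comp_pt {Φ : ℂ → ℂ} {Φ' : ℂ} {u s : ℝ} (h : HasDerivAt Φ Φ' (pt u s)) :
    HasDerivAt (fun s : ℝ => Φ (pt u s)) (Φ' * Complex.I) s := by
  have h1 : HasDerivAt (fun w : ℂ => (u : ℂ) + w * Complex.I) Complex.I (s : ℂ) := by
    simpa using ((hasDerivAt_id (s : ℂ)).mul_const Complex.I).const_add (u : ℂ)
  exact (HasDerivAt.comp (s : ℂ) (h₂ := Φ) h h1).comp_ofReal

theorem hasDerivAt_re {f : ℝ → ℂ} {f' : ℂ} {t : ℝ} (hf : HasDerivAt f f' t) :
    HasDerivAt (fun t => (f t).re) f'.re t :=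
  Complex.reCLM.hasFDerivAt.comp_hasDerivAt t hf

theorem hasDerivAt_im {f : ℝ → ℂ} {f' : ℂ} {t : ℝ} (hf : HasDerivAt f f' t) :
    HasDerivAt (fun t => (f t).im) f'.im t :=
  Complex.imCLM.hasFDerivAt.comp_hasDerivAt t hf

theorem hasDerivAt_normSq {f : ℝ → ℂ} {f' : ℂ} {t : ℝ} (hf : HasDerivAt f f' t) :
    HasDerivAt (fun t => Complex.normSq (f t)) (2 * (starRingEnd ℂ (f t) * f').re) t := by
  have h := ((hasDerivAt_re hf).mul (hasDerivAt_re hf)).add
    ((hasDerivAt_im hf).mul (hasDerivAt_im hf))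
  refine (h.congr_deriv ?_).congr_of_eventuallyEq (Eventually.of_forall fun t => ?_)
  · simp; ring
  · simp [Complex.normSq_apply]

theorem hasDerivAt_normSq_pt {u s : ℝ} (h : pt u s ∈ lens) :
    HasDerivAt (fun s : ℝ => Complex.normSq (lensInv (pt u s)))
      (2 * (lensInv (pt u s) * lensDer (lensInv (pt u s))).im
        / Complex.normSq (lensDer (lensInv (pt u s)))) s := by
  refine (hasDerivAt_normSq (hasDerivAt_comp_pt (hasDerivAt_lensInv h))).congr_deriv ?_
  have h0 := (Complex.normSq_pos.2 (lensDer_ne (norm_lensInv h))).ne'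
  simp only [Complex.mul_re, Complex.mul_im, Complex.conj_re, Complex.conj_im, Complex.inv_re,
    Complex.inv_im, Complex.I_re, Complex.I_im]
  field_simp
  ring

theorem hasDerivAt_im_pt {u s : ℝ} (h : pt u s ∈ lens) :
    HasDerivAt (fun s : ℝ => (lensInv (pt u s)).im)
      ((lensDer (lensInv (pt u s))).re / Complex.normSq (lensDer (lensInv (pt u s)))) s := by
  refine (hasDerivAt_im (hasDerivAt_comp_pt (hasDerivAt_lensInv h))).congr_deriv ?_
  simp [Complex.mul_im]

theorem im_H_pos {z : ℂ} (hz : ‖z‖ < 1) (h : 0 < z.im) : 0 < (z * lensDer z).im := by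
  rw [im_mul_lensDer hz]
  have : 0 < 2 * z.im / (1 - Complex.normSq z) :=
    div_pos (by linarith) (by linarith [normSq_lt_one hz])
  have := arctan_pos.2 this
  linarith

theorem im_H_nonneg {z : ℂ} (hz : ‖z‖ < 1) (h : 0 ≤ z.im) : 0 ≤ (z * lensDer z).im := by
  rw [im_mul_lensDer hz]
  have : 0 ≤ 2 * z.im / (1 - Complex.normSq z) :=
    div_nonneg (by linarith) (by linarith [normSq_lt_one hz])
  have := arctan_nonneg.2 this
  linarith

/-- Vertical sections of the sublevel sets are star shaped about the real axis. -/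
theorem vertical {u v : ℝ} (hw : pt u v ∈ lens) {s : ℝ} (hs : s ∈ Icc 0 v) :
    pt u s ∈ lens ∧ ‖lensInv (pt u s)‖ ≤ ‖lensInv (pt u v)‖ := by
  set r := ‖lensInv (pt u v)‖ with hr
  have hr1 : r < 1 := norm_lensInv hw
  let S : Set ℝ := {t | pt u (v - t) ∈ lensMap '' closedBall 0 r}
  have hcl : IsClosed S :=
    (isCompact_image hr1.le).isClosed.preimage ((continuous_pt u).comp (by fun_prop))
  have hsub : Icc 0 v ⊆ S := by
    apply IsClosed.Icc_subset_of_forall_mem_nhdsWithin (hcl.inter isClosed_Icc)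
    · show pt u (v - 0) ∈ lensMap '' closedBall 0 r
      rw [sub_zero, mem_image_iff hr1]
      exact ⟨hw, le_rfl⟩
    · rintro t ⟨ht, ht0, htv⟩
      obtain ⟨h1, h2⟩ := (mem_image_iff hr1).1 ht
      have hd := hasDerivAt_normSq_pt h1
      have hd2 : HasDerivAt (fun t : ℝ => v - t) (-1) t := by
        simpa using (hasDerivAt_id t).const_sub v
      have hd3 := HasDerivAt.comp t (h₂ := fun s : ℝ => Complex.normSq (lensInv (pt u s))) hd hd2
      have hneg : 2 * (lensInv (pt u (v - t)) * lensDer (lensInv (pt u (v - t)))).im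
          / Complex.normSq (lensDer (lensInv (pt u (v - t)))) * (-1) < 0 := by
        have a1 := im_H_pos (norm_lensInv h1) (im_lensInv_pos h1 (by simpa using htv))
        have a2 := Complex.normSq_pos.2 (lensDer_ne (norm_lensInv h1))
        have : 0 < 2 * (lensInv (pt u (v - t)) * lensDer (lensInv (pt u (v - t)))).im
          / Complex.normSq (lensDer (lensInv (pt u (v - t)))) := by positivity
        linarith
      have hsl := (hasDerivAt_iff_tendsto_slope.1 hd3).eventually (gt_mem_nhds hneg)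
      have hsl2 := hsl.filter_mono (nhdsGT_le_nhdsNE t)
      have hop : ∀ᶠ t' in 𝓝[>] t, pt u (v - t') ∈ lens := by
        apply Eventually.filter_mono nhdsWithin_le_nhds
        exact (((continuous_pt u).comp (by fun_prop : Continuous fun t : ℝ => v - t)).continuousAt
          (x := t)).eventually (isOpen_lens.mem_nhds h1)
      filter_upwards [hsl2, hop, self_mem_nhdsWithin] with t' a1 a2 a3
      show pt u (v - t') ∈ lensMap '' closedBall 0 r
      rw [mem_image_iff hr1]
      refine ⟨a2, le_trans ?_ h2⟩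
      rw [slope_def_field, div_neg_iff] at a1
      have a4 : 0 < t' - t := sub_pos.2 a3
      rcases a1 with a1 | a1
      · linarith [a1.2]
      · have a5 := a1.1
        simp only [Function.comp_apply, Complex.normSq_eq_norm_sq] at a5
        exact le_of_sq_le_sq (by linarith) (norm_nonneg _)
  have := hsub (show v - s ∈ Icc 0 v from ⟨by linarith [hs.2], by linarith [hs.1]⟩)
  have h2 : pt u (v - (v - s)) ∈ lensMap '' closedBall 0 r := this
  rw [sub_sub_cancel, mem_image_iff hr1] at h2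
  exact h2

theorem vertical_abs {u v : ℝ} (hw : pt u v ∈ lens) {s : ℝ} (hs : |s| ≤ |v|) :
    pt u s ∈ lens ∧ ‖lensInv (pt u s)‖ ≤ ‖lensInv (pt u v)‖ := by
  have key : ∀ t : ℝ, pt u t ∈ lens → pt u |t| ∈ lens ∧ ‖lensInv (pt u |t|)‖ = ‖lensInv (pt u t)‖ := by
    intro t ht
    rcases abs_choice t with h | h
    · rw [h]; exact ⟨ht, rfl⟩
    · rw [h, ← conj_pt]
      exact ⟨conj_mem_lens ht, by rw [lensInv_conj ht]; simp⟩
  obtain ⟨h1, h2⟩ := key v hw
  obtain ⟨h3, h4⟩ := vertical h1 (s := |s|) ⟨abs_nonneg _, hs⟩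
  rw [h2] at h4
  rcases abs_choice s with h | h
  · rw [h] at h3 h4; exact ⟨h3, h4⟩
  · have h5 : s = -|s| := by rw [h]; ring
    rw [h5, ← conj_pt]
    exact ⟨conj_mem_lens h3, by rw [lensInv_conj h3]; simpa using h4⟩

/-- Away from the two tips and inside the cusp region, the inverse map stays in a smaller disc. -/
theorem exists_radius {c T : ℝ} (hc0 : 0 ≤ c) (hc : c < π ^ 2 / 8) (hT : 0 ≤ T) :
    ∃ r₀ : ℝ, 0 ≤ r₀ ∧ r₀ < 1 ∧ ∀ z : ℂ, ‖z‖ < 1 → |(lensMap z).re| ≤ c → 0 ≤ z.im →
      2 * z.im ≤ T * (1 - Complex.normSq z) → ‖z‖ ≤ r₀ := by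
  let A : Set ℂ := (closedBall 0 1 ∩ (fun z => |(lensMap z).re|) ⁻¹' Iic c)
    ∩ ({z | 0 ≤ z.im} ∩ {z | 2 * z.im ≤ T * (1 - Complex.normSq z)})
  have hA : IsCompact A := by
    apply IsCompact.inter_right
    · apply (isCompact_closedBall (0 : ℂ) 1).of_isClosed_subset _ inter_subset_left
      apply ContinuousOn.preimage_isClosed_of_isClosed _ isClosed_closedBall isClosed_Iic
      exact (Complex.continuous_re.comp_continuousOn continuousOn_lensMap).abs
    · exact (isClosed_le continuous_const Complex.continuous_im).inter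
        (isClosed_le (by fun_prop) (continuous_const.mul
          (continuous_const.sub Complex.continuous_normSq)))
  have hne : A.Nonempty := ⟨0, ⟨by simp, by simpa [lensMap_zero] using hc0⟩, by simp, by simpa⟩
  obtain ⟨z₀, hz₀, hmax⟩ := hA.exists_isMaxOn hne continuous_norm.continuousOn
  refine ⟨‖z₀‖, norm_nonneg _, ?_, fun z h1 h2 h3 h4 => hmax ⟨⟨by simpa using h1.le, h2⟩, h3, h4⟩⟩
  obtain ⟨⟨h1, h2⟩, h3, h4⟩ := hz₀
  have h1' : ‖z₀‖ ≤ 1 := by simpa using h1
  rcases h1'.eq_or_lt with h | h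
  · exfalso
    have h5 : Complex.normSq z₀ = 1 := by rw [Complex.normSq_eq_norm_sq, h]; norm_num
    have h3' : 0 ≤ z₀.im := h3
    have h4' : 2 * z₀.im ≤ T * (1 - Complex.normSq z₀) := h4
    have h2' : |(lensMap z₀).re| ≤ c := h2
    rw [h5] at h4'
    have h6 : z₀.im = 0 := by linarith
    rw [Complex.normSq_apply, h6] at h5
    have h7 : (z₀.re - 1) * (z₀.re + 1) = 0 := by linarith
    have hpos : (0 : ℝ) ≤ π ^ 2 / 8 := by positivity
    rcases mul_eq_zero.1 h7 with h8 | h8
    · have : z₀ = 1 := Complex.ext (by simpa using sub_eq_zero.1 h8) (by simpa using h6)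
      rw [this, lensMap_one, Complex.ofReal_re, abs_of_nonneg hpos] at h2'
      linarith
    · have : z₀ = -1 := Complex.ext (by simpa using eq_neg_of_add_eq_zero_left h8)
        (by simpa using h6)
      rw [this, lensMap_neg, lensMap_one, Complex.neg_re, Complex.ofReal_re, abs_neg,
        abs_of_nonneg hpos] at h2'
      linarith
  · exact h

end Vale.Agent.P248
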