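import Vale.Agent.P248.Mono

/-! The lower bound for the mass. -/

namespace Vale.Agent.P248

open Set Filter Topology Metric MeasureTheory Matrix Real

theorem layer_cake {X : Type*} [MeasurableSpace X] (μ : Measure X) [SFinite μ] {ρ : X → ℝ}
    {W : X → ENNReal} (hρ : Measurable ρ) (hW : Measurable W) (h0 : ∀ x, 0 ≤ ρ x) (n : ℕ)
    (B : ENNReal) (h : ∀ s, 0 < s → ∫⁻ x in {x | ρ x < s}, W x ∂μ ≤ ENNReal.ofReal (s ^ n) * B) :
    ∫⁻ x, W x * ENNReal.ofReal (exp (-ρ x)) ∂μ ≤ (n.factorial : ENNReal) * B := by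
  let f : X → ℝ → ENNReal := fun x s =>
    {p : X × ℝ | ρ p.1 < p.2}.indicator (fun p => W p.1 * ENNReal.ofReal (exp (-p.2))) (x, s)
  have hf : Measurable (Function.uncurry f) := by
    apply Measurable.indicator
    · exact (hW.comp measurable_fst).mul (by fun_prop)
    · exact measurableSet_lt (hρ.comp measurable_fst) measurable_snd
  have h1 : ∀ x, W x * ENNReal.ofReal (exp (-ρ x)) = ∫⁻ s in Ioi (0 : ℝ), f x s := by
    intro x
    have e1 : f x = (Ioi (ρ x)).indicator fun s => W x * ENNReal.ofReal (exp (-s)) := by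
      funext s
      simp only [f, indicator, mem_ofPred_eq, mem_Ioi]
    rw [e1, lintegral_indicator measurableSet_Ioi, Measure.restrict_restrict measurableSet_Ioi,
      inter_eq_left.2 (Ioi_subset_Ioi (h0 x)), lintegral_const_mul _ (by fun_prop),
      ← ofReal_integral_eq_lintegral_ofReal (integrableOn_exp_neg_Ioi _)
        (Eventually.of_forall fun s => (exp_pos _).le), integral_exp_neg_Ioi]
  simp only [h1]
  rw [lintegral_lintegral_swap hf.aemeasurable]
  have h2 : ∀ s ∈ Ioi (0 : ℝ), ∫⁻ x, f x s ∂μ ≤ ENNReal.ofReal (exp (-s) * s ^ n) * B := by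
    intro s hs
    have e1 : (fun x => f x s) = {x | ρ x < s}.indicator
        fun x => W x * ENNReal.ofReal (exp (-s)) := by
      funext x
      simp only [f, indicator, mem_ofPred_eq]
    rw [e1, lintegral_indicator (measurableSet_lt hρ measurable_const),
      lintegral_mul_const _ hW, ENNReal.ofReal_mul (exp_pos _).le, mul_comm, mul_assoc]
    gcongr
    exact h s hs
  refine (setLIntegral_mono' measurableSet_Ioi h2).trans ?_
  rw [lintegral_mul_const _ (by fun_prop)]
  gcongr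
  have h3 := Real.GammaIntegral_convergent (s := n + 1) (by positivity)
  have h4 := Real.Gamma_eq_integral (s := n + 1) (by positivity)
  simp only [add_sub_cancel_right, rpow_natCast] at h3 h4
  rw [← ofReal_integral_eq_lintegral_ofReal h3, ← h4, Real.Gamma_nat_eq_factorial]
  · simp
  · filter_upwards [ae_restrict_mem measurableSet_Ioi] with s hs
    have : 0 < s := hs
    positivity

theorem integral_plane (k : ℕ) {ε : ℝ} (hε : 0 < ε) :
    ∫ p : ℝ × ℝ, 4 * (k + 1) ^ 2 * Complex.normSq (pt (ε * p.1) (ε * p.2)) ^ k * ε ^ 2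
      * exp (-Complex.normSq (pt (ε * p.1) (ε * p.2)) ^ (k + 1)) = 4 * π * (k + 1) := by
  rw [← Complex.volume_preserving_equiv_real_prod.integral_comp']
  have h := Complex.integral_rpow_mul_exp_neg_mul_rpow (p := 2 * (k + 1)) (q := 2 * k)
    (b := (ε ^ 2) ^ (k + 1)) (by have : (0 : ℝ) ≤ k := Nat.cast_nonneg k; linarith)
    (by have : (0 : ℝ) ≤ k := Nat.cast_nonneg k; linarith) (by positivity)
  have e1 : (2 * (k : ℝ) + 2) / (2 * (k + 1)) = 1 := by field_simp
  have e2 : -(2 * (k : ℝ) + 2) / (2 * (k + 1)) = -1 := by field_simp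
  rw [e1, e2, Real.Gamma_one, Real.rpow_neg_one] at h
  have e3 : ∀ z : ℂ, 4 * ((k : ℝ) + 1) ^ 2 * Complex.normSq (pt (ε * z.re) (ε * z.im)) ^ k * ε ^ 2
      * exp (-Complex.normSq (pt (ε * z.re) (ε * z.im)) ^ (k + 1))
      = (4 * ((k : ℝ) + 1) ^ 2 * (ε ^ 2) ^ (k + 1)) * (‖z‖ ^ (2 * k : ℝ)
        * exp (-(ε ^ 2) ^ (k + 1) * ‖z‖ ^ (2 * (k + 1) : ℝ))) := by
    intro z
    have a1 : Complex.normSq (pt (ε * z.re) (ε * z.im)) = ε ^ 2 * ‖z‖ ^ 2 := by
      rw [← Complex.normSq_eq_norm_sq]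
      simp [Complex.normSq_apply]
      ring
    have a2 : ‖z‖ ^ (2 * k : ℝ) = (‖z‖ ^ 2) ^ k := by
      rw [← pow_mul, ← rpow_natCast]; push_cast; rfl
    have a3 : ‖z‖ ^ (2 * (k + 1) : ℝ) = (‖z‖ ^ 2) ^ (k + 1) := by
      rw [← pow_mul, ← rpow_natCast]; push_cast; rfl
    rw [a1, a2, a3, mul_pow, mul_pow, neg_mul]
    ring
  simp only [Complex.measurableEquivRealProd_apply, e3]
  rw [integral_const_mul, h]
  field_simp
  try ring

variable {n : ℕ} {κ : Type*} [Fintype κ]

/-- The family of linear forms. -/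
def fam (ε : ℝ) (ζ : κ → Fin n → ℝ) : Fin n ⊕ κ → Fin n → ℝ :=
  Sum.elim (fun j => Pi.single j ε) ζ

/-- The exponents. -/
def ex (n : ℕ) (κ : Type*) (k : ℕ) : Fin n ⊕ κ → ℕ := Sum.elim (fun _ => k) fun _ => k + 1

/-- The holomorphic functions. -/
noncomputable def pows (n : ℕ) (κ : Type*) (k : ℕ) (i : Fin n ⊕ κ) : ℂ → ℂ :=
  lensPow (ex n κ k i)

theorem lin_single (ε : ℝ) (j : Fin n) (z : Cx n) :
    lin (Pi.single j ε) z = pt (ε * z.1 j) (ε * z.2 j) := by
  simp [lin]

/-- Model potential. -/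
noncomputable def rhoZero (ε : ℝ) (k : ℕ) (z : Cx n) : ℝ :=
  ∑ j, Complex.normSq (pt (ε * z.1 j) (ε * z.2 j)) ^ (k + 1)

/-- Model density. -/
noncomputable def detZero (ε : ℝ) (k : ℕ) (z : Cx n) : ℝ :=
  ∏ j, 4 * (k + 1) ^ 2 * Complex.normSq (pt (ε * z.1 j) (ε * z.2 j)) ^ k * ε ^ 2

theorem continuous_rhoZero (ε : ℝ) (k : ℕ) : Continuous (rhoZero (n := n) ε k) := by
  unfold rhoZero pt
  refine continuous_finsetSum _ fun j _ => ?_
  exact (Complex.continuous_normSq.comp (by fun_prop)).pow _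

theorem continuous_detZero (ε : ℝ) (k : ℕ) : Continuous (detZero (n := n) ε k) := by
  unfold detZero pt
  refine continuous_finsetProd _ fun j _ => ?_
  exact (continuous_const.mul ((Complex.continuous_normSq.comp (by fun_prop)).pow _)).mul
    continuous_const

theorem detZero_nonneg (ε : ℝ) (k : ℕ) (z : Cx n) : 0 ≤ detZero ε k z :=
  Finset.prod_nonneg fun j _ => by
    have := Complex.normSq_nonneg (pt (ε * z.1 j) (ε * z.2 j))
    positivity

theorem integral_model (k : ℕ) {ε : ℝ} (hε : 0 < ε) :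
    ∫ z : Cx n, detZero ε k z * exp (-rhoZero ε k z) = (4 * π * (k + 1)) ^ n := by
  rw [← (volume_measurePreserving_arrowProdEquivProdArrow ℝ ℝ (Fin n)).integral_comp']
  have h := integral_fintype_prod_volume_eq_pow (ι := Fin n) (fun p : ℝ × ℝ =>
    4 * (k + 1) ^ 2 * Complex.normSq (pt (ε * p.1) (ε * p.2)) ^ k * ε ^ 2
      * exp (-Complex.normSq (pt (ε * p.1) (ε * p.2)) ^ (k + 1)))
  rw [integral_plane k hε, Fintype.card_fin] at h
  rw [← h]
  congr 1
  funext x
  rw [Finset.prod_mul_distrib, ← exp_sum, Finset.sum_neg_distrib]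
  rfl

theorem lintegral_model (k : ℕ) {ε : ℝ} (hε : 0 < ε) :
    ∫⁻ z : Cx n, ENNReal.ofReal (detZero ε k z) * ENNReal.ofReal (exp (-rhoZero ε k z))
      = ENNReal.ofReal ((4 * π * (k + 1)) ^ n) := by
  have h := integral_model (n := n) k hε
  have hi : Integrable fun z : Cx n => detZero ε k z * exp (-rhoZero ε k z) :=
    Integrable.of_integral_ne_zero (by rw [h]; positivity)
  rw [← h, ofReal_integral_eq_lintegral_ofReal hi
    (Eventually.of_forall fun z => mul_nonneg (detZero_nonneg ε k z) (exp_pos _).le)]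
  congr 1
  funext z
  rw [ENNReal.ofReal_mul (detZero_nonneg ε k z)]

theorem tendsto_quot (w : ℂ) :
    Tendsto (fun t : ℝ => Complex.normSq (lensInv ((t : ℂ) * w)) / t ^ 2) (𝓝[>] 0)
      (𝓝 (Complex.normSq w)) := by
  have h1 := hasDerivAt_line (hasDerivAt_lensInv zero_mem_lens) w
  rw [lensInv_zero, lensDer_zero, inv_one, one_mul, hasDerivAt_iff_tendsto_slope_zero] at h1
  have h2 := (Complex.continuous_normSq.tendsto w).comp (h1.mono_left (nhdsGT_le_nhdsNE 0))
  refine h2.congr fun t => ?_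
  simp [lensInv_zero, div_eq_inv_mul, sq]

theorem tendsto_quot_pow (w : ℂ) (k d : ℕ) :
    Tendsto (fun t : ℝ => Complex.normSq (lensInv ((t : ℂ) * w)) ^ (k + d) / (t ^ 2) ^ k) (𝓝[>] 0)
      (𝓝 (Complex.normSq w ^ (k + d) * 0 ^ d)) := by
  have h1 : Tendsto (fun t : ℝ => (t ^ 2) ^ d) (𝓝[>] 0) (𝓝 (0 ^ d)) := by
    apply tendsto_nhdsWithin_of_tendsto_nhds
    have : Continuous fun t : ℝ => (t ^ 2) ^ d := by fun_prop
    simpa using this.tendsto 0
  refine (((tendsto_quot w).pow (k + d)).mul h1).congr' ?_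
  filter_upwards [self_mem_nhdsWithin] with t ht
  have : t ≠ 0 := ne_of_gt ht
  rw [div_pow, pow_add (t ^ 2)]
  field_simp

theorem tendsto_scale (w : ℂ) : Tendsto (fun t : ℝ => (t : ℂ) * w) (𝓝[>] 0) (𝓝 0) := by
  apply tendsto_nhdsWithin_of_tendsto_nhds
  have : Continuous fun t : ℝ => (t : ℂ) * w := by fun_prop
  simpa using this.tendsto 0

theorem tendsto_lap_quot (w : ℂ) (k d : ℕ) :
    Tendsto (fun t : ℝ => lap (lensPow (k + d)) ((t : ℂ) * w) / (t ^ 2) ^ k) (𝓝[>] 0)
      (𝓝 (4 * ((k + d : ℕ) + 1) ^ 2 * (Complex.normSq w ^ (k + d) * 0 ^ d))) := by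
  have h1 : Tendsto (fun t : ℝ => Complex.normSq (lensDer (lensInv ((t : ℂ) * w)))) (𝓝[>] 0)
      (𝓝 1) := by
    have a1 : Tendsto (fun t : ℝ => lensInv ((t : ℂ) * w)) (𝓝[>] 0) (𝓝 0) := by
      have := (hasDerivAt_lensInv zero_mem_lens).continuousAt.tendsto.comp (tendsto_scale w)
      rwa [lensInv_zero] at this
    have a2 := (analyticAt_lensDer (z := 0) (by simp)).continuousAt.tendsto.comp a1
    rw [lensDer_zero] at a2
    simpa [Function.comp_def] using (Complex.continuous_normSq.tendsto 1).comp a2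
  have h2 := ((tendsto_quot_pow w k d).const_mul (4 * (((k + d : ℕ) : ℝ) + 1) ^ 2)).div h1
    one_ne_zero
  rw [div_one] at h2
  refine h2.congr' ?_
  filter_upwards [(tendsto_scale w).eventually (isOpen_lens.mem_nhds zero_mem_lens)] with t ht
  rw [lap_lensPow _ ht, Pi.div_apply]
  ring

theorem tendsto_rho (ε : ℝ) (ζ : κ → Fin n → ℝ) (k : ℕ) (z : Cx n) :
    Tendsto (fun t : ℝ => rho (fam ε ζ) (pows n κ k) (t • z) / (t ^ 2) ^ (k + 1)) (𝓝[>] 0)
      (𝓝 (rhoZero ε k z)) := by
  simp only [rho, Fintype.sum_sum_type, add_div, Finset.sum_div, lin_smul, pows, normSq_lensPow]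
  rw [← add_zero (rhoZero ε k z)]
  refine Tendsto.add (tendsto_finsetSum _ fun j _ => ?_) ?_
  · have := tendsto_quot_pow (lin (Pi.single j ε) z) (k + 1) 0
    simpa [lin_single, fam, ex] using this
  · have : (0 : ℝ) = ∑ _i : κ, 0 := by simp
    rw [this]
    refine tendsto_finsetSum _ fun i _ => ?_
    have := tendsto_quot_pow (lin (ζ i) z) (k + 1) 1
    simpa [fam, ex] using this

theorem gram_div {ι : Type*} [Fintype ι] (η : ι → Fin n → ℝ) (a : ι → ℝ) (c : ℝ) :
    gram η (fun i => a i / c) = c⁻¹ • gram η a := by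
  ext k l
  simp only [gram, of_apply, Matrix.smul_apply, smul_eq_mul, Finset.mul_sum]
  exact Finset.sum_congr rfl fun _ _ => by ring

theorem tendsto_det (ε : ℝ) (ζ : κ → Fin n → ℝ) (k : ℕ) (z : Cx n) :
    Tendsto (fun t : ℝ => (((t ^ 2) ^ k)⁻¹) ^ n * (mat (fam ε ζ) (pows n κ k) (t • z)).det)
      (𝓝[>] 0) (𝓝 (detZero ε k z)) := by
  let a : Fin n ⊕ κ → ℝ := Sum.elim
    (fun j => 4 * (k + 1) ^ 2 * Complex.normSq (pt (ε * z.1 j) (ε * z.2 j)) ^ k) fun _ => 0
  have h1 : Tendsto (fun t : ℝ => fun i => lap (pows n κ k i) (lin (fam ε ζ i) (t • z))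
      / (t ^ 2) ^ k) (𝓝[>] 0) (𝓝 a) := by
    rw [tendsto_pi_nhds]
    rintro (j | i)
    · have := tendsto_lap_quot (lin (Pi.single j ε) z) k 0
      simpa [lin_single, fam, ex, pows, lin_smul, a, ← lin_single] using this
    · have := tendsto_lap_quot (lin (ζ i) z) k 1
      simpa [fam, ex, pows, lin_smul, a] using this
  have h2 : Continuous fun b : Fin n ⊕ κ → ℝ => (gram (fam ε ζ) b).det := by
    apply Continuous.matrix_det
    rw [← continuousOn_univ]
    exact continuousOn_gram (p := fun i (b : Fin n ⊕ κ → ℝ) => b i)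
      fun i => (continuous_apply i).continuousOn
  have h3 := (h2.tendsto a).comp h1
  have h4 : gram (fam ε ζ) a = diagonal fun j =>
      4 * (k + 1) ^ 2 * Complex.normSq (pt (ε * z.1 j) (ε * z.2 j)) ^ k * ε ^ 2 := by
    ext r l
    simp only [gram, of_apply, Fintype.sum_sum_type, a, fam, Sum.elim_inl, Sum.elim_inr, zero_mul,
      Finset.sum_const_zero, add_zero, diagonal_apply]
    rw [Finset.sum_eq_single r]
    · by_cases h : r = l
      · subst h
        simp
        ring
      · simp [h, Pi.single_apply, Ne.symm h]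
    · intro j _ hj
      simp [Pi.single_apply, Ne.symm hj]
    · simp
  rw [h4, det_diagonal] at h3
  refine h3.congr fun t => ?_
  simp only [Function.comp_apply, gram_div, det_smul, Fintype.card_fin, mat]

theorem measurable_density {ι : Type*} [Fintype ι] {η : ι → Fin n → ℝ} {Φ : ι → ℂ → ℂ}
    {Λ : Set ℂ} (hΛ : IsOpen Λ) (hΦ : ∀ i, DifferentiableOn ℂ (Φ i) Λ) (s : ℝ) :
    Measurable ((sub η Φ Λ s).indicator fun z => ENNReal.ofReal (mat η Φ z).det) := by
  classical
  rw [← piecewise_eq_indicator]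
  refine ContinuousOn.measurable_piecewise ?_ continuousOn_const
    (isOpen_sub hΛ hΦ s).measurableSet
  exact ENNReal.continuous_ofReal.comp_continuousOn
    (((Continuous.matrix_det continuous_id).comp_continuousOn
      (continuousOn_mat hΛ hΦ)).mono inter_subset_left)

theorem model_le (ε : ℝ) (ζ : κ → Fin n → ℝ) (k : ℕ) {σ : ℝ} (hσ : 0 < σ) {B : ENNReal}
    (h : ∀ δ, 0 < δ → δ < σ → mass (fam ε ζ) (pows n κ k) lens δ ≤ ENNReal.ofReal (δ ^ n) * B)
    {s : ℝ} (hs : 0 < s) :
    ∫⁻ z in {z : Cx n | rhoZero ε k z < s}, ENNReal.ofReal (detZero ε k z)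
      ≤ ENNReal.ofReal (s ^ n) * B := by
  have := haar_cx (n := n)
  have hΦ : ∀ i, DifferentiableOn ℂ (pows n κ k i) lens := fun i => differentiableOn_lensPow _
  let g : ℝ → Cx n → ENNReal := fun t => (sub (fam ε ζ) (pows n κ k) lens
    (s * (t ^ 2) ^ (k + 1))).indicator fun z => ENNReal.ofReal (mat (fam ε ζ) (pows n κ k) z).det
  have hg : ∀ t, Measurable (g t) := fun t => measurable_density isOpen_lens hΦ _
  let f : ℝ → Cx n → ENNReal := fun t z =>
    ENNReal.ofReal ((((t ^ 2) ^ k)⁻¹) ^ n) * g t (t • z)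
  have hf : ∀ t, Measurable (f t) := fun t =>
    ((hg t).comp (measurable_const_smul t)).const_mul _
  have h1 := lintegral_liminf_le (μ := (volume : Measure (Cx n))) (u := 𝓝[>] (0 : ℝ)) hf
  have hm : MeasurableSet {z : Cx n | rhoZero ε k z < s} :=
    measurableSet_lt (continuous_rhoZero ε k).measurable measurable_const
  rw [← lintegral_indicator hm]
  refine le_trans (lintegral_mono fun z => ?_) (h1.trans ?_)
  · by_cases hz : z ∈ {z : Cx n | rhoZero ε k z < s}
    · rw [indicator_of_mem hz]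
      have a1 := (ENNReal.continuous_ofReal.tendsto _).comp (tendsto_det ε ζ k z)
      have a2 : Tendsto (fun t => f t z) (𝓝[>] 0) (𝓝 (ENNReal.ofReal (detZero ε k z))) := by
        refine a1.congr' ?_
        have b1 : ∀ᶠ t : ℝ in 𝓝[>] 0, t • z ∈ dom (fam ε ζ) lens := by
          have c1 : Tendsto (fun t : ℝ => t • z) (𝓝[>] 0) (𝓝 0) := by
            apply tendsto_nhdsWithin_of_tendsto_nhds
            have : Continuous fun t : ℝ => t • z := by fun_prop
            simpa using this.tendsto 0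
          refine c1.eventually ((isOpen_dom _ isOpen_lens).mem_nhds fun i => ?_)
          have : lin (fam ε ζ i) (0 : Cx n) = 0 := by
            apply Complex.ext <;> simp [lin]
          rw [this]
          exact zero_mem_lens
        filter_upwards [b1, (tendsto_rho ε ζ k z).eventually (gt_mem_nhds hz),
          self_mem_nhdsWithin] with t b2 b3 b4
        have b5 : 0 < t := b4
        rw [div_lt_iff₀ (by positivity)] at b3
        simp only [f, g, Function.comp_apply]
        rw [indicator_of_mem (show t • z ∈ sub _ _ _ _ from ⟨b2, b3⟩),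
          ENNReal.ofReal_mul (by positivity)]
      exact a2.liminf_eq.ge
    · rw [indicator_of_notMem hz]
      exact zero_le
  · apply liminf_le_of_frequently_le'
    apply Eventually.frequently
    have b1 : Tendsto (fun t : ℝ => s * (t ^ 2) ^ (k + 1)) (𝓝[>] 0) (𝓝 0) := by
      apply tendsto_nhdsWithin_of_tendsto_nhds
      have : Continuous fun t : ℝ => s * (t ^ 2) ^ (k + 1) := by fun_prop
      simpa using this.tendsto 0
    filter_upwards [b1.eventually (gt_mem_nhds hσ), self_mem_nhdsWithin] with t b2 b4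
    have b5 : 0 < t := b4
    have b6 := h _ (by positivity) b2
    have b7 : ∫⁻ z, g t (t • z) = ENNReal.ofReal ((t ^ (n + n))⁻¹)
        * mass (fam ε ζ) (pows n κ k) lens (s * (t ^ 2) ^ (k + 1)) := by
      rw [← lintegral_map (hg t) (measurable_const_smul t),
        Measure.map_addHaar_smul _ b5.ne', lintegral_smul_measure, smul_eq_mul,
        lintegral_indicator (isOpen_sub isOpen_lens hΦ _).measurableSet,
        abs_of_pos (by positivity)]
      simp [mass]
    simp only [f]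
    rw [lintegral_const_mul' _ _ ENNReal.ofReal_ne_top, b7]
    calc _ ≤ ENNReal.ofReal ((((t ^ 2) ^ k)⁻¹) ^ n) * (ENNReal.ofReal ((t ^ (n + n))⁻¹)
          * (ENNReal.ofReal ((s * (t ^ 2) ^ (k + 1)) ^ n) * B)) := by gcongr
      _ = _ := by
        rw [← mul_assoc, ← mul_assoc, ← ENNReal.ofReal_mul (by positivity),
          ← ENNReal.ofReal_mul (by positivity)]
        congr 2
        rw [mul_pow, inv_pow, pow_succ (t ^ 2), mul_pow, ← two_mul, pow_mul t 2 n]
        field_simp

theorem lower_bound {ε : ℝ} (hε : 0 < ε) (ζ : κ → Fin n → ℝ) (k : ℕ) {σ : ℝ} (hσ : 0 < σ)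
    {B : ENNReal}
    (h : ∀ δ, 0 < δ → δ < σ → mass (fam ε ζ) (pows n κ k) lens δ ≤ ENNReal.ofReal (δ ^ n) * B) :
    ENNReal.ofReal ((4 * π * (k + 1)) ^ n) ≤ (n.factorial : ENNReal) * B := by
  rw [← lintegral_model k hε]
  exact layer_cake _ (continuous_rhoZero ε k).measurable
    (ENNReal.measurable_ofReal.comp (continuous_detZero ε k).measurable)
    (fun z => Finset.sum_nonneg fun _ _ => pow_nonneg (Complex.normSq_nonneg _) _) n B
    fun s hs => model_le ε ζ k hσ h hs

end Vale.Agent.P248
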