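import Vale.Agent.P248.Finite

/-! The symmetric Mahler inequality. -/

namespace Vale.Agent.P248

open Set Filter Topology Metric MeasureTheory Matrix Real Pointwise

variable {n : ℕ}

/-- Polar body for the dot product. -/
def dotPolar (K : Set (Fin n → ℝ)) : Set (Fin n → ℝ) := {y | ∀ x ∈ K, y ⬝ᵥ x ≤ 1}

theorem abs_dot_le {K : Set (Fin n → ℝ)} (hsym : ∀ x ∈ K, -x ∈ K) {y x : Fin n → ℝ}
    (hy : y ∈ dotPolar K) (hx : x ∈ K) : |y ⬝ᵥ x| ≤ 1 := by
  have h1 := hy x hx
  have h2 := hy (-x) (hsym x hx)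
  rw [dotProduct_neg] at h2
  exact abs_le.2 ⟨by linarith, h1⟩

theorem bipolar {K : Set (Fin n → ℝ)} (hcl : IsClosed K) (hconv : Convex ℝ K) (h0 : 0 ∈ K)
    {x : Fin n → ℝ} (hx : ∀ y ∈ dotPolar K, y ⬝ᵥ x ≤ 1) : x ∈ K := by
  by_contra hxK
  obtain ⟨f, u, h1, h2⟩ := geometric_hahn_banach_closed_point hconv hcl hxK
  have hu : 0 < u := by simpa using h1 0 h0
  have key : ∀ a : Fin n → ℝ, (fun k => f (Pi.single k 1) / u) ⬝ᵥ a = f a / u := by
    intro a
    conv_rhs => rw [← Finset.univ_sum_single a, map_sum, Finset.sum_div]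
    refine Finset.sum_congr rfl fun k _ => ?_
    have : (Pi.single k (a k) : Fin n → ℝ) = a k • (Pi.single k 1 : Fin n → ℝ) := by
      rw [← Pi.single_smul']
      simp
    rw [this, map_smul, smul_eq_mul]
    ring
  have h3 := hx (fun k => f (Pi.single k 1) / u) fun a ha => by
    rw [key, div_le_one hu]
    exact (h1 a ha).le
  rw [key, div_le_one hu] at h3
  linarith

theorem ball_subset {K : Set (Fin n → ℝ)} (hconv : Convex ℝ K) (hint : (interior K).Nonempty)
    (hsym : ∀ x ∈ K, -x ∈ K) : ∃ δ, 0 < δ ∧ closedBall 0 δ ⊆ K := by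
  obtain ⟨a, ha⟩ := hint
  have h1 := hconv.combo_interior_self_mem_interior ha (hsym a (interior_subset ha))
    (a := 1 / 2) (b := 1 / 2) (by norm_num) (by norm_num) (by norm_num)
  rw [smul_neg, add_neg_cancel, mem_interior_iff_mem_nhds, Metric.nhds_basis_closedBall.mem_iff]
    at h1
  exact h1

theorem volume_dotPolar_ne_top {K : Set (Fin n → ℝ)} (hconv : Convex ℝ K)
    (hint : (interior K).Nonempty) (hsym : ∀ x ∈ K, -x ∈ K) : volume (dotPolar K) ≠ ⊤ := by
  obtain ⟨δ, hδ, h⟩ := ball_subset hconv hint hsym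
  have : dotPolar K ⊆ closedBall 0 (1 / δ) := by
    intro y hy
    rw [mem_closedBall, dist_zero_right, pi_norm_le_iff_of_nonneg (by positivity)]
    intro j
    have h1 := abs_dot_le hsym hy (x := Pi.single j δ) (h (by
      rw [mem_closedBall, dist_zero_right, Pi.norm_single, Real.norm_of_nonneg hδ.le]))
    rw [dotProduct_single, abs_mul, abs_of_pos hδ] at h1
    rw [Real.norm_eq_abs, le_div_iff₀ hδ]
    exact h1
  exact ((measure_mono this).trans_lt measure_closedBall_lt_top).ne

theorem mahler_pi (hn : 0 < n) {K : Set (Fin n → ℝ)} (hK : IsCompact K) (hconv : Convex ℝ K)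
    (hint : (interior K).Nonempty) (hsym : ∀ x ∈ K, -x ∈ K) :
    (4 : ℝ) ^ n ≤ n.factorial * ((volume K).toReal * (volume (dotPolar K)).toReal) := by
  obtain ⟨δ, hδ, hball⟩ := ball_subset hconv hint hsym
  have h0 : (0 : Fin n → ℝ) ∈ K := hball (mem_closedBall_self hδ.le)
  obtain ⟨R, hR, hRK⟩ := hK.isBounded.subset_closedBall_lt 0 0
  have hε : 0 < 1 / R := by positivity
  have hsingle : ∀ j, (Pi.single j (1 / R) : Fin n → ℝ) ∈ dotPolar K := by
    intro j x hx
    have h1 := hRK hx
    rw [mem_closedBall, dist_zero_right] at h1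
    have h2 := (le_abs_self _).trans ((norm_le_pi_norm x j).trans h1)
    rw [single_dotProduct, one_div, inv_mul_le_iff₀ hR]
    linarith
  have : Nonempty (dotPolar K) := ⟨⟨0, fun x _ => by simp⟩⟩
  obtain ⟨u, hu⟩ := TopologicalSpace.exists_dense_seq (dotPolar K)
  let A : ℕ → Set (Fin n → ℝ) := fun N => slab (fam (1 / R) fun i : Fin N => (u i).1) 1
  have hanti : Antitone A := by
    intro N M hNM x hx i
    rcases i with i | i
    · exact hx (Sum.inl i)
    · exact hx (Sum.inr (Fin.castLE hNM i))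
  have hA : ⋂ N, A N ⊆ K := by
    intro x hx
    apply bipolar hK.isClosed hconv h0
    intro y hy
    have h1 : ∀ i, (u i).1 ⬝ᵥ x ≤ 1 := fun i =>
      (le_abs_self _).trans (mem_iInter.1 hx (i + 1) (Sum.inr (Fin.last i)))
    have h2 : IsClosed {p : dotPolar K | p.1 ⬝ᵥ x ≤ 1} :=
      isClosed_le (by fun_prop) continuous_const
    exact hu.induction_on (p := fun p : dotPolar K => p.1 ⬝ᵥ x ≤ 1) ⟨y, hy⟩ h2 h1
  have htop := volume_dotPolar_ne_top hconv hint hsym
  have hlim := tendsto_measure_iInter_atTop (μ := (volume : Measure (Fin n → ℝ))) (s := A)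
    (fun N => (isClosed_slab _ _).measurableSet.nullMeasurableSet) hanti
    ⟨0, volume_slab_ne_top hε _⟩
  have hle : volume (⋂ N, A N) ≤ volume K := measure_mono hA
  have hKtop := hK.measure_lt_top (μ := (volume : Measure (Fin n → ℝ)))
  have hlim2 := (((ENNReal.tendsto_toReal (hle.trans_lt hKtop).ne).comp hlim).mul_const
    (volume (dotPolar K)).toReal).const_mul (n.factorial : ℝ)
  have h3 := ge_of_tendsto' hlim2 fun N => by
    have h := finite_mahler hn hε (fun i : Fin N => (u i).1) (B := dotPolar K) (fun c hc x hx => by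
      rw [comb_dot]
      refine le_trans (Finset.sum_le_sum fun i _ => ?_) hc
      have a1 : fam (1 / R) (fun i : Fin N => (u i).1) i ∈ dotPolar K := by
        rcases i with i | i
        · exact hsingle i
        · exact (u i).2
      have a2 := abs_dot_le hsym a1 hx
      refine (le_abs_self _).trans ?_
      rw [abs_mul]
      exact mul_le_of_le_one_right (abs_nonneg _) a2) htop
    rw [ENNReal.toReal_mul] at h
    exact h
  refine h3.trans ?_
  gcongr
  exact hKtop.ne

end Vale.Agent.P248
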