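import Vale.Agent.P248.Piola

/-! Monotonicity of the normalised Monge-Ampere mass of sublevel sets. -/

namespace Vale.Agent.P248

open Set Filter Topology Metric MeasureTheory Matrix

/-- Test function. -/
noncomputable def testFn (n k : ℕ) (δ s : ℝ) : ℝ :=
  if s ≤ δ then (δ ^ n)⁻¹ * (1 + n / (k + 1) * (1 - (s / δ) ^ (k + 1))) else (s ^ n)⁻¹

/-- Its derivative. -/
noncomputable def testDer (n k : ℕ) (δ s : ℝ) : ℝ := -n * s ^ k / max s δ ^ (n + k + 1)

theorem testFn_of_ge (n k : ℕ) {δ s : ℝ} (hδ : 0 < δ) (h : δ ≤ s) : testFn n k δ s = (s ^ n)⁻¹ := by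
  unfold testFn
  split_ifs with h1
  · rw [le_antisymm h1 h, div_self hδ.ne']
    simp
  · rfl

theorem continuous_testDer (n k : ℕ) {δ : ℝ} (hδ : 0 < δ) : Continuous (testDer n k δ) := by
  unfold testDer
  refine Continuous.div (by fun_prop) (by fun_prop) fun s => ?_
  have : 0 < max s δ := lt_max_of_lt_right hδ
  positivity

theorem hasDerivAt_testFn (n k : ℕ) {δ : ℝ} (hδ : 0 < δ) (s : ℝ) :
    HasDerivAt (testFn n k δ) (testDer n k δ s) s := by
  have hl : ∀ s, s ≤ δ → HasDerivAt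
      (fun s => (δ ^ n)⁻¹ * (1 + n / (k + 1) * (1 - (s / δ) ^ (k + 1)))) (testDer n k δ s) s := by
    intro s hs
    have h1 := (((((hasDerivAt_id s).div_const δ).pow (k + 1)).const_sub 1).const_mul
      ((n : ℝ) / (k + 1))).const_add 1 |>.const_mul (δ ^ n)⁻¹
    refine h1.congr_deriv ?_
    rw [testDer, max_eq_right hs, Nat.add_sub_cancel]
    simp only [id, div_pow]
    push_cast
    field_simp
    ring
  have hr : ∀ s, δ ≤ s → HasDerivAt (fun s : ℝ => (s ^ n)⁻¹) (testDer n k δ s) s := by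
    intro s hs
    have hs0 : 0 < s := hδ.trans_le hs
    have h1 := (hasDerivAt_pow n s).inv (by positivity)
    refine h1.congr_deriv ?_
    rw [testDer, max_eq_left hs]
    rcases n with _ | n
    · simp
    · rw [Nat.add_sub_cancel]
      field_simp
      ring
  rcases lt_trichotomy s δ with h | h | h
  · refine (hl s h.le).congr_of_eventuallyEq ?_
    filter_upwards [Iio_mem_nhds h] with t ht
    exact if_pos (le_of_lt ht)
  · subst h
    have h1 : HasDerivWithinAt (testFn n k s) (testDer n k s s) (Iic s) s :=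
      (hl s le_rfl).hasDerivWithinAt.congr (fun t ht => if_pos ht) (if_pos le_rfl)
    have h2 : HasDerivWithinAt (testFn n k s) (testDer n k s s) (Ici s) s :=
      (hr s le_rfl).hasDerivWithinAt.congr (fun t ht => testFn_of_ge n k hδ ht)
        (testFn_of_ge n k hδ le_rfl)
    have h3 := h1.union h2
    rwa [Iic_union_Ici, hasDerivWithinAt_univ] at h3
  · refine (hr s h.le).congr_of_eventuallyEq ?_
    filter_upwards [Ioi_mem_nhds h] with t ht
    exact testFn_of_ge n k hδ (le_of_lt ht)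

theorem test_weight (n k : ℕ) {δ : ℝ} (hδ : 0 < δ) (s : ℝ) :
    n * testFn n k δ s + s * testDer n k δ s
      = if s ≤ δ then n * (1 + n / (k + 1)) * ((δ ^ n)⁻¹ * (1 - (s / δ) ^ (k + 1))) else 0 := by
  unfold testFn testDer
  split_ifs with h
  · rw [max_eq_right h, div_pow]
    field_simp
    ring
  · have h' : δ < s := not_le.1 h
    have hs0 : 0 < s := hδ.trans h'
    rw [max_eq_left h'.le]
    field_simp
    ring

variable {n : ℕ} {ι : Type*} [Fintype ι]

/-- Sublevel set of the potential. -/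
def sub (η : ι → Fin n → ℝ) (Φ : ι → ℂ → ℂ) (Λ : Set ℂ) (s : ℝ) : Set (Cx n) :=
  dom η Λ ∩ rho η Φ ⁻¹' Iio s

variable {η : ι → Fin n → ℝ} {Φ : ι → ℂ → ℂ} {Λ : Set ℂ}

theorem isOpen_sub (hΛ : IsOpen Λ) (hΦ : ∀ i, DifferentiableOn ℂ (Φ i) Λ) (s : ℝ) :
    IsOpen (sub η Φ Λ s) :=
  (continuousOn_rho hΦ).isOpen_inter_preimage (isOpen_dom η hΛ) isOpen_Iio

theorem rho_nonneg (z : Cx n) : 0 ≤ rho η Φ z :=
  Finset.sum_nonneg fun _ _ => Complex.normSq_nonneg _

theorem mass_step [Nonempty ι] (hn : 0 < n) (hΛ : IsOpen Λ)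
    (hΦ : ∀ i, DifferentiableOn ℂ (Φ i) Λ)
    {C : Set (Cx n)} (hC : IsCompact C) (hCΩ : C ⊆ dom η Λ) {σ : ℝ}
    (hσ : ∀ z ∈ dom η Λ, z ∉ C → σ ≤ rho η Φ z) {δ δ' : ℝ} (h0 : 0 < δ') (h1 : δ' < δ)
    (h2 : δ < σ) (k : ℕ) :
    (δ ^ n)⁻¹ * (1 - (δ' / δ) ^ (k + 1)) * ∫ z in sub η Φ Λ δ', (mat η Φ z).det
      ≤ (σ ^ n)⁻¹ * ∫ z in sub η Φ Λ σ, (mat η Φ z).det := by
  have hδ : 0 < δ := h0.trans h1
  have hσ0 : 0 < σ := hδ.trans h2
  have key := integral_weight_nonpos hΛ hΦ hC hCΩ hσ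
    (θ := fun s => testFn n k δ s - testFn n k σ s)
    (θ' := fun s => testDer n k δ s - testDer n k σ s)
    (fun s => (hasDerivAt_testFn n k hδ s).sub (hasDerivAt_testFn n k hσ0 s))
    ((continuous_testDer n k hδ).sub (continuous_testDer n k hσ0))
    (fun s hs => ⟨by rw [testFn_of_ge n k hδ (h2.le.trans hs), testFn_of_ge n k hσ0 hs, sub_self],
      by rw [testDer, testDer, max_eq_left hs, max_eq_left (h2.le.trans hs), sub_self]⟩)
    (fun s hs => by
      rw [testDer, testDer, sub_nonpos, neg_mul, neg_div, neg_div, neg_le_neg_iff]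
      have : 0 < max s δ := lt_max_of_lt_right hδ
      gcongr)
  have hsub : ∀ s, s ≤ σ → sub η Φ Λ s ⊆ C := by
    intro s hs z hz
    by_contra hzC
    have := hσ z hz.1 hzC
    have h3 : rho η Φ z < s := hz.2
    linarith
  have c8 : ContinuousOn (fun z => (mat η Φ z).det) C :=
    ((Continuous.matrix_det continuous_id).comp_continuousOn
      (continuousOn_mat (η := η) hΛ hΦ)).mono hCΩ
  have i8 : IntegrableOn (fun z => (mat η Φ z).det) C := c8.integrableOn_compact hC
  have hm := fun s => (isOpen_sub (η := η) hΛ hΦ s).measurableSet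
  set A : ℝ := n * (1 + n / (k + 1)) with hA
  have hA0 : 0 < A := by
    have : (0 : ℝ) < n := by exact_mod_cast hn
    positivity
  have e1 : ∀ s, s ≤ σ → ∫ z in C, (sub η Φ Λ s).indicator (fun z => (mat η Φ z).det) z
      = ∫ z in sub η Φ Λ s, (mat η Φ z).det := by
    intro s hs
    rw [setIntegral_indicator (hm s), inter_eq_right.2 (hsub s hs)]
  have key2 : ∫ z in C, (A * ((δ ^ n)⁻¹ * (1 - (δ' / δ) ^ (k + 1)))
      * (sub η Φ Λ δ').indicator (fun z => (mat η Φ z).det) z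
      - A * (σ ^ n)⁻¹ * (sub η Φ Λ σ).indicator (fun z => (mat η Φ z).det) z) ≤ 0 := by
    refine le_trans (setIntegral_mono_on ?_ ?_ hC.measurableSet fun z hz => ?_) key
    · exact ((i8.indicator (hm _)).const_mul _).sub ((i8.indicator (hm _)).const_mul _)
    · have c0 := (continuousOn_rho (η := η) hΦ).mono hCΩ
      have hθc : ∀ δ : ℝ, 0 < δ → Continuous (testFn n k δ) := fun δ hδ =>
        continuous_iff_continuousAt.2 fun s => (hasDerivAt_testFn n k hδ s).continuousAt
      exact (((continuousOn_const.mul (((hθc δ hδ).comp_continuousOn c0).sub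
        ((hθc σ hσ0).comp_continuousOn c0))).add (c0.mul
        (((continuous_testDer n k hδ).comp_continuousOn c0).sub
        ((continuous_testDer n k hσ0).comp_continuousOn c0)))).mul c8).integrableOn_compact hC
    · have w1 := test_weight n k hδ (rho η Φ z)
      have w2 := test_weight n k hσ0 (rho η Φ z)
      have hW := det_mat_nonneg (η := η) (Φ := Φ) z
      have hρ := rho_nonneg (η := η) (Φ := Φ) z
      have a1 : A * ((δ ^ n)⁻¹ * (1 - (δ' / δ) ^ (k + 1)))
          * (sub η Φ Λ δ').indicator (fun z => (mat η Φ z).det) z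
          ≤ (n * testFn n k δ (rho η Φ z) + rho η Φ z * testDer n k δ (rho η Φ z))
            * (mat η Φ z).det := by
        rw [w1]
        by_cases hz1 : z ∈ sub η Φ Λ δ'
        · have h3 : rho η Φ z < δ' := hz1.2
          rw [indicator_of_mem hz1, if_pos (by linarith)]
          gcongr
        · rw [indicator_of_notMem hz1, mul_zero]
          apply mul_nonneg _ hW
          split_ifs with h3
          · have : (rho η Φ z / δ) ^ (k + 1) ≤ 1 :=
              pow_le_one₀ (by positivity) ((div_le_one hδ).2 h3)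
            have : 0 ≤ 1 - (rho η Φ z / δ) ^ (k + 1) := by linarith
            positivity
          · exact le_rfl
      have a2 : (n * testFn n k σ (rho η Φ z) + rho η Φ z * testDer n k σ (rho η Φ z))
            * (mat η Φ z).det
          ≤ A * (σ ^ n)⁻¹ * (sub η Φ Λ σ).indicator (fun z => (mat η Φ z).det) z := by
        rw [w2]
        by_cases hz1 : z ∈ sub η Φ Λ σ
        · have h3 : rho η Φ z < σ := hz1.2
          rw [indicator_of_mem hz1, if_pos h3.le]
          apply mul_le_mul_of_nonneg_right _ hW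
          apply mul_le_mul_of_nonneg_left _ hA0.le
          apply mul_le_of_le_one_right (by positivity)
          have : 0 ≤ (rho η Φ z / σ) ^ (k + 1) := by positivity
          linarith
        · rw [indicator_of_notMem hz1, mul_zero]
          have h3 : σ ≤ rho η Φ z := by
            by_contra h4
            exact hz1 ⟨hCΩ hz, not_le.1 h4⟩
          split_ifs with h4
          · rw [le_antisymm h4 h3, div_self hσ0.ne']
            simp
          · simp
      nlinarith
  rw [integral_sub ((i8.indicator (hm _)).const_mul _) ((i8.indicator (hm _)).const_mul _),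
    integral_const_mul, integral_const_mul, e1 _ (by linarith), e1 _ le_rfl] at key2
  by_contra hc
  push Not at hc
  nlinarith [mul_lt_mul_of_pos_left hc hA0]

theorem mass_mono_real [Nonempty ι] (hn : 0 < n) (hΛ : IsOpen Λ)
    (hΦ : ∀ i, DifferentiableOn ℂ (Φ i) Λ)
    {C : Set (Cx n)} (hC : IsCompact C) (hCΩ : C ⊆ dom η Λ) {σ : ℝ}
    (hσ : ∀ z ∈ dom η Λ, z ∉ C → σ ≤ rho η Φ z) {δ : ℝ} (h0 : 0 < δ) (h2 : δ < σ) :
    ∫ z in sub η Φ Λ δ, (mat η Φ z).det
      ≤ δ ^ n * ((σ ^ n)⁻¹ * ∫ z in sub η Φ Λ σ, (mat η Φ z).det) := by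
  set V := ∫ z in sub η Φ Λ δ, (mat η Φ z).det
  set B := (σ ^ n)⁻¹ * ∫ z in sub η Φ Λ σ, (mat η Φ z).det
  have h3 : ∀ d, δ < d → d < σ → V ≤ d ^ n * B := by
    intro d hd1 hd2
    have hd : 0 < d := h0.trans hd1
    have hlim : Tendsto (fun k : ℕ => (d ^ n)⁻¹ * (1 - (δ / d) ^ (k + 1)) * V) atTop
        (𝓝 ((d ^ n)⁻¹ * (1 - 0) * V)) := by
      have := (tendsto_pow_atTop_nhds_zero_of_lt_one (r := δ / d) (by positivity)
        ((div_lt_one hd).2 hd1)).comp (tendsto_add_atTop_nat 1)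
      exact ((this.const_sub 1).const_mul _).mul_const _
    have h4 := le_of_tendsto' hlim fun k => mass_step hn hΛ hΦ hC hCΩ hσ h0 hd1 hd2 k
    rw [sub_zero, mul_one, inv_mul_le_iff₀ (by positivity)] at h4
    exact h4
  have hlim : Tendsto (fun d : ℝ => d ^ n * B) (𝓝[>] δ) (𝓝 (δ ^ n * B)) :=
    tendsto_nhdsWithin_of_tendsto_nhds (Continuous.tendsto (by fun_prop) δ)
  refine ge_of_tendsto hlim ?_
  filter_upwards [Ioo_mem_nhdsGT h2] with d hd
  exact h3 d hd.1 hd.2

/-- Mass of a sublevel set. -/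
noncomputable def mass (η : ι → Fin n → ℝ) (Φ : ι → ℂ → ℂ) (Λ : Set ℂ) (s : ℝ) : ENNReal :=
  ∫⁻ z in sub η Φ Λ s, ENNReal.ofReal (mat η Φ z).det

theorem mass_mono [Nonempty ι] (hn : 0 < n) (hΛ : IsOpen Λ)
    (hΦ : ∀ i, DifferentiableOn ℂ (Φ i) Λ)
    {C : Set (Cx n)} (hC : IsCompact C) (hCΩ : C ⊆ dom η Λ) {σ : ℝ}
    (hσ : ∀ z ∈ dom η Λ, z ∉ C → σ ≤ rho η Φ z) {δ : ℝ} (h0 : 0 < δ) (h2 : δ < σ) :
    mass η Φ Λ δ ≤ ENNReal.ofReal (δ ^ n) * (ENNReal.ofReal (σ ^ n)⁻¹ * mass η Φ Λ σ) := by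
  have hsub : ∀ s, s ≤ σ → sub η Φ Λ s ⊆ C := by
    intro s hs z hz
    by_contra hzC
    have := hσ z hz.1 hzC
    have h3 : rho η Φ z < s := hz.2
    linarith
  have c8 : ContinuousOn (fun z => (mat η Φ z).det) C :=
    ((Continuous.matrix_det continuous_id).comp_continuousOn
      (continuousOn_mat (η := η) hΛ hΦ)).mono hCΩ
  have i8 : IntegrableOn (fun z => (mat η Φ z).det) C := c8.integrableOn_compact hC
  have e : ∀ s, s ≤ σ → mass η Φ Λ s = ENNReal.ofReal (∫ z in sub η Φ Λ s, (mat η Φ z).det) := by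
    intro s hs
    rw [mass, ofReal_integral_eq_lintegral_ofReal (i8.mono_set (hsub s hs))
      (Eventually.of_forall fun z => det_mat_nonneg z)]
  have hσ0 : 0 < σ := h0.trans h2
  rw [e _ h2.le, e _ le_rfl, ← ENNReal.ofReal_mul (by positivity),
    ← ENNReal.ofReal_mul (by positivity)]
  exact ENNReal.ofReal_le_ofReal (mass_mono_real hn hΛ hΦ hC hCΩ hσ h0 h2)

end Vale.Agent.P248
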