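import Vale.Agent.P248.Gap
import Vale.Agent.P248.Main

/-! A necessary condition for equality in the volume product inequality. -/

namespace Vale.Agent.P248

open Set Filter Topology Metric MeasureTheory Matrix Real Pointwise

variable {n : ℕ}

/-- Origin-symmetric convex bodies. -/
structure Body (K : Set (Fin n → ℝ)) : Prop where
  compact : IsCompact K
  convex : Convex ℝ K
  symm : ∀ x ∈ K, -x ∈ K
  ball : ∃ δ, 0 < δ ∧ closedBall 0 δ ⊆ K

theorem abs_dot_le_norm (y x : Fin n → ℝ) : |y ⬝ᵥ x| ≤ n * (‖y‖ * ‖x‖) := by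
  refine (Finset.abs_sum_le_sum_abs _ _).trans ?_
  have : ∀ i, |y i * x i| ≤ ‖y‖ * ‖x‖ := fun i => by
    rw [abs_mul]
    exact mul_le_mul (norm_le_pi_norm y i) (norm_le_pi_norm x i) (abs_nonneg _) (norm_nonneg _)
  simpa using Finset.sum_le_sum fun i (_ : i ∈ Finset.univ) => this i

theorem isClosed_dotPolar (K : Set (Fin n → ℝ)) : IsClosed (dotPolar K) := by
  have : dotPolar K = ⋂ x ∈ K, {y | y ⬝ᵥ x ≤ 1} := by ext; simp [dotPolar]
  rw [this]
  exact isClosed_biInter fun x _ => isClosed_le (by fun_prop) continuous_const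

theorem convex_dotPolar (K : Set (Fin n → ℝ)) : Convex ℝ (dotPolar K) := by
  intro y hy z hz a b ha hb hab x hx
  rw [add_dotProduct, smul_dotProduct, smul_dotProduct, smul_eq_mul, smul_eq_mul]
  nlinarith [hy x hx, hz x hx]

namespace Body

variable {K : Set (Fin n → ℝ)}

theorem zero_mem (h : Body K) : (0 : Fin n → ℝ) ∈ K := by
  obtain ⟨δ, hδ, hb⟩ := h.ball
  exact hb (mem_closedBall_self hδ.le)

theorem interior_nonempty (h : Body K) : (interior K).Nonempty := by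
  obtain ⟨δ, hδ, hb⟩ := h.ball
  exact ⟨0, mem_interior_iff_mem_nhds.2 (mem_of_superset (closedBall_mem_nhds 0 hδ) hb)⟩

theorem polar (h : Body K) : Body (dotPolar K) := by
  obtain ⟨δ, hδ, hb⟩ := h.ball
  obtain ⟨R, hR, hRK⟩ := h.compact.isBounded.subset_closedBall_lt 0 0
  refine ⟨?_, convex_dotPolar K, fun y hy x hx => ?_, 1 / ((n + 1) * R), by positivity,
    fun y hy x hx => ?_⟩
  · refine (isCompact_closedBall (0 : Fin n → ℝ) (1 / δ)).of_isClosed_subset
      (isClosed_dotPolar K) fun y hy => ?_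
    rw [mem_closedBall, dist_zero_right, pi_norm_le_iff_of_nonneg (by positivity)]
    intro j
    have h1 := abs_dot_le h.symm hy (x := Pi.single j δ) (hb (by
      rw [mem_closedBall, dist_zero_right, Pi.norm_single, Real.norm_of_nonneg hδ.le]))
    rw [dotProduct_single, abs_mul, abs_of_pos hδ] at h1
    rw [Real.norm_eq_abs, le_div_iff₀ hδ]
    exact h1
  · have := hy (-x) (h.symm x hx)
    rwa [dotProduct_neg, ← neg_dotProduct] at this
  · have h1 := hRK hx
    rw [mem_closedBall, dist_zero_right] at h1 hy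
    refine (le_abs_self _).trans ((abs_dot_le_norm y x).trans ?_)
    calc (n : ℝ) * (‖y‖ * ‖x‖) ≤ (n + 1) * (1 / ((n + 1) * R) * R) := by gcongr; linarith
      _ = 1 := by field_simp

theorem mem_of_polar (h : Body K) {x : Fin n → ℝ} (hx : ∀ y ∈ dotPolar K, y ⬝ᵥ x ≤ 1) : x ∈ K :=
  bipolar h.compact.isClosed h.convex h.zero_mem hx

theorem polar_polar (h : Body K) : dotPolar (dotPolar K) = K := by
  ext x
  constructor
  · intro hx
    exact h.mem_of_polar fun y hy => by rw [dotProduct_comm]; exact hx y hy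
  · intro hx y hy
    rw [dotProduct_comm]
    exact hy x hx

theorem volume_ne_top (h : Body K) : volume K ≠ ⊤ := h.compact.measure_lt_top.ne

theorem volume_pos (h : Body K) : 0 < (volume K).toReal := by
  obtain ⟨δ, hδ, hb⟩ := h.ball
  exact ENNReal.toReal_pos ((measure_closedBall_pos _ _ hδ).trans_le (measure_mono hb)).ne'
    h.volume_ne_top

theorem volume_homothety_pos (h : Body K) (a : Fin n → ℝ) {τ : ℝ} (hτ : 0 < τ) :
    0 < (volume (a +ᵥ τ • K)).toReal := by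
  rw [measure_vadd, Measure.addHaar_smul_of_nonneg _ hτ.le, ENNReal.toReal_mul,
    ENNReal.toReal_ofReal (by positivity)]
  exact mul_pos (by positivity) h.volume_pos

end Body

/-- The normalised volume product. -/
noncomputable def mv (K : Set (Fin n → ℝ)) : ℝ :=
  n.factorial * ((volume K).toReal * (volume (dotPolar K)).toReal)

theorem Body.le_mv (hn : 0 < n) {K : Set (Fin n → ℝ)} (h : Body K) : 4 ^ n ≤ mv K :=
  mahler_pi hn h.compact h.convex h.interior_nonempty h.symm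

/-- The necessary condition. -/
def NStar (K : Set (Fin n → ℝ)) : Prop :=
  ∀ x ∈ K, ∀ p ∈ dotPolar K, ∀ (ζ : Fin n → ℝ) (c : ℝ), 0 ≤ c →
    (∀ η ∈ dotPolar K, η ⬝ᵥ ζ - c ≤ ht (η ⬝ᵥ x)) →
    ∃ y : Fin n → ℝ, (∀ η ∈ dotPolar K, η ⬝ᵥ y ≤ ht (η ⬝ᵥ x)) ∧ p ⬝ᵥ ζ - c ≤ p ⬝ᵥ y

theorem exists_empty {ε : ℝ} (hε : 0 < ε) {P : Set (Fin n → ℝ)} (u : ℕ → P) (hu : DenseRange u)
    (x₀ p₀ ζ : Fin n → ℝ) (c : ℝ)
    (h : ¬ ∃ y : Fin n → ℝ, (∀ η ∈ P, η ⬝ᵥ y ≤ ht (η ⬝ᵥ x₀)) ∧ p₀ ⬝ᵥ ζ - c ≤ p₀ ⬝ᵥ y) :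
    ∃ N : ℕ, ∀ x p y : Fin n → ℝ, dist x x₀ ≤ 1 / (N + 1) → dist p p₀ ≤ 1 / (N + 1) →
      (∀ i, |fam ε (fun i : Fin N => (u i).1) i ⬝ᵥ y| ≤ ht (fam ε (fun i : Fin N => (u i).1) i ⬝ᵥ x))
      → p ⬝ᵥ y < p ⬝ᵥ ζ - c - 1 / (N + 1) := by
  let Y : ℕ → Set ((Fin n → ℝ) × (Fin n → ℝ) × (Fin n → ℝ)) := fun N =>
    {q | dist q.1 x₀ ≤ 1 / (N + 1)} ∩ ({q | dist q.2.1 p₀ ≤ 1 / (N + 1)} ∩
      ((⋂ i, {q | |fam ε (fun i : Fin N => (u i).1) i ⬝ᵥ q.2.2|
        ≤ ht (fam ε (fun i : Fin N => (u i).1) i ⬝ᵥ q.1)}) ∩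
        {q | q.2.1 ⬝ᵥ ζ - c - 1 / (N + 1) ≤ q.2.1 ⬝ᵥ q.2.2}))
  have hcl : ∀ N, IsClosed (Y N) := fun N =>
    (isClosed_le (by fun_prop) continuous_const).inter
      ((isClosed_le (by fun_prop) continuous_const).inter
      ((isClosed_iInter fun i => isClosed_le (by fun_prop)
        (continuous_ht.comp (by fun_prop))).inter (isClosed_le (by fun_prop) (by fun_prop))))
  by_contra hcon
  push Not at hcon
  have hne : ∀ N, (Y N).Nonempty := by
    intro N
    obtain ⟨x, p, y, h1, h2, h3, h4⟩ := hcon N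
    exact ⟨(x, p, y), h1, h2, mem_iInter.2 h3, h4⟩
  have hdec : ∀ N, Y (N + 1) ⊆ Y N := by
    rintro N q ⟨h1, h2, h3, h4⟩
    have hle : (1 : ℝ) / (((N + 1 : ℕ) : ℝ) + 1) ≤ 1 / (N + 1) := by
      push_cast
      gcongr
      linarith
    refine ⟨le_trans h1 hle, le_trans h2 hle, mem_iInter.2 fun i => ?_, ?_⟩
    · rcases i with i | i
      · exact mem_iInter.1 h3 (Sum.inl i)
      · exact mem_iInter.1 h3 (Sum.inr (Fin.castSucc i))
    · have h5 : q.2.1 ⬝ᵥ ζ - c - 1 / (((N + 1 : ℕ) : ℝ) + 1) ≤ q.2.1 ⬝ᵥ q.2.2 := h4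
      show q.2.1 ⬝ᵥ ζ - c - 1 / ((N : ℝ) + 1) ≤ q.2.1 ⬝ᵥ q.2.2
      linarith
  have hc0 : IsCompact (Y 0) := by
    refine (((isCompact_closedBall x₀ 1).prod ((isCompact_closedBall p₀ 1).prod
      (isCompact_closedBall (0 : Fin n → ℝ) (π ^ 2 / 8 / ε))))).of_isClosed_subset (hcl 0) ?_
    rintro q ⟨h1, h2, h3, -⟩
    refine ⟨by simpa using h1, by simpa using h2, ?_⟩
    exact slab_subset hε (fun i : Fin 0 => (u i).1) (by positivity) fun i =>
      le_trans (mem_iInter.1 h3 i) (ht_le _)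
  obtain ⟨⟨x, p, y⟩, hq⟩ :=
    IsCompact.nonempty_iInter_of_sequence_nonempty_isCompact_isClosed Y hdec hne hc0 hcl
  rw [mem_iInter] at hq
  have hlim := tendsto_one_div_add_atTop_nhds_zero_nat (𝕜 := ℝ)
  have hx : x = x₀ := dist_le_zero.1 (ge_of_tendsto' hlim fun N => (hq N).1)
  have hp : p = p₀ := dist_le_zero.1 (ge_of_tendsto' hlim fun N => (hq N).2.1)
  subst hx hp
  refine h ⟨y, fun η hη => ?_, ?_⟩
  · have h1 : ∀ i, (u i).1 ⬝ᵥ y ≤ ht ((u i).1 ⬝ᵥ x) := fun i =>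
      (le_abs_self _).trans (mem_iInter.1 (hq (i + 1)).2.2.1 (Sum.inr (Fin.last i)))
    have h2 : IsClosed {p : P | p.1 ⬝ᵥ y ≤ ht (p.1 ⬝ᵥ x)} :=
      isClosed_le (by fun_prop) (continuous_ht.comp (by fun_prop))
    exact hu.induction_on (p := fun p : P => p.1 ⬝ᵥ y ≤ ht (p.1 ⬝ᵥ x)) ⟨η, hη⟩ h2 h1
  · have h1 := (hlim.const_sub (p ⬝ᵥ ζ - c))
    rw [sub_zero] at h1
    exact le_of_tendsto' h1 fun N => (hq N).2.2.2

theorem homothety_facts {K : Set (Fin n → ℝ)} (h : Body K) {a : Fin n → ℝ} (ha : a ∈ K)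
    {R τ : ℝ} (hR : K ⊆ closedBall 0 R) (hτ0 : 0 < τ) (hτ1 : τ ≤ 1) {x : Fin n → ℝ}
    (hx : x ∈ ((1 - τ) • a) +ᵥ (τ / 2) • K) :
    (∃ z ∈ K, x = (1 - τ) • a + τ • z) ∧ (∃ z ∈ K, x = (1 - τ / 2) • z) ∧ dist x a ≤ 2 * R * τ := by
  obtain ⟨_, ⟨z, hz, rfl⟩, rfl⟩ := hx
  have hz2 : (1 / 2 : ℝ) • z ∈ K := h.convex.smul_mem_of_zero_mem h.zero_mem hz
    ⟨by norm_num, by norm_num⟩
  have ht2 : 0 < 1 - τ / 2 := by linarith
  refine ⟨⟨_, hz2, ?_⟩, ⟨((1 - τ) / (1 - τ / 2)) • a + ((τ / 2) / (1 - τ / 2)) • z,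
    h.convex ha hz (div_nonneg (by linarith) ht2.le) (by positivity) (by rw [← add_div, div_eq_one_iff_eq ht2.ne']; ring), ?_⟩,
    ?_⟩
  · simp only [vadd_eq_add, smul_smul]
    congr 2
    ring
  · simp only [vadd_eq_add, smul_add, smul_smul]
    rw [mul_div_cancel₀ _ ht2.ne', mul_div_cancel₀ _ ht2.ne']
  · have h1 := hR ha
    have h2 := hR hz
    rw [mem_closedBall, dist_zero_right] at h1 h2
    have : ((1 - τ) • a +ᵥ (τ / 2) • z) - a = (τ / 2) • z - τ • a := by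
      simp only [vadd_eq_add, sub_smul, one_smul]
      abel
    beta_reduce
    rw [dist_eq_norm, this]
    refine (norm_sub_le _ _).trans ?_
    rw [norm_smul, norm_smul, Real.norm_of_nonneg hτ0.le, Real.norm_of_nonneg (by positivity)]
    nlinarith [norm_nonneg a]

theorem Body.nstar (hn : 0 < n) {K : Set (Fin n → ℝ)} (h : Body K) (heq : mv K ≤ 4 ^ n) :
    NStar K := by
  intro x₀ hx₀ p₀ hp₀ ζ c hc hζ
  by_contra hcon
  have hP := h.polar
  obtain ⟨R, hR, hRK⟩ := h.compact.isBounded.subset_closedBall_lt 0 0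
  obtain ⟨R', hR', hRK'⟩ := hP.compact.isBounded.subset_closedBall_lt 0 0
  have hε : 0 < 1 / R := by positivity
  have hsingle : ∀ j, (Pi.single j (1 / R) : Fin n → ℝ) ∈ dotPolar K := by
    intro j x hx
    have h1 := hRK hx
    rw [mem_closedBall, dist_zero_right] at h1
    have h2 := (le_abs_self _).trans ((norm_le_pi_norm x j).trans h1)
    rw [single_dotProduct, one_div, inv_mul_le_iff₀ hR]
    linarith
  have : Nonempty (dotPolar K) := ⟨⟨0, hP.zero_mem⟩⟩
  obtain ⟨u, hu⟩ := TopologicalSpace.exists_dense_seq (dotPolar K)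
  obtain ⟨N₀, hN₀⟩ := exists_empty hε u hu x₀ p₀ ζ c hcon
  set δ : ℝ := 1 / (N₀ + 1) with hδ
  have hδ0 : 0 < δ := by positivity
  set τ : ℝ := min 1 (δ / (2 * R + 2 * R' + π ^ 2 / 4)) with hτ
  have hτ0 : 0 < τ := lt_min one_pos (by positivity)
  have hτ1 : τ ≤ 1 := min_le_left _ _
  have hτ2 : τ * (2 * R + 2 * R' + π ^ 2 / 4) ≤ δ := by
    rw [← le_div_iff₀ (by positivity)]
    exact min_le_right _ _
  have hpi : 0 < π ^ 2 := by positivity
  set U := ((1 - τ) • x₀) +ᵥ (τ / 2) • K with hU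
  set U' := ((1 - τ) • p₀) +ᵥ (τ / 2) • dotPolar K with hU'
  have hUm : MeasurableSet U := ((h.compact.smul (τ / 2)).vadd _).measurableSet
  have hU'm : MeasurableSet U' := ((hP.compact.smul (τ / 2)).vadd _).measurableSet
  have hfam : ∀ (N : ℕ) i, fam (1 / R) (fun i : Fin N => (u i).1) i ∈ dotPolar K := by
    intro N i
    rcases i with i | i
    · exact hsingle i
    · exact (u i).2
  let A : ℕ → Set (Fin n → ℝ) := fun N => slab (fam (1 / R) fun i : Fin N => (u i).1) 1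
  have hanti : Antitone A := by
    intro N M hNM x hx i
    rcases i with i | i
    · exact hx (Sum.inl i)
    · exact hx (Sum.inr (Fin.castLE hNM i))
  have hA : ⋂ N, A N ⊆ K := by
    intro x hx
    apply h.mem_of_polar
    intro y hy
    have h1 : ∀ i, (u i).1 ⬝ᵥ x ≤ 1 := fun i =>
      (le_abs_self _).trans (mem_iInter.1 hx (i + 1) (Sum.inr (Fin.last i)))
    have h2 : IsClosed {p : dotPolar K | p.1 ⬝ᵥ x ≤ 1} :=
      isClosed_le (by fun_prop) continuous_const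
    exact hu.induction_on (p := fun p : dotPolar K => p.1 ⬝ᵥ x ≤ 1) ⟨y, hy⟩ h2 h1
  have hlim := tendsto_measure_iInter_atTop (μ := (volume : Measure (Fin n → ℝ))) (s := A)
    (fun N => (isClosed_slab _ _).measurableSet.nullMeasurableSet) hanti
    ⟨0, volume_slab_ne_top hε _⟩
  have hle : volume (⋂ N, A N) ≤ volume K := measure_mono hA
  have hlim2 := (((ENNReal.tendsto_toReal (ne_top_of_le_ne_top h.volume_ne_top hle)).comp
    hlim).mul_const (volume (dotPolar K)).toReal).const_mul (n.factorial : ℝ)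
  have h3 : (4 : ℝ) ^ n + n.factorial * ((volume U).toReal * (volume U').toReal)
      ≤ n.factorial * ((volume (⋂ N, A N)).toReal * (volume (dotPolar K)).toReal) := by
    refine ge_of_tendsto hlim2 ?_
    filter_upwards [eventually_ge_atTop N₀] with N hN
    have h := finite_mahler' hn hε (fun i : Fin N => (u i).1) (B := dotPolar K) (fun l hl x hx => by
      rw [comb_dot]
      refine le_trans (Finset.sum_le_sum fun i _ => ?_) hl
      have a2 := abs_dot_le h.symm (hfam N i) hx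
      refine (le_abs_self _).trans ?_
      rw [abs_mul]
      exact mul_le_of_le_one_right (abs_nonneg _) a2) hP.volume_ne_top hUm (c₀ := 1 - τ / 2)
      (fun x hx i => by
        obtain ⟨z, hz, rfl⟩ := (homothety_facts h hx₀ hRK hτ0 hτ1 hx).2.1
        rw [dotProduct_smul, smul_eq_mul, abs_mul, abs_of_nonneg (by linarith)]
        exact mul_le_of_le_one_right (by linarith) (abs_dot_le h.symm (hfam N i) hz))
      (by linarith) (by linarith) hU'm
      (fun p hp => by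
        obtain ⟨z, hz, rfl⟩ := (homothety_facts hP hp₀ hRK' hτ0 hτ1 hp).1
        exact hP.convex hp₀ hz (by linarith) hτ0.le (by ring))
      (half_pos hδ0) (fun x hx y hy l hl hs hg hp => by
        obtain ⟨⟨z, hz, hxz⟩, -, hd⟩ := homothety_facts h hx₀ hRK hτ0 hτ1 hx
        have hd' := (homothety_facts hP hp₀ hRK' hτ0 hτ1 hp).2.2
        have h1 := hN₀ x _ y (hd.trans (by nlinarith)) (hd'.trans (by nlinarith)) (by
          rintro (i | i)
          · exact hy (Sum.inl i)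
          · exact hy (Sum.inr (Fin.castLE hN i)))
        rw [comb_dot, comb_dot] at h1
        have h2 : ∀ i, l i * (fam (1 / R) (fun i : Fin N => (u i).1) i ⬝ᵥ ζ)
            - l i * (fam (1 / R) (fun i : Fin N => (u i).1) i ⬝ᵥ y)
            ≤ (c + δ / 2) * |l i| + |l i| * (ht (fam (1 / R) (fun i : Fin N => (u i).1) i ⬝ᵥ x)
              - |fam (1 / R) (fun i : Fin N => (u i).1) i ⬝ᵥ y|) := by
          intro i
          have b0 := hfam N i
          have b1 := hs i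
          generalize fam (1 / R) (fun i : Fin N => (u i).1) i = η at b0 b1 ⊢
          have b2 := hζ η b0
          have b3 := hζ (-η) (hP.symm η b0)
          rw [neg_dotProduct, neg_dotProduct, ht_neg] at b3
          have b4 : |η ⬝ᵥ ζ| ≤ c + ht (η ⬝ᵥ x₀) := abs_le.2 ⟨by linarith, by linarith⟩
          have b5 := ht_concave (abs_dot_le h.symm b0 hx₀) (abs_dot_le h.symm b0 hz)
            (show 0 ≤ 1 - τ by linarith) hτ0.le (by ring)
          have b6 : η ⬝ᵥ x = (1 - τ) * (η ⬝ᵥ x₀) + τ * (η ⬝ᵥ z) := by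
            rw [hxz, dotProduct_add, dotProduct_smul, dotProduct_smul, smul_eq_mul, smul_eq_mul]
          rw [← b6] at b5
          have b7 : ht (η ⬝ᵥ x₀) ≤ ht (η ⬝ᵥ x) + δ / 2 := by
            nlinarith [ht_le (η ⬝ᵥ x₀), ht_nonneg (η ⬝ᵥ z), mul_pos hτ0 hR, mul_pos hτ0 hR']
          have b8 : l i * (η ⬝ᵥ ζ) ≤ |l i| * (c + ht (η ⬝ᵥ x) + δ / 2) := by
            refine (le_abs_self _).trans ?_
            rw [abs_mul]
            exact mul_le_mul_of_nonneg_left (by linarith) (abs_nonneg _)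
          have b9 : l i * (η ⬝ᵥ y) = |l i| * |η ⬝ᵥ y| := by
            rw [← abs_mul, abs_of_nonneg b1]
          rw [b9]
          nlinarith
        have h3 := Finset.sum_le_sum fun i (_ : i ∈ Finset.univ) => h2 i
        rw [Finset.sum_sub_distrib, Finset.sum_add_distrib, ← Finset.mul_sum] at h3
        have h4 := mul_le_of_le_one_right (show 0 ≤ c + δ / 2 by positivity) hl
        linarith)
    rw [ENNReal.toReal_mul] at h
    exact h
  have h4 : n.factorial * ((volume (⋂ N, A N)).toReal * (volume (dotPolar K)).toReal) ≤ mv K := by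
    rw [mv]
    gcongr
    exact h.volume_ne_top
  have h5 := mul_pos (h.volume_homothety_pos ((1 - τ) • x₀) (half_pos hτ0))
    (hP.volume_homothety_pos ((1 - τ) • p₀) (half_pos hτ0))
  have h6 : (0 : ℝ) < n.factorial := by positivity
  nlinarith [mul_pos h6 h5]

end Vale.Agent.P248
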