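import Vale.Agent.P248.Xi
import Vale.Agent.P248.Gram

/-! Integration by parts for the Monge-Ampere mass. -/

namespace Vale.Agent.P248

open Set Filter Topology Metric MeasureTheory Matrix

variable {n : ℕ} {ι : Type*} [Fintype ι]

/-- Complexified space, as pairs (real part, imaginary part). -/
abbrev Cx (n : ℕ) : Type := (Fin n → ℝ) × (Fin n → ℝ)

/-- Complexification of a real linear form. -/
def lin (e : Fin n → ℝ) (z : Cx n) : ℂ := pt (e ⬝ᵥ z.1) (e ⬝ᵥ z.2)

/-- The vector `c • v` for a complex `c` and a real `v`. -/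
def dir (c : ℂ) (v : Fin n → ℝ) : Cx n := (c.re • v, c.im • v)

theorem continuous_lin (e : Fin n → ℝ) : Continuous (lin e) := by
  unfold lin pt
  fun_prop

theorem lin_add_dir (e : Fin n → ℝ) (z : Cx n) (c : ℂ) (v : Fin n → ℝ) (t : ℝ) :
    lin e (z + t • dir c v) = lin e z + (t : ℂ) * (((e ⬝ᵥ v : ℝ) : ℂ) * c) := by
  apply Complex.ext
  · simp [lin, dir, mul_comm]
  · simp [lin, dir, mul_comm]

theorem lin_smul (e : Fin n → ℝ) (z : Cx n) (t : ℝ) : lin e (t • z) = (t : ℂ) * lin e z := by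
  apply Complex.ext <;> simp [lin]

/-- The domain. -/
def dom (η : ι → Fin n → ℝ) (Λ : Set ℂ) : Set (Cx n) := {z | ∀ i, lin (η i) z ∈ Λ}

theorem isOpen_dom (η : ι → Fin n → ℝ) {Λ : Set ℂ} (hΛ : IsOpen Λ) : IsOpen (dom η Λ) := by
  have : dom η Λ = ⋂ i, lin (η i) ⁻¹' Λ := by ext z; simp [dom]
  rw [this]
  exact isOpen_iInter_of_finite fun i => hΛ.preimage (continuous_lin _)

/-- The potential. -/
noncomputable def rho (η : ι → Fin n → ℝ) (Φ : ι → ℂ → ℂ) (z : Cx n) : ℝ :=
  ∑ i, Complex.normSq (Φ i (lin (η i) z))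

/-- The complex Hessian of the potential (times four). -/
noncomputable def mat (η : ι → Fin n → ℝ) (Φ : ι → ℂ → ℂ) (z : Cx n) :
    Matrix (Fin n) (Fin n) ℝ := gram η fun i => lap (Φ i) (lin (η i) z)

/-- First directional derivative of the squared modulus. -/
noncomputable def dOne (c : ℂ) (Φ : ℂ → ℂ) (w : ℂ) : ℝ :=
  2 * (starRingEnd ℂ (Φ w) * (deriv Φ w * c)).re

/-- Second directional derivative of the squared modulus. -/
noncomputable def dTwo (c : ℂ) (Φ : ℂ → ℂ) (w : ℂ) : ℝ :=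
  2 * (Complex.normSq (deriv Φ w * c) + (starRingEnd ℂ (Φ w) * (deriv (deriv Φ) w * c * c)).re)

theorem dTwo_add (Φ : ℂ → ℂ) (w : ℂ) : dTwo 1 Φ w + dTwo Complex.I Φ w = lap Φ w := by
  simp [dTwo, lap]
  ring

theorem dOne_sq (Φ : ℂ → ℂ) (w : ℂ) :
    dOne 1 Φ w ^ 2 + dOne Complex.I Φ w ^ 2 = Complex.normSq (Φ w) * lap Φ w := by
  simp [dOne, lap, Complex.normSq_apply]
  ring

theorem hasDerivAt_line {Φ : ℂ → ℂ} {Φ' w : ℂ} (h : HasDerivAt Φ Φ' w) (b : ℂ) :
    HasDerivAt (fun t : ℝ => Φ (w + (t : ℂ) * b)) (Φ' * b) 0 := by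
  have h1 : HasDerivAt (fun s : ℂ => w + s * b) b ((0 : ℝ) : ℂ) := by
    simpa using ((hasDerivAt_id ((0 : ℝ) : ℂ)).mul_const b).const_add w
  have h2 : HasDerivAt Φ Φ' (w + ((0 : ℝ) : ℂ) * b) := by simpa using h
  exact (HasDerivAt.comp ((0 : ℝ) : ℂ) (h₂ := Φ) h2 h1).comp_ofReal

section
variable {Λ : Set ℂ} {Φ : ℂ → ℂ}

theorem hasDerivAt_normSq_line (hΛ : IsOpen Λ) (hΦ : DifferentiableOn ℂ Φ Λ) {w : ℂ} (hw : w ∈ Λ)
    (c : ℂ) (s : ℝ) :
    HasDerivAt (fun t : ℝ => Complex.normSq (Φ (w + (t : ℂ) * ((s : ℂ) * c)))) (dOne c Φ w * s) 0 := by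
  have h1 := (hΦ.differentiableAt (hΛ.mem_nhds hw)).hasDerivAt
  refine (hasDerivAt_normSq (hasDerivAt_line h1 ((s : ℂ) * c))).congr_deriv ?_
  simp [dOne]
  ring

theorem hasDerivAt_dOne_line (hΛ : IsOpen Λ) (hΦ : DifferentiableOn ℂ Φ Λ) {w : ℂ} (hw : w ∈ Λ)
    (c : ℂ) (s : ℝ) :
    HasDerivAt (fun t : ℝ => dOne c Φ (w + (t : ℂ) * ((s : ℂ) * c))) (dTwo c Φ w * s) 0 := by
  have h1 := hasDerivAt_line (hΦ.differentiableAt (hΛ.mem_nhds hw)).hasDerivAt ((s : ℂ) * c)
  have h2 := hasDerivAt_line ((hΦ.deriv hΛ).differentiableAt (hΛ.mem_nhds hw)).hasDerivAt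
    ((s : ℂ) * c)
  have h3 := (hasDerivAt_re (h1.star.mul (h2.mul_const c))).const_mul 2
  refine h3.congr_deriv ?_
  simp [dTwo, Complex.normSq_apply]
  ring

theorem continuousOn_dOne (hΛ : IsOpen Λ) (hΦ : DifferentiableOn ℂ Φ Λ) (c : ℂ) :
    ContinuousOn (dOne c Φ) Λ :=
  continuousOn_const.mul (Complex.continuous_re.comp_continuousOn
    ((Complex.continuous_conj.comp_continuousOn hΦ.continuousOn).mul
      ((hΦ.deriv hΛ).continuousOn.mul continuousOn_const)))

theorem continuousOn_dTwo (hΛ : IsOpen Λ) (hΦ : DifferentiableOn ℂ Φ Λ) (c : ℂ) :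
    ContinuousOn (dTwo c Φ) Λ :=
  continuousOn_const.mul ((Complex.continuous_normSq.comp_continuousOn
    ((hΦ.deriv hΛ).continuousOn.mul continuousOn_const)).add
    (Complex.continuous_re.comp_continuousOn
    ((Complex.continuous_conj.comp_continuousOn hΦ.continuousOn).mul
      ((((hΦ.deriv hΛ).deriv hΛ).continuousOn.mul continuousOn_const).mul continuousOn_const))))

end

theorem continuousOn_comp_lin {η : ι → Fin n → ℝ} {Λ : Set ℂ} {f : ℂ → ℝ} (hf : ContinuousOn f Λ)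
    (i : ι) : ContinuousOn (fun z => f (lin (η i) z)) (dom η Λ) :=
  hf.comp (continuous_lin _).continuousOn fun _ hz => hz i

theorem haar_cx : Measure.IsAddHaarMeasure (volume : Measure (Cx n)) :=
  Measure.prod.instIsAddHaarMeasure _ _

/-- Integral of a line derivative of a compactly supported function. -/
theorem setIntegral_lineDeriv_eq_zero {Ω C : Set (Cx n)} (hΩ : IsOpen Ω) (hC : IsCompact C)
    (hCΩ : C ⊆ Ω) {h h' : Cx n → ℝ} (hh : ContinuousOn h Ω) (hh' : ContinuousOn h' Ω) {v : Cx n}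
    (hd : ∀ z ∈ Ω, HasLineDerivAt ℝ h (h' z) z v) (h0 : ∀ z ∈ Ω, z ∉ C → h z = 0)
    (h0' : ∀ z ∈ Ω, z ∉ C → h' z = 0) : ∫ z in C, h' z = 0 := by
  have := haar_cx (n := n)
  have hm := hC.measurableSet
  have i1 : Integrable (C.indicator h) :=
    (integrable_indicator_iff hm).2 ((hh.mono hCΩ).integrableOn_compact hC)
  have i2 : Integrable (C.indicator h') :=
    (integrable_indicator_iff hm).2 ((hh'.mono hCΩ).integrableOn_compact hC)
  have key := integral_bilinear_hasLineDerivAt_right_eq_neg_left_of_integrable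
    (μ := (volume : Measure (Cx n))) (f := fun _ => (1 : ℝ)) (f' := fun _ => (0 : ℝ))
    (g := C.indicator h) (g' := C.indicator h') (v := v) (B := ContinuousLinearMap.mul ℝ ℝ)
    (by simp) (by simpa using i2) (by simpa using i1)
    (fun x _ => (hasFDerivAt_const (1 : ℝ) x).hasLineDerivAt v) (fun x _ => ?_)
  · rw [← integral_indicator hm]
    simpa using key
  · by_cases hx : x ∈ Ω
    · have e1 : C.indicator h =ᶠ[𝓝 x] h := by
        filter_upwards [hΩ.mem_nhds hx] with y hy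
        by_cases hyC : y ∈ C
        · exact indicator_of_mem hyC _
        · rw [indicator_of_notMem hyC, h0 y hy hyC]
      have e2 : C.indicator h' x = h' x := by
        by_cases hyC : x ∈ C
        · exact indicator_of_mem hyC _
        · rw [indicator_of_notMem hyC, h0' x hx hyC]
      rw [e2]
      exact (hd x hx).congr_of_eventuallyEq e1
    · have hxC : x ∉ C := fun h => hx (hCΩ h)
      have e1 : C.indicator h =ᶠ[𝓝 x] fun _ => 0 := by
        filter_upwards [hC.isClosed.isOpen_compl.mem_nhds hxC] with y hy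
        exact indicator_of_notMem hy _
      rw [indicator_of_notMem hxC]
      exact ((hasFDerivAt_const (0 : ℝ) x).hasLineDerivAt v).congr_of_eventuallyEq e1

variable {η : ι → Fin n → ℝ} {Φ : ι → ℂ → ℂ} {Λ : Set ℂ}

/-- Gradient of the potential in the direction `c`. -/
noncomputable def grad (η : ι → Fin n → ℝ) (Φ : ι → ℂ → ℂ) (c : ℂ) (z : Cx n) : Fin n → ℝ :=
  comb η fun i => dOne c (Φ i) (lin (η i) z)

/-- Hessian of the potential in the direction `c`. -/
noncomputable def hess (η : ι → Fin n → ℝ) (Φ : ι → ℂ → ℂ) (c : ℂ) (z : Cx n) :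
    Matrix (Fin n) (Fin n) ℝ := gram η fun i => dTwo c (Φ i) (lin (η i) z)

theorem hess_add (z : Cx n) : hess η Φ 1 z + hess η Φ Complex.I z = mat η Φ z := by
  ext k l
  simp only [hess, mat, gram, Matrix.add_apply, of_apply, ← dTwo_add, ← Finset.sum_add_distrib]
  exact Finset.sum_congr rfl fun _ _ => by ring

theorem continuousOn_rho (hΦ : ∀ i, DifferentiableOn ℂ (Φ i) Λ) :
    ContinuousOn (rho η Φ) (dom η Λ) :=
  continuousOn_finsetSum _ fun i _ => continuousOn_comp_lin (f := fun w => Complex.normSq (Φ i w))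
    (Complex.continuous_normSq.comp_continuousOn (hΦ i).continuousOn) i

theorem continuousOn_comb {X : Type*} [TopologicalSpace X] {s : Set X} {p : ι → X → ℝ}
    (hp : ∀ i, ContinuousOn (p i) s) : ContinuousOn (fun z => comb η fun i => p i z) s :=
  continuousOn_pi.2 fun _ => continuousOn_finsetSum _ fun i _ => (hp i).mul continuousOn_const

theorem continuousOn_gram {X : Type*} [TopologicalSpace X] {s : Set X} {p : ι → X → ℝ}
    (hp : ∀ i, ContinuousOn (p i) s) : ContinuousOn (fun z => gram η fun i => p i z) s :=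
  continuousOn_pi.2 fun _ => continuousOn_pi.2 fun _ => continuousOn_finsetSum _ fun i _ =>
    ((hp i).mul continuousOn_const).mul continuousOn_const

theorem continuousOn_grad (hΛ : IsOpen Λ) (hΦ : ∀ i, DifferentiableOn ℂ (Φ i) Λ) (c : ℂ) :
    ContinuousOn (grad η Φ c) (dom η Λ) :=
  continuousOn_comb fun i => continuousOn_comp_lin (continuousOn_dOne hΛ (hΦ i) c) i

theorem continuousOn_hess (hΛ : IsOpen Λ) (hΦ : ∀ i, DifferentiableOn ℂ (Φ i) Λ) (c : ℂ) :
    ContinuousOn (hess η Φ c) (dom η Λ) :=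
  continuousOn_gram fun i => continuousOn_comp_lin (continuousOn_dTwo hΛ (hΦ i) c) i

theorem continuousOn_mat (hΛ : IsOpen Λ) (hΦ : ∀ i, DifferentiableOn ℂ (Φ i) Λ) :
    ContinuousOn (mat η Φ) (dom η Λ) :=
  continuousOn_gram fun i => continuousOn_comp_lin (continuousOn_lap hΛ (hΦ i)) i

theorem hasDerivAt_rho (hΛ : IsOpen Λ) (hΦ : ∀ i, DifferentiableOn ℂ (Φ i) Λ) {z : Cx n}
    (hz : z ∈ dom η Λ) (c : ℂ) (v : Fin n → ℝ) :
    HasDerivAt (fun t : ℝ => rho η Φ (z + t • dir c v)) (grad η Φ c z ⬝ᵥ v) 0 := by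
  simp only [rho, lin_add_dir, grad, comb_dot]
  exact HasDerivAt.fun_sum fun i _ => hasDerivAt_normSq_line hΛ (hΦ i) (hz i) c _

theorem hasDerivAt_grad (hΛ : IsOpen Λ) (hΦ : ∀ i, DifferentiableOn ℂ (Φ i) Λ) {z : Cx n}
    (hz : z ∈ dom η Λ) (c : ℂ) (v : Fin n → ℝ) (l : Fin n) :
    HasDerivAt (fun t : ℝ => grad η Φ c (z + t • dir c v) l) (hess η Φ c z l ⬝ᵥ v) 0 := by
  simp only [grad, lin_add_dir, hess, gram_row, comb_dot]
  refine HasDerivAt.fun_sum fun i _ => ?_
  refine ((hasDerivAt_dOne_line hΛ (hΦ i) (hz i) c _).mul_const (η i l)).congr_deriv ?_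
  ring

theorem continuousOn_det_updateRow {X : Type*} [TopologicalSpace X] {s : Set X}
    {M : X → Matrix (Fin n) (Fin n) ℝ} {w : X → Fin n → ℝ} (hM : ContinuousOn M s)
    (hw : ContinuousOn w s) (l : Fin n) :
    ContinuousOn (fun z => ((M z).updateRow l (w z)).det) s := by
  apply (Continuous.matrix_det continuous_id).comp_continuousOn
    (f := fun z => (M z).updateRow l (w z))
  refine continuousOn_pi.2 fun r => ?_
  by_cases hr : r = l
  · subst hr
    simpa using hw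
  · simpa [updateRow_ne hr] using continuousOn_pi.1 hM r

/-- Weak Piola identity. -/
theorem piola [Nonempty ι] (hΛ : IsOpen Λ) (hΦ : ∀ i, DifferentiableOn ℂ (Φ i) Λ)
    {C : Set (Cx n)} (hC : IsCompact C) (hCΩ : C ⊆ dom η Λ) {σ : ℝ}
    (hσ : ∀ z ∈ dom η Λ, z ∉ C → σ ≤ rho η Φ z) {θ θ' : ℝ → ℝ}
    (hθ : ∀ s, HasDerivAt θ (θ' s) s) (hθ' : Continuous θ')
    (h0 : ∀ s, σ ≤ s → θ s = 0 ∧ θ' s = 0) (c : ℂ) (l : Fin n) :
    ∫ z in C, ((mat η Φ z).updateRow l (θ (rho η Φ z) • hess η Φ c z l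
      + (θ' (rho η Φ z) * grad η Φ c z l) • grad η Φ c z)).det = 0 := by
  classical
  obtain ⟨κ, ν, hν, hexp⟩ := exists_expansion η l
  have hθc : Continuous θ := continuous_iff_continuousAt.2 fun s => (hθ s).continuousAt
  have c1 := hθc.comp_continuousOn (continuousOn_rho (η := η) hΦ)
  have c2 := hθ'.comp_continuousOn (continuousOn_rho (η := η) hΦ)
  have c3 := continuousOn_grad (η := η) hΛ hΦ c
  have c4 := continuousOn_pi.1 (continuousOn_hess (η := η) hΛ hΦ c) l
  have c5 := continuousOn_pi.1 c3 l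
  have c6 : ∀ J : Fin n → ι, ContinuousOn
      (fun z => ∏ r ∈ Finset.univ.erase l, lap (Φ (J r)) (lin (η (J r)) z)) (dom η Λ) := fun J =>
    continuousOn_finsetProd _ fun r _ => continuousOn_comp_lin (continuousOn_lap hΛ (hΦ _)) _
  have c7 : ∀ J : Fin n → ι, ContinuousOn (fun z => κ J *
      (∏ r ∈ Finset.univ.erase l, lap (Φ (J r)) (lin (η (J r)) z)) *
      ((θ (rho η Φ z) • hess η Φ c z l
        + (θ' (rho η Φ z) * grad η Φ c z l) • grad η Φ c z) ⬝ᵥ ν J)) (dom η Λ) := by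
    intro J
    refine (continuousOn_const.mul (c6 J)).mul ?_
    have : Continuous fun w : Fin n → ℝ => w ⬝ᵥ ν J := by fun_prop
    exact this.comp_continuousOn ((c1.smul c4).add ((c2.mul c5).smul c3))
  simp only [mat, hexp]
  rw [integral_finsetSum _ fun J _ => ((c7 J).mono hCΩ).integrableOn_compact hC]
  refine Finset.sum_eq_zero fun J _ => ?_
  refine setIntegral_lineDeriv_eq_zero (isOpen_dom η hΛ) hC hCΩ
    (h := fun z => κ J * (∏ r ∈ Finset.univ.erase l, lap (Φ (J r)) (lin (η (J r)) z)) *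
      (θ (rho η Φ z) * grad η Φ c z l)) ((continuousOn_const.mul (c6 J)).mul (c1.mul c5)) (c7 J)
    (v := dir c (ν J)) (fun z hz => ?_) (fun z hz hzC => ?_) (fun z hz hzC => ?_)
  · have e1 : ∀ t : ℝ, ∏ r ∈ Finset.univ.erase l, lap (Φ (J r)) (lin (η (J r)) (z + t • dir c (ν J)))
        = ∏ r ∈ Finset.univ.erase l, lap (Φ (J r)) (lin (η (J r)) z) := by
      intro t
      refine Finset.prod_congr rfl fun r hr => ?_
      rw [lin_add_dir, hν J r (Finset.ne_of_mem_erase hr)]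
      simp
    unfold HasLineDerivAt
    simp only [e1]
    have d1 := hasDerivAt_rho hΛ hΦ hz c (ν J)
    have d2 := hasDerivAt_grad hΛ hΦ hz c (ν J) l
    have d3 := HasDerivAt.comp (0 : ℝ) (h₂ := θ) (hθ _) d1
    refine ((d3.mul d2).const_mul _).congr_deriv ?_
    simp only [zero_smul, add_zero, Function.comp_apply, add_dotProduct, smul_dotProduct,
      smul_eq_mul]
    ring
  · rw [(h0 _ (hσ z hz hzC)).1]
    simp
  · rw [(h0 _ (hσ z hz hzC)).1, (h0 _ (hσ z hz hzC)).2]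
    simp

/-- The quadratic form of the adjugate evaluated on the gradient. -/
noncomputable def adjForm (η : ι → Fin n → ℝ) (Φ : ι → ℂ → ℂ) (z : Cx n) : ℝ :=
  grad η Φ 1 z ⬝ᵥ ((mat η Φ z).adjugate *ᵥ grad η Φ 1 z)
    + grad η Φ Complex.I z ⬝ᵥ ((mat η Φ z).adjugate *ᵥ grad η Φ Complex.I z)

theorem adjForm_le (z : Cx n) : adjForm η Φ z ≤ rho η Φ z * (mat η Φ z).det :=
  adj_bound η (fun _ => lap_nonneg _ _) (fun _ => Complex.normSq_nonneg _)
    fun _ => (dOne_sq _ _).le

theorem det_mat_nonneg (z : Cx n) : 0 ≤ (mat η Φ z).det :=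
  det_gram_nonneg η fun _ => lap_nonneg _ _

theorem sum_rows (z : Cx n) (a b : ℝ) :
    ∑ l, (((mat η Φ z).updateRow l (a • hess η Φ 1 z l
      + (b * grad η Φ 1 z l) • grad η Φ 1 z)).det
      + ((mat η Φ z).updateRow l (a • hess η Φ Complex.I z l
      + (b * grad η Φ Complex.I z l) • grad η Φ Complex.I z)).det)
      = n * a * (mat η Φ z).det + b * adjForm η Φ z := by
  have h1 : ∀ l, ((mat η Φ z).updateRow l (hess η Φ 1 z l)).det
      + ((mat η Φ z).updateRow l (hess η Φ Complex.I z l)).det = (mat η Φ z).det := by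
    intro l
    rw [← det_updateRow_add]
    have : hess η Φ 1 z l + hess η Φ Complex.I z l = mat η Φ z l := by
      rw [← hess_add]; rfl
    rw [this, updateRow_eq_self]
  have h2 : ∀ l w, ((mat η Φ z).updateRow l w).det = ((mat η Φ z).adjugate *ᵥ w) l :=
    fun l w => det_updateRow_gram _ _ _ _
  simp only [det_updateRow_add, det_updateRow_smul]
  rw [Finset.sum_congr rfl (g := fun l => a * (mat η Φ z).det
    + b * (grad η Φ 1 z l * ((mat η Φ z).adjugate *ᵥ grad η Φ 1 z) l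
      + grad η Φ Complex.I z l * ((mat η Φ z).adjugate *ᵥ grad η Φ Complex.I z) l))
    fun l _ => by rw [← h1 l, ← h2, ← h2]; ring]
  rw [Finset.sum_add_distrib, ← Finset.mul_sum, ← Finset.mul_sum, Finset.sum_add_distrib]
  simp only [Finset.sum_const, Finset.card_univ, Fintype.card_fin, nsmul_eq_mul, adjForm,
    dotProduct]
  ring

/-- The differential inequality behind the monotonicity of the mass. -/
theorem integral_weight_nonpos [Nonempty ι] (hΛ : IsOpen Λ)
    (hΦ : ∀ i, DifferentiableOn ℂ (Φ i) Λ)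
    {C : Set (Cx n)} (hC : IsCompact C) (hCΩ : C ⊆ dom η Λ) {σ : ℝ}
    (hσ : ∀ z ∈ dom η Λ, z ∉ C → σ ≤ rho η Φ z) {θ θ' : ℝ → ℝ}
    (hθ : ∀ s, HasDerivAt θ (θ' s) s) (hθ' : Continuous θ')
    (h0 : ∀ s, σ ≤ s → θ s = 0 ∧ θ' s = 0) (hneg : ∀ s, 0 ≤ s → θ' s ≤ 0) :
    ∫ z in C, (n * θ (rho η Φ z) + rho η Φ z * θ' (rho η Φ z)) * (mat η Φ z).det ≤ 0 := by
  have hθc : Continuous θ := continuous_iff_continuousAt.2 fun s => (hθ s).continuousAt
  have c0 := continuousOn_rho (η := η) hΦ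
  have c1 := hθc.comp_continuousOn c0
  have c2 := hθ'.comp_continuousOn c0
  have c8 := continuousOn_mat (η := η) hΛ hΦ
  have hint : ∀ (c : ℂ) (l : Fin n), IntegrableOn (fun z => ((mat η Φ z).updateRow l
      (θ (rho η Φ z) • hess η Φ c z l
      + (θ' (rho η Φ z) * grad η Φ c z l) • grad η Φ c z)).det) C := by
    intro c l
    have c3 := continuousOn_grad (η := η) hΛ hΦ c
    have c4 := continuousOn_pi.1 (continuousOn_hess (η := η) hΛ hΦ c) l
    have c5 := continuousOn_pi.1 c3 l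
    exact ((continuousOn_det_updateRow c8 ((c1.smul c4).add ((c2.mul c5).smul c3)) l).mono
      hCΩ).integrableOn_compact hC
  have key : ∫ z in C, (n * θ (rho η Φ z) * (mat η Φ z).det + θ' (rho η Φ z) * adjForm η Φ z)
      = 0 := by
    simp only [← sum_rows]
    refine (integral_finsetSum _ fun l _ => (hint 1 l).add (hint Complex.I l)).trans ?_
    refine Finset.sum_eq_zero fun l _ => (integral_add (hint 1 l) (hint Complex.I l)).trans ?_
    rw [piola hΛ hΦ hC hCΩ hσ hθ hθ' h0, piola hΛ hΦ hC hCΩ hσ hθ hθ' h0, add_zero]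
  rw [← key]
  apply setIntegral_mono_on
  · exact ((((continuousOn_const.mul c1).add (c0.mul c2)).mul
      ((Continuous.matrix_det continuous_id).comp_continuousOn c8)).mono
        hCΩ).integrableOn_compact hC
  · simp only [← sum_rows]
    exact integrable_finsetSum _ fun l _ => (hint 1 l).add (hint Complex.I l)
  · exact hC.measurableSet
  · intro z _
    have a1 := hneg (rho η Φ z) (Finset.sum_nonneg fun _ _ => Complex.normSq_nonneg _)
    have a2 := adjForm_le (η := η) (Φ := Φ) z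
    nlinarith

end Vale.Agent.P248
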