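import Mathlib

/-! The conformal map of the disc onto the lens: series and basic estimates. -/

namespace Vale.Agent.P248

open Set Filter Topology Metric Real

/-- The map of the unit disc onto the lens. -/
noncomputable def lensMap (z : ℂ) : ℂ := ∑' k : ℕ, z ^ (2 * k + 1) / ((2 * k + 1 : ℕ) : ℂ) ^ 2

/-- Its derivative. -/
noncomputable def lensDer (z : ℂ) : ℂ := ∑' k : ℕ, z ^ (2 * k) / ((2 * k + 1 : ℕ) : ℂ)

theorem hasSum_odd_sq : HasSum (fun k : ℕ => (1 : ℝ) / ((2 * k + 1 : ℕ) : ℝ) ^ 2) (π ^ 2 / 8) := by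
  have h := hasSum_zeta_two
  have he : HasSum (fun k : ℕ => (1 : ℝ) / ((2 * k : ℕ) : ℝ) ^ 2) (π ^ 2 / 24) := by
    have := h.mul_left (1 / 4)
    convert! this using 1
    · funext k
      push_cast
      rw [mul_pow]
      by_cases hk : (k : ℝ) = 0
      · simp [hk]
      · field_simp
        norm_num
    · ring
  have ho : Summable (fun k : ℕ => (1 : ℝ) / ((2 * k + 1 : ℕ) : ℝ) ^ 2) :=
    h.summable.comp_injective (i := fun k : ℕ => 2 * k + 1) (fun a b hab => by
      simpa using hab)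
  have h2 := HasSum.even_add_odd (f := fun n : ℕ => (1 : ℝ) / (n : ℝ) ^ 2) he ho.hasSum
  have h3 := h.unique h2
  have h4 : ∑' k : ℕ, (1 : ℝ) / ((2 * k + 1 : ℕ) : ℝ) ^ 2 = π ^ 2 / 8 := by linarith
  rw [← h4]
  exact ho.hasSum

theorem norm_term_le {z : ℂ} (hz : ‖z‖ ≤ 1) (k : ℕ) :
    ‖z ^ (2 * k + 1) / ((2 * k + 1 : ℕ) : ℂ) ^ 2‖ ≤ (1 : ℝ) / ((2 * k + 1 : ℕ) : ℝ) ^ 2 := by
  rw [norm_div, norm_pow, norm_pow, Complex.norm_natCast]
  gcongr
  exact pow_le_one₀ (norm_nonneg _) hz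

theorem norm_lensMap_le {z : ℂ} (hz : ‖z‖ ≤ 1) : ‖lensMap z‖ ≤ π ^ 2 / 8 :=
  tsum_of_norm_bounded hasSum_odd_sq (norm_term_le hz)

theorem continuousOn_lensMap : ContinuousOn lensMap (closedBall 0 1) := by
  apply continuousOn_tsum (u := fun k : ℕ => (1 : ℝ) / ((2 * k + 1 : ℕ) : ℝ) ^ 2)
  · intro k
    fun_prop
  · exact hasSum_odd_sq.summable
  · intro k z hz
    exact norm_term_le (by simpa using hz) k

theorem lensMap_one : lensMap 1 = ((π ^ 2 / 8 : ℝ) : ℂ) := by
  have h := Complex.hasSum_ofReal.2 hasSum_odd_sq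
  unfold lensMap
  rw [← h.tsum_eq]
  congr 1
  funext k
  simp

theorem lensMap_neg (z : ℂ) : lensMap (-z) = -lensMap z := by
  unfold lensMap
  rw [← tsum_neg]
  congr 1
  funext k
  rw [Odd.neg_pow ⟨k, rfl⟩, neg_div]

theorem lensMap_zero : lensMap 0 = 0 := by
  simp [lensMap]

theorem lensMap_conj (z : ℂ) : lensMap (starRingEnd ℂ z) = starRingEnd ℂ (lensMap z) := by
  unfold lensMap
  rw [Complex.conj_tsum]
  congr 1
  funext k
  simp only [map_div₀, map_pow, map_natCast]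

theorem lensDer_conj (z : ℂ) : lensDer (starRingEnd ℂ z) = starRingEnd ℂ (lensDer z) := by
  unfold lensDer
  rw [Complex.conj_tsum]
  congr 1
  funext k
  simp only [map_div₀, map_pow, map_natCast]

theorem lensDer_zero : lensDer 0 = 1 := by
  unfold lensDer
  rw [tsum_eq_single 0]
  · simp
  · intro k hk
    simp [hk]

theorem hasDerivAt_lensMap {z : ℂ} (hz : ‖z‖ < 1) : HasDerivAt lensMap (lensDer z) z := by
  obtain ⟨r, hr1, hr2⟩ := exists_between hz
  have hr0 : 0 ≤ r := (norm_nonneg _).trans hr1.le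
  have hu : Summable (fun k : ℕ => (r ^ 2) ^ k) :=
    summable_geometric_of_lt_one (by positivity) (by nlinarith)
  refine hasDerivAt_tsum_of_isPreconnected (t := ball (0 : ℂ) r) (y₀ := 0)
    (g := fun (k : ℕ) (z : ℂ) => z ^ (2 * k + 1) / ((2 * k + 1 : ℕ) : ℂ) ^ 2)
    (g' := fun (k : ℕ) (z : ℂ) => z ^ (2 * k) / ((2 * k + 1 : ℕ) : ℂ)) hu isOpen_ball
    (convex_ball _ _).isPreconnected ?_ ?_ (by simpa using (norm_nonneg z).trans_lt hr1)
    (by simp) (by simpa using hr1)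
  · intro k y _
    have h := (hasDerivAt_pow (2 * k + 1) y).div_const (((2 * k + 1 : ℕ) : ℂ) ^ 2)
    refine h.congr_deriv ?_
    have : ((2 * k + 1 : ℕ) : ℂ) ≠ 0 := Nat.cast_ne_zero.2 (Nat.succ_ne_zero _)
    rw [Nat.add_sub_cancel]
    field_simp
  · intro k y hy
    have hy' : ‖y‖ < r := by simpa using hy
    rw [norm_div, norm_pow, Complex.norm_natCast, ← pow_mul]
    have h1 : (1 : ℝ) ≤ ((2 * k + 1 : ℕ) : ℝ) := by exact_mod_cast Nat.succ_le_succ (Nat.zero_le _)
    calc ‖y‖ ^ (2 * k) / ((2 * k + 1 : ℕ) : ℝ) ≤ ‖y‖ ^ (2 * k) := div_le_self (by positivity) h1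
      _ ≤ r ^ (2 * k) := by gcongr

theorem differentiableOn_lensMap : DifferentiableOn ℂ lensMap (ball 0 1) := fun _ hz =>
  (hasDerivAt_lensMap (by simpa using hz)).differentiableAt.differentiableWithinAt

theorem analyticAt_lensMap {z : ℂ} (hz : ‖z‖ < 1) : AnalyticAt ℂ lensMap z :=
  differentiableOn_lensMap.analyticAt (isOpen_ball.mem_nhds (by simpa using hz))

theorem analyticAt_lensDer {z : ℂ} (hz : ‖z‖ < 1) : AnalyticAt ℂ lensDer z := by
  have h := (analyticAt_lensMap hz).deriv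
  refine h.congr ?_
  filter_upwards [isOpen_ball.mem_nhds (show z ∈ ball (0 : ℂ) 1 by simpa using hz)] with y hy
  exact (hasDerivAt_lensMap (by simpa using hy)).deriv

theorem mul_lensDer {z : ℂ} (hz : ‖z‖ < 1) :
    z * lensDer z = 1 / 2 * Complex.log ((1 + z) / (1 - z)) := by
  have h := Complex.hasSum_arctan (z := -Complex.I * z) (by simpa using hz)
  have h1 : -Complex.I * z * Complex.I = z := by
    rw [mul_right_comm, neg_mul, Complex.I_mul_I]; ring
  rw [Complex.arctan, h1] at h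
  have h2 := h.mul_left Complex.I
  have h3 : Complex.I * (-Complex.I / 2 * Complex.log ((1 + z) / (1 - z)))
      = 1 / 2 * Complex.log ((1 + z) / (1 - z)) := by
    rw [← mul_assoc, mul_div_assoc', mul_neg, Complex.I_mul_I]; ring
  rw [h3] at h2
  rw [← h2.tsum_eq, lensDer, ← tsum_mul_left]
  congr 1
  funext k
  rw [mul_pow, pow_succ (-Complex.I), pow_mul (-Complex.I), neg_sq, Complex.I_sq]
  have h4 : ((-1 : ℂ)) ^ k * (-1) ^ k = 1 := by rw [← mul_pow]; simp
  have h5 : Complex.I * -Complex.I = 1 := by rw [mul_neg, Complex.I_mul_I]; ring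
  calc z * (z ^ (2 * k) / ((2 * k + 1 : ℕ) : ℂ))
      = (((-1 : ℂ)) ^ k * (-1) ^ k) * (Complex.I * -Complex.I) * z ^ (2 * k + 1)
          / ((2 * k + 1 : ℕ) : ℂ) := by rw [h4, h5]; ring
    _ = _ := by ring

theorem cayley_re {z : ℂ} (hz : ‖z‖ < 1) :
    ((1 + z) / (1 - z)).re = (1 - Complex.normSq z) / Complex.normSq (1 - z) := by
  rw [Complex.div_re, ← add_div]
  congr 1
  simp [Complex.normSq_apply]
  ring

theorem cayley_im {z : ℂ} (hz : ‖z‖ < 1) :
    ((1 + z) / (1 - z)).im = 2 * z.im / Complex.normSq (1 - z) := by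
  rw [Complex.div_im, ← sub_div]
  congr 1
  simp
  ring

theorem one_sub_ne {z : ℂ} (hz : ‖z‖ < 1) : 1 - z ≠ 0 := by
  intro h
  have : z = 1 := (sub_eq_zero.1 h).symm
  simp [this] at hz

theorem normSq_lt_one {z : ℂ} (hz : ‖z‖ < 1) : Complex.normSq z < 1 := by
  rw [Complex.normSq_eq_norm_sq]
  nlinarith [norm_nonneg z]

theorem cayley_re_pos {z : ℂ} (hz : ‖z‖ < 1) : 0 < ((1 + z) / (1 - z)).re := by
  rw [cayley_re hz]
  exact div_pos (by linarith [normSq_lt_one hz]) (Complex.normSq_pos.2 (one_sub_ne hz))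

theorem im_mul_lensDer {z : ℂ} (hz : ‖z‖ < 1) :
    (z * lensDer z).im = 1 / 2 * arctan (2 * z.im / (1 - Complex.normSq z)) := by
  rw [mul_lensDer hz]
  have h1 : (1 / 2 * Complex.log ((1 + z) / (1 - z))).im
      = 1 / 2 * Complex.arg ((1 + z) / (1 - z)) := by
    rw [← Complex.log_im]
    simp
  rw [h1]
  congr 1
  have h2 := abs_lt.1 (Complex.abs_arg_lt_pi_div_two_iff.2 (Or.inl (cayley_re_pos hz)))
  rw [← arctan_tan h2.1 h2.2, Complex.tan_arg, cayley_re hz, cayley_im hz]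
  congr 1
  have := (Complex.normSq_pos.2 (one_sub_ne hz)).ne'
  field_simp

theorem re_inv_one_sub {u : ℂ} (hu : ‖u‖ < 1) : 1 / 2 ≤ ((1 - u)⁻¹).re := by
  have h0 := Complex.normSq_pos.2 (one_sub_ne hu)
  rw [Complex.inv_re, le_div_iff₀ h0]
  have := normSq_lt_one hu
  simp only [Complex.normSq_apply, Complex.sub_re, Complex.one_re, Complex.sub_im,
    Complex.one_im] at this ⊢
  nlinarith

theorem lensDer_eq_integral {z : ℂ} (hz : ‖z‖ < 1) :
    lensDer z = ∫ s in (0 : ℝ)..1, (1 - ((s : ℂ) * z) ^ 2)⁻¹ := by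
  by_cases h0 : z = 0
  · simp [h0, lensDer_zero]
  have hs : ∀ s ∈ uIcc (0 : ℝ) 1, ‖(s : ℂ) * z‖ < 1 := by
    intro s hs
    rw [uIcc_of_le zero_le_one] at hs
    rw [norm_mul, Complex.norm_real, Real.norm_of_nonneg hs.1]
    nlinarith [norm_nonneg z, hs.1, hs.2]
  have hs2 : ∀ s ∈ uIcc (0 : ℝ) 1, 1 - ((s : ℂ) * z) ^ 2 ≠ 0 := by
    intro s h
    apply one_sub_ne
    rw [norm_pow]
    nlinarith [hs s h, norm_nonneg ((s : ℂ) * z)]
  have hd : ∀ s ∈ uIcc (0 : ℝ) 1, HasDerivAt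
      (fun s : ℝ => 1 / 2 * Complex.log ((1 + (s : ℂ) * z) / (1 - (s : ℂ) * z)))
      (z * (1 - ((s : ℂ) * z) ^ 2)⁻¹) s := by
    intro s h
    have h1 : HasDerivAt (fun w : ℂ => (1 + w * z) / (1 - w * z))
        ((z * (1 - (s : ℂ) * z) - (1 + (s : ℂ) * z) * (-z)) / (1 - (s : ℂ) * z) ^ 2) (s : ℂ) := by
      have ha : HasDerivAt (fun w : ℂ => 1 + w * z) z (s : ℂ) := by
        simpa using ((hasDerivAt_id (s : ℂ)).mul_const z).const_add 1
      have hb : HasDerivAt (fun w : ℂ => 1 - w * z) (-z) (s : ℂ) := by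
        simpa using ((hasDerivAt_id (s : ℂ)).mul_const z).const_sub 1
      exact ha.div hb (one_sub_ne (hs s h))
    have h2 := (h1.clog (Or.inl (cayley_re_pos (hs s h)))).const_mul (1 / 2)
    have h3 := h2.comp_ofReal
    convert h3 using 1
    have e1 := one_sub_ne (hs s h)
    have e2 : 1 + (s : ℂ) * z ≠ 0 := by
      have := one_sub_ne (z := -((s : ℂ) * z)) (by simpa using hs s h)
      simpa using this
    have e3 : 1 - ((s : ℂ) * z) ^ 2 = (1 - (s : ℂ) * z) * (1 + (s : ℂ) * z) := by ring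
    rw [e3]
    field_simp
    ring
  have hc : ContinuousOn (fun s : ℝ => (1 - ((s : ℂ) * z) ^ 2)⁻¹) (uIcc 0 1) :=
    ContinuousOn.inv₀ (by fun_prop) hs2
  have h := intervalIntegral.integral_eq_sub_of_hasDerivAt hd
    ((continuousOn_const.mul hc).intervalIntegrable)
  rw [intervalIntegral.integral_const_mul] at h
  have h5 := mul_lensDer hz
  apply mul_left_cancel₀ h0
  rw [h, h5]
  simp

theorem re_lensDer {z : ℂ} (hz : ‖z‖ < 1) : 1 / 2 ≤ (lensDer z).re := by
  have hs : ∀ s ∈ uIcc (0 : ℝ) 1, ‖((s : ℂ) * z) ^ 2‖ < 1 := by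
    intro s hs
    rw [uIcc_of_le zero_le_one] at hs
    rw [norm_pow, norm_mul, Complex.norm_real, Real.norm_of_nonneg hs.1]
    have : s * ‖z‖ < 1 := by nlinarith [norm_nonneg z, hs.1, hs.2]
    have h2 : 0 ≤ s * ‖z‖ := mul_nonneg hs.1 (norm_nonneg _)
    nlinarith
  have hc : ContinuousOn (fun s : ℝ => (1 - ((s : ℂ) * z) ^ 2)⁻¹) (uIcc 0 1) :=
    ContinuousOn.inv₀ (by fun_prop) fun s h => one_sub_ne (hs s h)
  rw [lensDer_eq_integral hz]
  have h1 := (Complex.reCLM.intervalIntegral_comp_comm (μ := MeasureTheory.volume)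
    hc.intervalIntegrable).symm
  simp only [Complex.reCLM_apply] at h1
  rw [h1]
  have h2 : (1 / 2 : ℝ) = ∫ _ in (0 : ℝ)..1, (1 / 2 : ℝ) := by simp
  rw [h2]
  apply intervalIntegral.integral_mono_on zero_le_one
  · simp
  · exact (Complex.continuous_re.comp_continuousOn hc).intervalIntegrable
  · intro s h
    exact re_inv_one_sub (hs s (by rwa [uIcc_of_le zero_le_one]))

theorem lensDer_ne {z : ℂ} (hz : ‖z‖ < 1) : lensDer z ≠ 0 := by
  intro h
  have := re_lensDer hz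
  rw [h] at this
  norm_num at this

/-- Strong monotonicity of the lens map. -/
theorem lensMap_mono {a b : ℂ} (ha : ‖a‖ < 1) (hb : ‖b‖ < 1) :
    1 / 2 * Complex.normSq (a - b) ≤ (starRingEnd ℂ (a - b) * (lensMap a - lensMap b)).re := by
  have hmem : ∀ t ∈ Icc (0 : ℝ) 1, ‖b + (t : ℂ) * (a - b)‖ < 1 := by
    intro t ht
    have := (convex_ball (0 : ℂ) 1) (show b ∈ ball (0 : ℂ) 1 by simpa using hb)
      (show a ∈ ball (0 : ℂ) 1 by simpa using ha) (sub_nonneg.2 ht.2) ht.1 (by ring)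
    simp only [mem_ball, dist_zero_right] at this
    convert! this using 2
    rw [Complex.real_smul, Complex.real_smul]
    push_cast
    ring
  have hd : ∀ t ∈ Icc (0 : ℝ) 1, HasDerivAt
      (fun t : ℝ => (starRingEnd ℂ (a - b) * lensMap (b + (t : ℂ) * (a - b))).re
        - 1 / 2 * Complex.normSq (a - b) * t)
      ((starRingEnd ℂ (a - b) * (lensDer (b + (t : ℂ) * (a - b)) * (a - b))).re
        - 1 / 2 * Complex.normSq (a - b)) t := by
    intro t ht
    have h1 : HasDerivAt (fun w : ℂ => b + w * (a - b)) (a - b) (t : ℂ) := by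
      simpa using ((hasDerivAt_id (t : ℂ)).mul_const (a - b)).const_add b
    have h2 := ((hasDerivAt_lensMap (hmem t ht)).comp (t : ℂ) h1).const_mul (starRingEnd ℂ (a - b))
    have h3 := h2.real_of_complex
    have h4 : HasDerivAt (fun t : ℝ => 1 / 2 * Complex.normSq (a - b) * t)
        (1 / 2 * Complex.normSq (a - b)) t := by
      simpa using (hasDerivAt_id t).const_mul (1 / 2 * Complex.normSq (a - b))
    exact h3.sub h4
  have hmono := monotoneOn_of_hasDerivWithinAt_nonneg (convex_Icc (0 : ℝ) 1)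
    (fun t ht => (hd t ht).continuousAt.continuousWithinAt)
    (fun t ht => (hd t (interior_subset ht)).hasDerivWithinAt) (fun t ht => by
      have h1 := re_lensDer (hmem t (interior_subset ht))
      have h2 : starRingEnd ℂ (a - b) * (lensDer (b + (t : ℂ) * (a - b)) * (a - b))
          = (Complex.normSq (a - b) : ℂ) * lensDer (b + (t : ℂ) * (a - b)) := by
        rw [Complex.normSq_eq_conj_mul_self]; ring
      rw [h2, Complex.re_ofReal_mul]
      nlinarith [Complex.normSq_nonneg (a - b)])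
  have h := hmono (show (0 : ℝ) ∈ Icc (0 : ℝ) 1 by simp) (show (1 : ℝ) ∈ Icc (0 : ℝ) 1 by simp)
    zero_le_one
  simp only [Complex.ofReal_zero, zero_mul, add_zero, mul_zero, sub_zero, Complex.ofReal_one,
    one_mul, add_sub_cancel, mul_one] at h
  rw [mul_sub, Complex.sub_re]
  linarith

theorem injOn_lensMap : InjOn lensMap (ball 0 1) := by
  intro a ha b hb h
  have h1 := lensMap_mono (a := a) (b := b) (by simpa using ha) (by simpa using hb)
  rw [h, sub_self, mul_zero, Complex.zero_re] at h1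
  have h2 : Complex.normSq (a - b) = 0 := le_antisymm (by linarith) (Complex.normSq_nonneg _)
  exact sub_eq_zero.1 (Complex.normSq_eq_zero.1 h2)

theorem im_mul_im_lensMap {z : ℂ} (hz : ‖z‖ < 1) : z.im ^ 2 ≤ 2 * (z.im * (lensMap z).im) := by
  have h := lensMap_mono (a := z) (b := starRingEnd ℂ z) hz (by simpa using hz)
  rw [lensMap_conj] at h
  simp [Complex.normSq_apply] at h
  nlinarith

end Vale.Agent.P248
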