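import Vale.Agent.P248.NStar
import Vale.Agent.P248.HDef

/-! Products and sums of bodies, and their volumes. -/

namespace Vale.Agent.P248

open Set Matrix MeasureTheory Filter Topology Pointwise

variable {n k l : ℕ}

/-- Appending as a linear equivalence. -/
def apE (k l : ℕ) : ((Fin k → ℝ) × (Fin l → ℝ)) ≃ₗ[ℝ] (Fin (k + l) → ℝ) where
  toFun p := Fin.append p.1 p.2
  invFun z := (fun i => z (Fin.castAdd l i), fun j => z (Fin.natAdd k j))
  map_add' p q := by
    ext i
    refine Fin.addCases (fun i => ?_) (fun i => ?_) i <;> simp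
  map_smul' c p := by
    ext i
    refine Fin.addCases (fun i => ?_) (fun i => ?_) i <;> simp
  left_inv p := by ext <;> simp
  right_inv z := by simp [Fin.append_castAdd_natAdd]

theorem apE_apply (x : Fin k → ℝ) (y : Fin l → ℝ) : apE k l (x, y) = Fin.append x y := rfl

theorem dot_apE (p q : (Fin k → ℝ) × (Fin l → ℝ)) :
    apE k l p ⬝ᵥ apE k l q = p.1 ⬝ᵥ q.1 + p.2 ⬝ᵥ q.2 := by
  simp [apE, dotProduct, Fin.sum_univ_add]

theorem apE_mp (k l : ℕ) : MeasurePreserving (apE k l) volume volume := by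
  have h := (volume_measurePreserving_piCongrLeft (fun _ : Fin (k + l) => ℝ) finSumFinEquiv).comp
    (volume_measurePreserving_sumPiEquivProdPi_symm fun _ : Fin k ⊕ Fin l => ℝ)
  convert h using 1
  ext p i
  refine Fin.addCases (fun i => ?_) (fun i => ?_) i
  · have := Equiv.piCongrLeft_sumInl (fun _ : Fin (k + l) => ℝ) finSumFinEquiv p.1 p.2 i
    simp only [finSumFinEquiv_apply_left] at this
    exact (Fin.append_left p.1 p.2 i).trans this.symm
  · have := Equiv.piCongrLeft_sumInr (fun _ : Fin (k + l) => ℝ) finSumFinEquiv p.1 p.2 i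
    simp only [finSumFinEquiv_apply_right] at this
    exact (Fin.append_right p.1 p.2 i).trans this.symm

theorem apE_cont (k l : ℕ) : Continuous (apE k l) := (apE k l).toContinuousLinearEquiv.continuous

theorem apE_symm_cont (k l : ℕ) : Continuous (apE k l).symm :=
  (apE k l).symm.toContinuousLinearEquiv.continuous

theorem apE_emb (k l : ℕ) : MeasurableEmbedding (apE k l) :=
  (apE k l).toContinuousLinearEquiv.toHomeomorph.measurableEmbedding

/-- Product of two sets. -/
def prodS (A : Set (Fin k → ℝ)) (B : Set (Fin l → ℝ)) : Set (Fin (k + l) → ℝ) :=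
  {z | ∃ x ∈ A, ∃ y ∈ B, z = Fin.append x y}

/-- Convex hull of two sets placed in complementary coordinate subspaces. -/
def sumS (A : Set (Fin k → ℝ)) (B : Set (Fin l → ℝ)) : Set (Fin (k + l) → ℝ) :=
  convexHull ℝ ({z | ∃ x ∈ A, z = Fin.append x (0 : Fin l → ℝ)} ∪
    {z | ∃ y ∈ B, z = Fin.append (0 : Fin k → ℝ) y})

theorem mem_prodS {A : Set (Fin k → ℝ)} {B : Set (Fin l → ℝ)} {p : (Fin k → ℝ) × (Fin l → ℝ)} :
    apE k l p ∈ prodS A B ↔ p.1 ∈ A ∧ p.2 ∈ B := by
  constructor
  · rintro ⟨x, hx, y, hy, h⟩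
    obtain rfl : p = (x, y) := (apE k l).injective h
    exact ⟨hx, hy⟩
  · exact fun h => ⟨_, h.1, _, h.2, rfl⟩

theorem prodS_eq (A : Set (Fin k → ℝ)) (B : Set (Fin l → ℝ)) :
    prodS A B = apE k l '' (A ×ˢ B) := by
  ext z
  obtain ⟨p, rfl⟩ := (apE k l).surjective z
  rw [mem_prodS, (apE k l).injective.mem_set_image]
  rfl

theorem volume_prodS (A : Set (Fin k → ℝ)) (B : Set (Fin l → ℝ)) :
    volume (prodS A B) = volume A * volume B := by
  rw [← (apE_mp k l).measure_preimage_emb (apE_emb k l), prodS_eq,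
    preimage_image_eq _ (apE k l).injective, Measure.volume_eq_prod, Measure.prod_prod]

theorem left_mem_sumS {A : Set (Fin k → ℝ)} (B : Set (Fin l → ℝ)) {x : Fin k → ℝ} (hx : x ∈ A) :
    apE k l (x, 0) ∈ sumS A B := subset_convexHull ℝ _ (Or.inl ⟨x, hx, rfl⟩)

theorem right_mem_sumS (A : Set (Fin k → ℝ)) {B : Set (Fin l → ℝ)} {y : Fin l → ℝ} (hy : y ∈ B) :
    apE k l (0, y) ∈ sumS A B := subset_convexHull ℝ _ (Or.inr ⟨y, hy, rfl⟩)

theorem sumS_subset {A : Set (Fin k → ℝ)} {B : Set (Fin l → ℝ)} {C : Set (Fin (k + l) → ℝ)}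
    (hC : Convex ℝ C) (h1 : ∀ x ∈ A, apE k l (x, 0) ∈ C) (h2 : ∀ y ∈ B, apE k l (0, y) ∈ C) :
    sumS A B ⊆ C := by
  refine convexHull_min ?_ hC
  rintro z (⟨x, hx, rfl⟩ | ⟨y, hy, rfl⟩)
  · exact h1 x hx
  · exact h2 y hy

theorem polar_sumS (A : Set (Fin k → ℝ)) (B : Set (Fin l → ℝ)) :
    dotPolar (sumS A B) = prodS (dotPolar A) (dotPolar B) := by
  ext z
  obtain ⟨p, rfl⟩ := (apE k l).surjective z
  rw [mem_prodS]
  constructor
  · intro h
    refine ⟨fun x hx => ?_, fun y hy => ?_⟩
    · simpa [dot_apE] using h _ (left_mem_sumS B hx)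
    · simpa [dot_apE] using h _ (right_mem_sumS A hy)
  · rintro ⟨h1, h2⟩
    refine sumS_subset (C := {x | apE k l p ⬝ᵥ x ≤ 1}) ?_ (fun x hx => ?_) fun y hy => ?_
    · intro y hy z hz a b ha hb hab
      simp only [mem_ofPred_eq] at hy hz ⊢
      rw [dotProduct_add, dotProduct_smul, dotProduct_smul, smul_eq_mul, smul_eq_mul]
      nlinarith
    · simpa [dot_apE] using h1 x hx
    · simpa [dot_apE] using h2 y hy

theorem vol_norm {g : (Fin n → ℝ) → ℝ} (h1 : g 0 = 0) (h2 : ∀ x, g (-x) = g x)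
    (h3 : ∀ x y, g (x + y) ≤ g x + g y) (h4 : ∀ {x}, g x = 0 → x = 0)
    (h5 : ∀ r x, g (r • x) ≤ |r| * g x) :
    n.factorial * (volume {x | g x ≤ 1}).toReal = ∫ x, Real.exp (-g x) := by
  have e : volume {x | g x ≤ 1} = volume {x | g x < 1} := by
    rcases subsingleton_or_nontrivial (Fin n → ℝ) with h | h
    · congr 1
      ext x
      simp [Subsingleton.elim x 0, h1]
    · exact measure_le_eq_lt volume h1 h2 h3 h4 h5 1
  rw [e, measure_lt_one_eq_integral_div_gamma volume h1 h2 h3 h4 h5 one_pos]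
  simp only [Real.rpow_one, div_one, Module.finrank_fin_fun, Real.Gamma_nat_eq_factorial]
  rw [ENNReal.toReal_ofReal (div_nonneg (integral_nonneg fun x => (Real.exp_pos _).le)
    (by positivity))]
  field_simp

namespace Body

variable {K : Set (Fin n → ℝ)} {A : Set (Fin k → ℝ)} {B : Set (Fin l → ℝ)}

theorem mem_nhds (h : Body K) : K ∈ 𝓝 0 := by
  obtain ⟨δ, hδ, hb⟩ := h.ball
  exact mem_of_superset (Metric.closedBall_mem_nhds 0 hδ) hb

theorem of_nhds (h1 : IsCompact K) (h2 : Convex ℝ K) (h3 : ∀ x ∈ K, -x ∈ K) (h4 : K ∈ 𝓝 0) :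
    Body K := ⟨h1, h2, h3, Metric.nhds_basis_closedBall.mem_iff.1 h4⟩

theorem gauge_le (h : Body K) {x : Fin n → ℝ} : gauge K x ≤ 1 ↔ x ∈ K := by
  rw [gauge_le_one_iff_mem_closure h.convex h.mem_nhds, h.compact.isClosed.closure_eq]

theorem gauge_add (h : Body K) (x y : Fin n → ℝ) : gauge K (x + y) ≤ gauge K x + gauge K y :=
  gauge_add_le h.convex (absorbent_nhds_zero h.mem_nhds) x y

theorem gauge_zero' (h : Body K) {x : Fin n → ℝ} (hx : gauge K x = 0) : x = 0 :=
  (gauge_eq_zero (absorbent_nhds_zero h.mem_nhds) (h.compact.isVonNBounded ℝ)).1 hx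

theorem gauge_mul (h : Body K) (r : ℝ) (x : Fin n → ℝ) : gauge K (r • x) = |r| * gauge K x := by
  rcases le_total 0 r with hr | hr
  · rw [gauge_smul_of_nonneg hr, abs_of_nonneg hr, smul_eq_mul]
  · rw [← gauge_neg h.symm, ← neg_smul, gauge_smul_of_nonneg (neg_nonneg.2 hr), abs_of_nonpos hr,
      smul_eq_mul]

theorem exists_smul (h : Body K) (x : Fin n → ℝ) : ∃ y ∈ K, x = gauge K x • y := by
  by_cases h0 : gauge K x = 0
  · exact ⟨0, h.zero_mem, by rw [smul_zero]; exact h.gauge_zero' h0⟩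
  · refine ⟨(gauge K x)⁻¹ • x, h.gauge_le.1 ?_, by rw [smul_inv_smul₀ h0]⟩
    rw [h.gauge_mul, abs_of_nonneg (inv_nonneg.2 (gauge_nonneg x)), inv_mul_cancel₀ h0]

theorem vol_gauge (h : Body K) : n.factorial * (volume K).toReal = ∫ x, Real.exp (-gauge K x) := by
  rw [← vol_norm gauge_zero (gauge_neg h.symm) h.gauge_add h.gauge_zero'
    fun r x => (h.gauge_mul r x).le]
  congr 3
  ext x
  exact h.gauge_le.symm

theorem prod (hA : Body A) (hB : Body B) : Body (prodS A B) := by
  rw [prodS_eq]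
  refine of_nhds ((hA.compact.prod hB.compact).image (apE_cont k l))
    ((hA.convex.prod hB.convex).linear_image (apE k l).toLinearMap) ?_ ?_
  · rintro _ ⟨p, hp, rfl⟩
    exact ⟨-p, ⟨hA.symm _ hp.1, hB.symm _ hp.2⟩, map_neg _ _⟩
  · have := (apE k l).toContinuousLinearEquiv.toHomeomorph.isOpenMap.image_mem_nhds
      (prod_mem_nhds hA.mem_nhds hB.mem_nhds)
    convert! this using 2
    exact (map_zero (apE k l)).symm

theorem sumS_eq (hA : Body A) (hB : Body B) :
    sumS A B = {z | gauge A ((apE k l).symm z).1 + gauge B ((apE k l).symm z).2 ≤ 1} := by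
  apply Subset.antisymm
  · refine sumS_subset ?_ (fun x hx => ?_) fun y hy => ?_
    · intro y hy z hz a b ha hb hab
      simp only [mem_ofPred_eq, map_add, map_smul, Prod.fst_add, Prod.snd_add, Prod.smul_fst,
        Prod.smul_snd] at hy hz ⊢
      have e1 := hA.gauge_add (a • ((apE k l).symm y).1) (b • ((apE k l).symm z).1)
      have e2 := hB.gauge_add (a • ((apE k l).symm y).2) (b • ((apE k l).symm z).2)
      rw [hA.gauge_mul, hA.gauge_mul, abs_of_nonneg ha, abs_of_nonneg hb] at e1
      rw [hB.gauge_mul, hB.gauge_mul, abs_of_nonneg ha, abs_of_nonneg hb] at e2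
      nlinarith
    · simpa using hA.gauge_le.2 hx
    · simpa using hB.gauge_le.2 hy
  · intro z hz
    obtain ⟨p, rfl⟩ := (apE k l).surjective z
    simp only [mem_ofPred_eq, LinearEquiv.symm_apply_apply] at hz
    obtain ⟨x, hx, ex⟩ := hA.exists_smul p.1
    obtain ⟨y, hy, ey⟩ := hB.exists_smul p.2
    have h0 : (0 : Fin (k + l) → ℝ) ∈ sumS A B := by
      simpa [← Prod.zero_eq_mk] using left_mem_sumS B hA.zero_mem
    have hc : Convex ℝ (sumS A B) := convex_convexHull ℝ _
    have := hc.sum_mem (t := (Finset.univ : Finset (Fin 3)))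
      (w := ![gauge A p.1, gauge B p.2, 1 - gauge A p.1 - gauge B p.2])
      (z := ![apE k l (x, 0), apE k l (0, y), 0]) (by
        intro i _
        fin_cases i
        · exact gauge_nonneg _
        · exact gauge_nonneg _
        · simp only [Fin.reduceFinMk, cons_val]; linarith) (by simp [Fin.sum_univ_three]) (by
        intro i _
        fin_cases i
        · exact left_mem_sumS B hx
        · exact right_mem_sumS A hy
        · exact h0)
    convert this using 1
    simp only [Fin.sum_univ_three, cons_val, smul_zero, add_zero, ← map_smul, ← map_add,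
      Prod.smul_mk, Prod.mk_add_mk, zero_add, ← ex, ← ey]

theorem sum (hA : Body A) (hB : Body B) : Body (sumS A B) := by
  have hc : Continuous fun z => gauge A ((apE k l).symm z).1 + gauge B ((apE k l).symm z).2 :=
    ((continuous_gauge hA.convex hA.mem_nhds).comp (apE_symm_cont k l).fst).add
      ((continuous_gauge hB.convex hB.mem_nhds).comp (apE_symm_cont k l).snd)
  refine of_nhds ((hA.prod hB).compact.of_isClosed_subset ?_ ?_) (convex_convexHull ℝ _) ?_ ?_
  · rw [hA.sumS_eq hB]
    exact isClosed_le hc continuous_const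
  · exact sumS_subset (hA.prod hB).convex (fun x hx => mem_prodS.2 ⟨hx, hB.zero_mem⟩)
      fun y hy => mem_prodS.2 ⟨hA.zero_mem, hy⟩
  · rw [hA.sumS_eq hB]
    intro z hz
    simpa only [mem_ofPred_eq, map_neg, Prod.fst_neg, Prod.snd_neg, gauge_neg hA.symm,
      gauge_neg hB.symm] using hz
  · rw [hA.sumS_eq hB]
    exact mem_of_superset ((isOpen_lt hc (continuous_const (y := (1 : ℝ)))).mem_nhds (by simp))
      fun z hz => by simp only [mem_ofPred_eq] at hz ⊢; exact hz.le

theorem vol_sum (hA : Body A) (hB : Body B) : (k + l).factorial * (volume (sumS A B)).toReal =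
    (k.factorial * (volume A).toReal) * (l.factorial * (volume B).toReal) := by
  rw [hA.sumS_eq hB, vol_norm (by simp) (fun x => by simp [gauge_neg hA.symm, gauge_neg hB.symm])
    (fun x y => by
      simp only [map_add, Prod.fst_add, Prod.snd_add]
      linarith [hA.gauge_add ((apE k l).symm x).1 ((apE k l).symm y).1,
        hB.gauge_add ((apE k l).symm x).2 ((apE k l).symm y).2])
    (fun {x} hx => by
      have a1 := gauge_nonneg (s := A) ((apE k l).symm x).1
      have a2 := gauge_nonneg (s := B) ((apE k l).symm x).2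
      have : (apE k l).symm x = 0 :=
        Prod.ext (hA.gauge_zero' (by linarith)) (hB.gauge_zero' (by linarith))
      simpa using this)
    (fun r x => by
      simp only [map_smul, Prod.smul_fst, Prod.smul_snd, hA.gauge_mul, hB.gauge_mul]
      linarith),
    hA.vol_gauge, hB.vol_gauge, ← integral_prod_mul, ← (apE_mp k l).integral_comp (apE_emb k l),
    Measure.volume_eq_prod]
  simp only [LinearEquiv.symm_apply_apply, neg_add, Real.exp_add]

theorem mv_polar (h : Body K) : mv (dotPolar K) = mv K := by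
  rw [mv, mv, h.polar_polar, mul_comm (volume K).toReal]

theorem mv_sum (hA : Body A) (hB : Body B) : mv (sumS A B) = mv A * mv B := by
  rw [mv, ← mul_assoc, hA.vol_sum hB, polar_sumS, volume_prodS, ENNReal.toReal_mul, mv, mv]
  ring

theorem polar_prod (hA : Body A) (hB : Body B) :
    dotPolar (prodS A B) = sumS (dotPolar A) (dotPolar B) := by
  rw [← (hA.polar.sum hB.polar).polar_polar, polar_sumS, hA.polar_polar, hB.polar_polar]

theorem mv_prod (hA : Body A) (hB : Body B) : mv (prodS A B) = mv A * mv B := by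
  rw [← (hA.prod hB).mv_polar, hA.polar_prod hB, hA.polar.mv_sum hB.polar, hA.mv_polar,
    hB.mv_polar]

end Body

end Vale.Agent.P248
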