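import Vale.Agent.P248.Lower

/-! The upper bound for the mass. -/

namespace Vale.Agent.P248

open Set Filter Topology Metric MeasureTheory Matrix Real Pointwise

variable {n : ℕ} {ι : Type*} [Fintype ι]

/-- The linear form given by a vector. -/
noncomputable def dotL (e : Fin n → ℝ) : (Fin n → ℝ) →L[ℝ] ℝ :=
  ∑ k, e k • ContinuousLinearMap.proj k

theorem dotL_apply (e y : Fin n → ℝ) : dotL e y = e ⬝ᵥ y := by
  simp [dotL, dotProduct]

/-- The gradient map on a vertical slice. -/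
noncomputable def slice (η : ι → Fin n → ℝ) (e : ι → ℕ) (x y : Fin n → ℝ) : Fin n → ℝ :=
  comb η fun i => xi (e i) (η i ⬝ᵥ x) (η i ⬝ᵥ y)

theorem hasFDerivAt_slice (η : ι → Fin n → ℝ) (e : ι → ℕ) {x y : Fin n → ℝ}
    (h : (x, y) ∈ dom η lens) :
    HasFDerivAt (slice η e x) (LinearMap.toContinuousLinearMap
      (Matrix.toLin' (mat η (fun i => lensPow (e i)) (x, y)))) y := by
  rw [hasFDerivAt_pi']
  intro k
  have h1 : ∀ i, HasFDerivAt (fun y => xi (e i) (η i ⬝ᵥ x) (η i ⬝ᵥ y) * η i k)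
      (η i k • (lap (lensPow (e i)) (lin (η i) (x, y)) • dotL (η i))) y := by
    intro i
    have a1 := hasDerivAt_xi (e i) (u := η i ⬝ᵥ x) (v := dotL (η i) y)
      (by rw [dotL_apply]; exact h i)
    have a2 := (a1.comp_hasFDerivAt y (dotL (η i)).hasFDerivAt).mul_const (η i k)
    simp only [Function.comp_apply, dotL_apply] at a2
    exact a2
  refine (HasFDerivAt.fun_sum fun i (_ : i ∈ Finset.univ) => h1 i).congr_fderiv ?_
  ext v
  simp only [_root_.sum_apply, _root_.smul_apply, dotL_apply,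
    smul_eq_mul, ContinuousLinearMap.comp_apply, LinearMap.coe_toContinuousLinearMap',
    toLin'_apply, ContinuousLinearMap.proj_apply, mat, gram_mulVec, comb]
  exact Finset.sum_congr rfl fun _ _ => by ring

theorem injOn_slice {η : ι → Fin n → ℝ} (hη : ∀ v, (∀ i, η i ⬝ᵥ v = 0) → v = 0) (e : ι → ℕ)
    (x : Fin n → ℝ) : InjOn (slice η e x) {y | (x, y) ∈ dom η lens} := by
  intro y hy y' hy' h
  have h1 : slice η e x y ⬝ᵥ (y - y') = slice η e x y' ⬝ᵥ (y - y') := by rw [h]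
  rw [slice, slice, comb_dot, comb_dot, ← sub_eq_zero, ← Finset.sum_sub_distrib] at h1
  have h2 : ∀ i, η i ⬝ᵥ y ≠ η i ⬝ᵥ y' → 0 < xi (e i) (η i ⬝ᵥ x) (η i ⬝ᵥ y) * (η i ⬝ᵥ (y - y'))
      - xi (e i) (η i ⬝ᵥ x) (η i ⬝ᵥ y') * (η i ⬝ᵥ (y - y')) := by
    intro i hi
    rw [← sub_mul, dotProduct_sub]
    rcases lt_or_gt_of_ne hi with h3 | h3
    · have := strictMonoOn_xi (e i) (η i ⬝ᵥ x) (hy i) (hy' i) h3
      exact mul_pos_of_neg_of_neg (by linarith) (by linarith)
    · have := strictMonoOn_xi (e i) (η i ⬝ᵥ x) (hy' i) (hy i) h3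
      exact mul_pos (by linarith) (by linarith)
  have h3 := (Finset.sum_eq_zero_iff_of_nonneg fun i _ => by
    by_cases hi : η i ⬝ᵥ y = η i ⬝ᵥ y'
    · rw [hi, sub_self]
    · exact (h2 i hi).le).1 h1
  apply sub_eq_zero.1
  apply hη
  intro i
  rw [dotProduct_sub, sub_eq_zero]
  by_contra hi
  exact (h2 i hi).ne' (h3 i (Finset.mem_univ i))

theorem slice_mass_le {η : ι → Fin n → ℝ} (hη : ∀ v, (∀ i, η i ⬝ᵥ v = 0) → v = 0) (e : ι → ℕ)
    {B : Set (Fin n → ℝ)} (hB : ∀ c : ι → ℝ, ∑ i, |c i| ≤ 1 → comb η c ∈ B) (σ : ℝ)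
    (x : Fin n → ℝ) {R : ℝ} (hR : 0 < R)
    (h : ∀ y, (x, y) ∈ sub η (fun i => lensPow (e i)) lens σ →
      ∑ i, |xi (e i) (η i ⬝ᵥ x) (η i ⬝ᵥ y)| ≤ R) :
    ∫⁻ y, (sub η (fun i => lensPow (e i)) lens σ).indicator
      (fun z => ENNReal.ofReal (mat η (fun i => lensPow (e i)) z).det) (x, y)
      ≤ ENNReal.ofReal (R ^ n) * volume B := by
  let Y : Set (Fin n → ℝ) := {y | (x, y) ∈ sub η (fun i => lensPow (e i)) lens σ}
  have hY : MeasurableSet Y :=
    ((isOpen_sub isOpen_lens (fun i => differentiableOn_lensPow (e i)) σ).preimage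
      (Continuous.prodMk_right x)).measurableSet
  have h1 := lintegral_abs_det_fderiv_le_addHaar_image (volume : Measure (Fin n → ℝ)) hY
    (fun y hy => (hasFDerivAt_slice η e hy.1).hasFDerivWithinAt)
    ((injOn_slice hη e x).mono fun y hy => hy.1)
  have h2 : slice η e x '' Y ⊆ R • B := by
    rintro _ ⟨y, hy, rfl⟩
    refine ⟨comb η fun i => xi (e i) (η i ⬝ᵥ x) (η i ⬝ᵥ y) / R, hB _ ?_, ?_⟩
    · simp only [abs_div, abs_of_pos hR]
      rw [← Finset.sum_div, div_le_one hR]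
      exact h y hy
    · funext k
      simp only [slice, comb, Pi.smul_apply, smul_eq_mul, Finset.mul_sum]
      refine Finset.sum_congr rfl fun i _ => ?_
      field_simp
  have h3 := (h1.trans (measure_mono h2)).trans_eq (Measure.addHaar_smul_of_nonneg _ hR.le B)
  rw [Module.finrank_fin_fun, ← lintegral_indicator hY] at h3
  refine le_trans (le_of_eq ?_) h3
  congr 1
  funext y
  by_cases hy : y ∈ Y
  · rw [indicator_of_mem hy, indicator_of_mem (show (x, y) ∈ _ from hy),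
      LinearMap.det_toContinuousLinearMap, LinearMap.det_toLin',
      abs_of_nonneg (det_mat_nonneg _)]
  · rw [indicator_of_notMem hy, indicator_of_notMem (show (x, y) ∉ _ from hy)]

/-- The polytope cut out by the linear forms. -/
def slab (η : ι → Fin n → ℝ) (c : ℝ) : Set (Fin n → ℝ) := {x | ∀ i, |η i ⬝ᵥ x| ≤ c}

omit [Fintype ι] in
theorem isClosed_slab (η : ι → Fin n → ℝ) (c : ℝ) : IsClosed (slab η c) := by
  have : slab η c = ⋂ i, {x | |η i ⬝ᵥ x| ≤ c} := by ext; simp [slab]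
  rw [this]
  exact isClosed_iInter fun i => isClosed_le (by fun_prop) continuous_const

omit [Fintype ι] in
theorem volume_slab (η : ι → Fin n → ℝ) {c : ℝ} (hc : 0 < c) :
    volume (slab η c) = ENNReal.ofReal (c ^ n) * volume (slab η 1) := by
  have : slab η c = c • slab η 1 := by
    ext x
    rw [mem_smul_set_iff_inv_smul_mem₀ hc.ne']
    simp only [slab, mem_ofPred_eq, dotProduct_smul, smul_eq_mul, abs_mul, abs_inv, abs_of_pos hc,
      inv_mul_le_iff₀ hc, mul_one]
  rw [this, Measure.addHaar_smul_of_nonneg _ hc.le, Module.finrank_fin_fun]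

theorem mass_le {η : ι → Fin n → ℝ} (hη : ∀ v, (∀ i, η i ⬝ᵥ v = 0) → v = 0) (e : ι → ℕ)
    {B : Set (Fin n → ℝ)} (hB : ∀ c : ι → ℝ, ∑ i, |c i| ≤ 1 → comb η c ∈ B) (σ : ℝ)
    (hA : volume (slab η 1) ≠ ⊤) {c R₁ R₂ : ℝ} (hc0 : 0 < c) (hc : c ≤ π ^ 2 / 8)
    (hR₁ : 0 < R₁) (hR₂ : 0 < R₂)
    (h₁ : ∀ x ∈ slab η c, ∀ y, (x, y) ∈ sub η (fun i => lensPow (e i)) lens σ →
      ∑ i, |xi (e i) (η i ⬝ᵥ x) (η i ⬝ᵥ y)| ≤ R₁)
    (h₂ : ∀ x y, (x, y) ∈ sub η (fun i => lensPow (e i)) lens σ →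
      ∑ i, |xi (e i) (η i ⬝ᵥ x) (η i ⬝ᵥ y)| ≤ R₂) :
    mass η (fun i => lensPow (e i)) lens σ ≤ ENNReal.ofReal
      (R₁ ^ n * c ^ n + R₂ ^ n * ((π ^ 2 / 8) ^ n - c ^ n)) * (volume (slab η 1) * volume B) := by
  have hΦ : ∀ i, DifferentiableOn ℂ (lensPow (e i)) lens := fun i => differentiableOn_lensPow _
  rw [mass, ← lintegral_indicator (isOpen_sub isOpen_lens hΦ σ).measurableSet,
    Measure.volume_eq_prod, lintegral_prod _ (measurable_density isOpen_lens hΦ σ).aemeasurable]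
  have m1 := (isClosed_slab η c).measurableSet
  have m2 := (isClosed_slab η (π ^ 2 / 8)).measurableSet
  have key : ∀ x, ∫⁻ y, (sub η (fun i => lensPow (e i)) lens σ).indicator
      (fun z => ENNReal.ofReal (mat η (fun i => lensPow (e i)) z).det) (x, y)
      ≤ (slab η c).indicator (fun _ => ENNReal.ofReal (R₁ ^ n) * volume B) x
        + (slab η (π ^ 2 / 8) \ slab η c).indicator
          (fun _ => ENNReal.ofReal (R₂ ^ n) * volume B) x := by
    intro x
    by_cases hx1 : x ∈ slab η c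
    · rw [indicator_of_mem hx1]
      exact (slice_mass_le hη e hB σ x hR₁ (h₁ x hx1)).trans le_self_add
    · by_cases hx2 : x ∈ slab η (π ^ 2 / 8)
      · rw [indicator_of_mem (show x ∈ slab η (π ^ 2 / 8) \ slab η c from ⟨hx2, hx1⟩)]
        exact (slice_mass_le hη e hB σ x hR₂ (h₂ x)).trans le_add_self
      · have : ∀ y, (x, y) ∉ sub η (fun i => lensPow (e i)) lens σ := by
          intro y hy
          apply hx2
          intro i
          simpa [lin] using abs_re_le (hy.1 i)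
        simp [indicator_of_notMem (this _)]
  refine (lintegral_mono key).trans ?_
  have hb : (0 : ℝ) < π ^ 2 / 8 := by positivity
  have hsub : slab η c ⊆ slab η (π ^ 2 / 8) := fun x hx i => (hx i).trans hc
  have hle : c ^ n ≤ (π ^ 2 / 8) ^ n := by gcongr
  rw [lintegral_add_left (measurable_const.indicator m1), lintegral_indicator_const m1,
    lintegral_indicator_const (m2.diff m1), measure_sdiff hsub m1.nullMeasurableSet (by
      rw [volume_slab η hc0]; exact ENNReal.mul_ne_top ENNReal.ofReal_ne_top hA),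
    volume_slab η hc0, volume_slab η hb, ← ENNReal.sub_mul (fun _ _ => hA),
    ← ENNReal.ofReal_sub _ (by positivity),
    ENNReal.ofReal_add (by positivity) (mul_nonneg (by positivity) (by linarith)),
    ENNReal.ofReal_mul (by positivity), ENNReal.ofReal_mul (by positivity)]
  apply le_of_eq
  ring

end Vale.Agent.P248
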