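import Vale.Agent.P248.Lens

/-! Vertical primitives of the Laplacian of powers of the inverse conformal map. -/

namespace Vale.Agent.P248

open Set Filter Topology Metric Real MeasureTheory

/-- Laplacian of the squared modulus of a holomorphic function. -/
noncomputable def lap (Φ : ℂ → ℂ) (w : ℂ) : ℝ := 4 * Complex.normSq (deriv Φ w)

theorem lap_nonneg (Φ : ℂ → ℂ) (w : ℂ) : 0 ≤ lap Φ w := by
  unfold lap; have := Complex.normSq_nonneg (deriv Φ w); positivity

/-- The power `k + 1` of the inverse conformal map. -/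
noncomputable def lensPow (k : ℕ) (w : ℂ) : ℂ := lensInv w ^ (k + 1)

theorem hasDerivAt_lensPow (k : ℕ) {w : ℂ} (hw : w ∈ lens) :
    HasDerivAt (lensPow k) ((k + 1 : ℕ) * lensInv w ^ k * (lensDer (lensInv w))⁻¹) w := by
  exact (hasDerivAt_lensInv hw).pow (k + 1)

theorem differentiableOn_lensPow (k : ℕ) : DifferentiableOn ℂ (lensPow k) lens := fun _ hw =>
  (hasDerivAt_lensPow k hw).differentiableAt.differentiableWithinAt

theorem normSq_lensPow (k : ℕ) (w : ℂ) :
    Complex.normSq (lensPow k w) = Complex.normSq (lensInv w) ^ (k + 1) := by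
  simp [lensPow]

theorem lap_lensPow (k : ℕ) {w : ℂ} (hw : w ∈ lens) :
    lap (lensPow k) w = 4 * (k + 1) ^ 2 * Complex.normSq (lensInv w) ^ k
      / Complex.normSq (lensDer (lensInv w)) := by
  rw [lap, (hasDerivAt_lensPow k hw).deriv]
  simp only [map_mul, map_pow, map_inv₀, Complex.normSq_natCast]
  push_cast
  ring

theorem continuousOn_lap {Φ : ℂ → ℂ} {Λ : Set ℂ} (hΛ : IsOpen Λ) (hΦ : DifferentiableOn ℂ Φ Λ) :
    ContinuousOn (lap Φ) Λ :=
  continuousOn_const.mul (Complex.continuous_normSq.comp_continuousOn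
    (hΦ.deriv hΛ).continuousOn)

theorem lap_pos (k : ℕ) {w : ℂ} (hw : w ∈ lens) (h0 : w ≠ 0) : 0 < lap (lensPow k) w := by
  rw [lap_lensPow k hw]
  have a1 := Complex.normSq_pos.2 (lensInv_ne_zero hw h0)
  have a2 := Complex.normSq_pos.2 (lensDer_ne (norm_lensInv hw))
  positivity

theorem lap_conj (k : ℕ) {w : ℂ} (hw : w ∈ lens) :
    lap (lensPow k) (starRingEnd ℂ w) = lap (lensPow k) w := by
  rw [lap_lensPow k hw, lap_lensPow k (conj_mem_lens hw), lensInv_conj hw, lensDer_conj]
  simp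

/-- Vertical primitive. -/
noncomputable def xi (k : ℕ) (u v : ℝ) : ℝ := ∫ s in (0 : ℝ)..v, lap (lensPow k) (pt u s)

theorem isOpen_section (u : ℝ) : IsOpen {s : ℝ | pt u s ∈ lens} :=
  isOpen_lens.preimage (continuous_pt u)

theorem continuousOn_section (k : ℕ) (u : ℝ) :
    ContinuousOn (fun s => lap (lensPow k) (pt u s)) {s : ℝ | pt u s ∈ lens} :=
  (continuousOn_lap isOpen_lens (differentiableOn_lensPow k)).comp
    (continuous_pt u).continuousOn fun _ h => h

theorem uIcc_subset {u v v' : ℝ} (hv : pt u v ∈ lens) (hv' : pt u v' ∈ lens) :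
    uIcc v v' ⊆ {s : ℝ | pt u s ∈ lens} := by
  intro s hs
  rcases le_total |s| |v| with h | h
  · exact (vertical_abs hv h).1
  · rcases le_total |s| |v'| with h' | h'
    · exact (vertical_abs hv' h').1
    · have h3 : |s| ≤ max |v| |v'| := by
        rcases le_total v v' with h4 | h4
        · rw [uIcc_of_le h4] at hs
          exact abs_le_max_abs_abs hs.1 hs.2
        · rw [uIcc_of_ge h4] at hs
          rw [max_comm]
          exact abs_le_max_abs_abs hs.1 hs.2
      rcases le_max_iff.1 h3 with h5 | h5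
      · exact (vertical_abs hv h5).1
      · exact (vertical_abs hv' h5).1

theorem pt_zero_mem {u v : ℝ} (hv : pt u v ∈ lens) : pt u 0 ∈ lens :=
  (vertical_abs hv (by simp)).1

theorem intervalIntegrable_section (k : ℕ) {u v v' : ℝ} (hv : pt u v ∈ lens)
    (hv' : pt u v' ∈ lens) :
    IntervalIntegrable (fun s => lap (lensPow k) (pt u s)) volume v v' :=
  ((continuousOn_section k u).mono (uIcc_subset hv hv')).intervalIntegrable

theorem hasDerivAt_xi (k : ℕ) {u v : ℝ} (hv : pt u v ∈ lens) :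
    HasDerivAt (xi k u) (lap (lensPow k) (pt u v)) v :=
  intervalIntegral.integral_hasDerivAt_right (intervalIntegrable_section k (pt_zero_mem hv) hv)
    ((continuousOn_section k u).stronglyMeasurableAtFilter (isOpen_section u) v hv)
    ((continuousOn_section k u).continuousAt ((isOpen_section u).mem_nhds hv))

theorem strictMonoOn_xi (k : ℕ) (u : ℝ) : StrictMonoOn (xi k u) {s : ℝ | pt u s ∈ lens} := by
  intro v hv v' hv' hlt
  have h := intervalIntegral.integral_interval_sub_left
    (intervalIntegrable_section k (pt_zero_mem hv') hv')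
    (intervalIntegrable_section k (pt_zero_mem hv) hv)
  have hsub : Icc v v' ⊆ {s : ℝ | pt u s ∈ lens} := by
    rw [← uIcc_of_le hlt.le]; exact uIcc_subset hv hv'
  have h2 : 0 < ∫ s in v..v', lap (lensPow k) (pt u s) := by
    apply intervalIntegral.integral_pos hlt ((continuousOn_section k u).mono hsub)
      (fun _ _ => lap_nonneg _ _)
    by_cases h0 : v = 0
    · refine ⟨v', ⟨hlt.le, le_rfl⟩, lap_pos k hv' fun h => ?_⟩
      have := congrArg Complex.im h
      simp at this
      linarith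
    · refine ⟨v, ⟨le_rfl, hlt.le⟩, lap_pos k hv fun h => ?_⟩
      have := congrArg Complex.im h
      simp at this
      exact h0 this
  unfold xi
  linarith

theorem xi_nonneg (k : ℕ) (u : ℝ) {v : ℝ} (hv : 0 ≤ v) : 0 ≤ xi k u v :=
  intervalIntegral.integral_nonneg hv fun _ _ => lap_nonneg _ _

theorem xi_neg (k : ℕ) {u v : ℝ} (hv : pt u v ∈ lens) : xi k u (-v) = -xi k u v := by
  unfold xi
  have h := intervalIntegral.integral_comp_neg (a := v) (b := 0)
    (fun s => lap (lensPow k) (pt u s))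
  rw [neg_zero] at h
  rw [← h, intervalIntegral.integral_symm 0 v]
  congr 1
  apply intervalIntegral.integral_congr
  intro s hs
  have := uIcc_subset (pt_zero_mem hv) hv hs
  show lap (lensPow k) (pt u (-s)) = _
  rw [← conj_pt, lap_conj k this]

theorem xi_le (k : ℕ) {u v h₀ : ℝ} (hw : pt u v ∈ lens) (hv : 0 ≤ v) (hh : 0 < h₀)
    {β β' : ℝ → ℝ} (hβ : ∀ t, HasDerivAt β (β' t) t) (hβ' : ∀ t, 0 ≤ β' t)
    (hcase : ∀ s ∈ Icc 0 v, h₀ ≤ (lensInv (pt u s) * lensDer (lensInv (pt u s))).im ∨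
      Complex.normSq (lensInv (pt u s)) ^ k ≤ β' (lensInv (pt u s)).im) :
    xi k u v ≤ 2 * (k + 1) / h₀ * Complex.normSq (lensPow k (pt u v))
      + 8 * (k + 1) ^ 2 * (β (lensInv (pt u v)).im - β 0) := by
  have hmem : ∀ s ∈ Icc 0 v, pt u s ∈ lens := fun s hs => (vertical hw hs).1
  have hd : ∀ s ∈ Icc 0 v, HasDerivAt
      (fun s => 2 * (k + 1) / h₀ * Complex.normSq (lensInv (pt u s)) ^ (k + 1)
        + 8 * (k + 1) ^ 2 * β (lensInv (pt u s)).im - xi k u s)
      (2 * (k + 1) / h₀ * ((k + 1 : ℕ) * Complex.normSq (lensInv (pt u s)) ^ k *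
          (2 * (lensInv (pt u s) * lensDer (lensInv (pt u s))).im
            / Complex.normSq (lensDer (lensInv (pt u s)))))
        + 8 * (k + 1) ^ 2 * (β' (lensInv (pt u s)).im * ((lensDer (lensInv (pt u s))).re
          / Complex.normSq (lensDer (lensInv (pt u s))))) - lap (lensPow k) (pt u s)) s := by
    intro s hs
    have h1 := ((hasDerivAt_normSq_pt (hmem s hs)).pow (k + 1)).const_mul (2 * (k + 1) / h₀)
    have h2 := (HasDerivAt.comp s (h₂ := β) (hβ _) (hasDerivAt_im_pt (hmem s hs))).const_mul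
      (8 * ((k : ℝ) + 1) ^ 2)
    exact (h1.add h2).sub (hasDerivAt_xi k (hmem s hs))
  have hmono := monotoneOn_of_hasDerivWithinAt_nonneg (convex_Icc (0 : ℝ) v)
    (fun t ht => (hd t ht).continuousAt.continuousWithinAt)
    (fun t ht => (hd t (interior_subset ht)).hasDerivWithinAt) (fun s hs => by
      have hs' := interior_subset hs
      have hm := hmem s hs'
      rw [lap_lensPow k hm]
      have a1 := Complex.normSq_pos.2 (lensDer_ne (norm_lensInv hm))
      have a2 := re_lensDer (norm_lensInv hm)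
      have a3 := im_H_nonneg (norm_lensInv hm) (im_lensInv_nonneg hm (by simpa using hs'.1))
      have a4 : 0 ≤ Complex.normSq (lensInv (pt u s)) ^ k :=
        pow_nonneg (Complex.normSq_nonneg _) _
      have a5 := hβ' (lensInv (pt u s)).im
      have hc := hcase s hs'
      set N := Complex.normSq (lensInv (pt u s)) ^ k
      set D := Complex.normSq (lensDer (lensInv (pt u s)))
      set H := (lensInv (pt u s) * lensDer (lensInv (pt u s))).im
      set R := (lensDer (lensInv (pt u s))).re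
      set b := β' (lensInv (pt u s)).im
      have e : 2 * (k + 1) / h₀ * ((k + 1 : ℕ) * N * (2 * H / D))
          + 8 * (k + 1) ^ 2 * (b * (R / D)) - 4 * (k + 1) ^ 2 * N / D
          = 4 * (k + 1) ^ 2 / (D * h₀) * (N * H + 2 * b * R * h₀ - N * h₀) := by
        push_cast
        field_simp
        ring
      rw [e]
      apply mul_nonneg (by positivity)
      have a6 : 0 ≤ b * R := mul_nonneg a5 (by linarith)
      rcases hc with hc | hc
      · nlinarith [mul_le_mul_of_nonneg_left hc a4, mul_nonneg a6 hh.le]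
      · have a7 : N ≤ 2 * b * R := by nlinarith
        nlinarith [mul_le_mul_of_nonneg_right a7 hh.le, mul_nonneg a4 a3])
  have h := hmono (show (0 : ℝ) ∈ Icc (0 : ℝ) v from ⟨le_rfl, hv⟩)
    (show v ∈ Icc (0 : ℝ) v from ⟨hv, le_rfl⟩) hv
  have h0 : (lensInv (pt u 0)).im = 0 := im_lensInv_zero (pt_zero_mem hw) (by simp)
  have h1 : xi k u 0 = 0 := by simp [xi]
  simp only [h0, h1] at h
  have h2 : 0 ≤ 2 * (k + 1) / h₀ * Complex.normSq (lensInv (pt u 0)) ^ (k + 1) := by
    have := Complex.normSq_nonneg (lensInv (pt u 0))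
    positivity
  rw [normSq_lensPow]
  linarith

theorem abs_xi_le (k : ℕ) {u : ℝ} {B : ℝ → ℝ} (hB : ∀ v, pt u v ∈ lens → B (-v) = B v)
    (h : ∀ v, pt u v ∈ lens → 0 ≤ v → xi k u v ≤ B v) {v : ℝ} (hv : pt u v ∈ lens) :
    |xi k u v| ≤ B v := by
  rcases le_total 0 v with h0 | h0
  · rw [abs_of_nonneg (xi_nonneg k u h0)]
    exact h v hv h0
  · have h1 : pt u (-v) ∈ lens := by rw [← conj_pt]; exact conj_mem_lens hv
    have h2 := h (-v) h1 (by linarith)
    have h3 := xi_nonneg k u (v := -v) (by linarith)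
    rw [hB v hv] at h2
    rw [xi_neg k hv] at h2 h3
    rw [abs_of_nonpos (by linarith)]
    exact h2

theorem normSq_lensPow_le (k : ℕ) {w : ℂ} (hw : w ∈ lens) : Complex.normSq (lensPow k w) ≤ 1 := by
  rw [normSq_lensPow]
  exact pow_le_one₀ (Complex.normSq_nonneg _) (normSq_lt_one (norm_lensInv hw)).le

theorem abs_xi_le_uniform (k : ℕ) {u v : ℝ} (hw : pt u v ∈ lens) :
    |xi k u v| ≤ 14 * (k + 1) := by
  refine abs_xi_le k (B := fun _ => 14 * (k + 1)) (fun _ _ => rfl) (fun v hw hv => ?_) hw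
  have hβ : ∀ t : ℝ, HasDerivAt (fun t : ℝ => -((1 - t) ^ (2 * k + 1) / (2 * k + 1 : ℕ)))
      ((1 - t) ^ (2 * k)) t := by
    intro t
    have h1 : HasDerivAt (fun t : ℝ => 1 - t) (-1) t := by
      simpa using (hasDerivAt_id t).const_sub 1
    refine (((h1.pow (2 * k + 1)).div_const ((2 * k + 1 : ℕ) : ℝ)).neg).congr_deriv ?_
    have : ((2 * k + 1 : ℕ) : ℝ) ≠ 0 := Nat.cast_ne_zero.2 (Nat.succ_ne_zero _)
    rw [Nat.add_sub_cancel]
    field_simp
  have h := xi_le k hw hv (h₀ := π / 8) (by positivity) hβ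
    (fun t => by rw [pow_mul]; positivity) (fun s hs => by
      have hm := (vertical hw hs).1
      have a1 := normSq_lt_one (norm_lensInv hm)
      rcases le_total (1 - Complex.normSq (lensInv (pt u s))) (2 * (lensInv (pt u s)).im)
        with h | h
      · left
        rw [im_mul_lensDer (norm_lensInv hm)]
        have : 1 ≤ 2 * (lensInv (pt u s)).im / (1 - Complex.normSq (lensInv (pt u s))) := by
          rw [le_div_iff₀ (by linarith)]; linarith
        have := arctan_mono this
        rw [arctan_one] at this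
        linarith
      · right
        rw [pow_mul]
        apply pow_le_pow_left₀ (Complex.normSq_nonneg _)
        nlinarith [sq_nonneg (lensInv (pt u s)).im])
  have h1 := normSq_lensPow_le k hw
  have h2 : (lensInv (pt u v)).im ≤ 1 :=
    ((le_abs_self _).trans (Complex.abs_im_le_norm _)).trans (norm_lensInv hw).le
  have h3 : 0 ≤ (1 - (lensInv (pt u v)).im) ^ (2 * k + 1) / (2 * k + 1 : ℕ) := by
    have : 0 ≤ 1 - (lensInv (pt u v)).im := by linarith
    positivity
  have h4 : 2 * ((k : ℝ) + 1) / (π / 8) ≤ 6 * (k + 1) := by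
    rw [div_le_iff₀ (by positivity)]
    have := pi_gt_three
    have : (0 : ℝ) ≤ k := Nat.cast_nonneg k
    nlinarith
  have h5 : 8 * ((k : ℝ) + 1) ^ 2 * (1 / (2 * k + 1 : ℕ)) ≤ 8 * (k + 1) := by
    push_cast
    have : (0 : ℝ) ≤ k := Nat.cast_nonneg k
    rw [mul_one_div, div_le_iff₀ (by positivity)]
    nlinarith
  have h6 : 2 * ((k : ℝ) + 1) / (π / 8) * Complex.normSq (lensPow k (pt u v))
      ≤ 2 * ((k : ℝ) + 1) / (π / 8) := mul_le_of_le_one_right (by positivity) h1
  have h7 : 8 * ((k : ℝ) + 1) ^ 2 * (-((1 - (lensInv (pt u v)).im) ^ (2 * k + 1) / (2 * k + 1 : ℕ))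
      - -((1 - 0) ^ (2 * k + 1) / (2 * k + 1 : ℕ))) ≤ 8 * ((k : ℝ) + 1) ^ 2 * (1 / (2 * k + 1 : ℕ)) := by
    apply mul_le_mul_of_nonneg_left _ (by positivity)
    rw [sub_zero, one_pow]
    linarith
  linarith

theorem abs_xi_le_sharp {c T : ℝ} (hc0 : 0 ≤ c) (hc : c < π ^ 2 / 8) (hT : 0 < T) :
    ∃ r₀ : ℝ, 0 ≤ r₀ ∧ r₀ < 1 ∧ ∀ (k : ℕ) (u v : ℝ), pt u v ∈ lens → |u| ≤ c →
      |xi k u v| ≤ 4 * (k + 1) / arctan T * Complex.normSq (lensPow k (pt u v))
        + 8 * (k + 1) ^ 2 * r₀ ^ k := by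
  obtain ⟨r₀, hr0, hr1, hr⟩ := exists_radius hc0 hc hT.le
  refine ⟨r₀ ^ 2, by positivity, by nlinarith, fun k u v hw hu => ?_⟩
  refine abs_xi_le k (B := fun v => 4 * (k + 1) / arctan T * Complex.normSq (lensPow k (pt u v))
        + 8 * (k + 1) ^ 2 * (r₀ ^ 2) ^ k) (fun v hv => ?_) (fun v hw hv => ?_) hw
  · simp only [← conj_pt, normSq_lensPow, lensInv_conj hv, Complex.normSq_conj]
  have hβ : ∀ t : ℝ, HasDerivAt (fun t : ℝ => (r₀ ^ 2) ^ k * t) ((r₀ ^ 2) ^ k) t := by
    intro t
    simpa using (hasDerivAt_id t).const_mul ((r₀ ^ 2) ^ k)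
  have hat := arctan_pos.2 hT
  have h := xi_le k hw hv (h₀ := 1 / 2 * arctan T) (by positivity) hβ
    (fun t => by positivity) (fun s hs => by
      have hm := (vertical hw hs).1
      have a1 := normSq_lt_one (norm_lensInv hm)
      rcases le_total (T * (1 - Complex.normSq (lensInv (pt u s)))) (2 * (lensInv (pt u s)).im)
        with h | h
      · left
        rw [im_mul_lensDer (norm_lensInv hm)]
        have : T ≤ 2 * (lensInv (pt u s)).im / (1 - Complex.normSq (lensInv (pt u s))) := by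
          rw [le_div_iff₀ (by linarith)]; linarith
        have := arctan_mono this
        linarith
      · right
        have := hr _ (norm_lensInv hm) (by rw [lensMap_lensInv hm]; simpa using hu)
          (im_lensInv_nonneg hm (by simpa using hs.1)) h
        rw [Complex.normSq_eq_norm_sq]
        gcongr)
  have h2 : (lensInv (pt u v)).im ≤ 1 :=
    ((le_abs_self _).trans (Complex.abs_im_le_norm _)).trans (norm_lensInv hw).le
  have h3 : 2 * ((k : ℝ) + 1) / (1 / 2 * arctan T) = 4 * (k + 1) / arctan T := by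
    field_simp
    norm_num
  rw [h3] at h
  have h4 : 8 * ((k : ℝ) + 1) ^ 2 * ((r₀ ^ 2) ^ k * (lensInv (pt u v)).im - (r₀ ^ 2) ^ k * 0)
      ≤ 8 * (k + 1) ^ 2 * (r₀ ^ 2) ^ k := by
    apply mul_le_mul_of_nonneg_left _ (by positivity)
    rw [mul_zero, sub_zero]
    exact mul_le_of_le_one_right (by positivity) h2
  linarith

end Vale.Agent.P248
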